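import Vale.Agent.P247.H94.IL2
import Vale.Agent.P247.H957.Fl0

/-!
# The a priori estimate for Dirac operators on `L²` sections
-/

open scoped ContDiff Topology
open Set MeasureTheory Filter Metric

noncomputable section

namespace Vale.Agent.P247.H94

open Vale.Agent.P247.H74 Vale.Agent.P247.H574 Vale.Agent.P247.H957 IL

/-! ## Multiplication operators -/

/-- multiplication by a continuous function is a bounded operator -/
theorem exists_mulOp {f : R4 → ℂ} (hf : Continuous f) :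
    ∃ M : H →L[ℂ] H, ∀ w : H, M w =ᵐ[mQ] fun x => f x * w x := by
  obtain ⟨C, hC⟩ := (isCompact_Icc (a := (0 : R4)) (b := 1)).exists_bound_of_continuousOn
    hf.continuousOn
  have hae : ∀ᵐ x ∂mQ, ‖f x‖ ≤ C := by
    rw [ae_restrict_iff' measurableSet_Icc]
    exact Eventually.of_forall fun x hx => hC x hx
  have hmem : ∀ w : H, MemLp (fun x => f x * w x) 2 mQ := by
    intro w
    refine (Lp.memLp w).of_le_mul (c := C) (hf.aestronglyMeasurable.mul (Lp.aestronglyMeasurable w))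
      ?_
    filter_upwards [hae] with x hx
    rw [norm_mul]
    gcongr
  let L : H →ₗ[ℂ] H :=
    { toFun := fun w => (hmem w).toLp _
      map_add' := by
        intro v w
        refine Lp.ext ?_
        filter_upwards [(hmem (v + w)).coeFn_toLp, (hmem v).coeFn_toLp, (hmem w).coeFn_toLp,
          Lp.coeFn_add v w, Lp.coeFn_add ((hmem v).toLp _) ((hmem w).toLp _)] with x h1 h2 h3 h4 h5
        rw [h1, h5, Pi.add_apply, h2, h3, h4, Pi.add_apply]
        ring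
      map_smul' := by
        intro c w
        refine Lp.ext ?_
        filter_upwards [(hmem (c • w)).coeFn_toLp, (hmem w).coeFn_toLp,
          Lp.coeFn_smul c w, Lp.coeFn_smul c ((hmem w).toLp _)] with x h1 h2 h3 h4
        rw [RingHom.id_apply, h1, h4, Pi.smul_apply, h2, h3, Pi.smul_apply, smul_eq_mul, smul_eq_mul]
        ring }
  have hb : ∀ w, ‖L w‖ ≤ C * ‖w‖ := by
    intro w
    refine Lp.norm_le_mul_norm_of_ae_le_mul ?_
    filter_upwards [(hmem w).coeFn_toLp, hae] with x h1 h2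
    change ‖((hmem w).toLp _ : H) x‖ ≤ _
    rw [h1, norm_mul]
    gcongr
  exact ⟨L.mkContinuous C hb, fun w => (hmem w).coeFn_toLp⟩

theorem mulOp_ae {f : R4 → ℂ} (hf : Continuous f) (w : H) :
    mulOp f w =ᵐ[mQ] fun x => f x * w x := by
  unfold mulOp
  rw [dif_pos (exists_mulOp hf)]
  exact (exists_mulOp hf).choose_spec w

theorem rep_mulOp {f : R4 → ℂ} (hf : Continuous f) {w : H} {φ : R4 → ℂ} (h : Rep w φ) :
    Rep (mulOp f w) fun x => f x * φ x := by
  filter_upwards [mulOp_ae hf w, h] with x h1 h2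
  rw [h1, h2]

theorem rep_add {v w : H} {φ χ : R4 → ℂ} (h : Rep v φ) (h' : Rep w χ) :
    Rep (v + w) fun x => φ x + χ x := by
  filter_upwards [Lp.coeFn_add v w, h, h'] with x h1 h2 h3
  rw [h1, Pi.add_apply, h2, h3]

theorem rep_sum {ι : Type*} (s : Finset ι) {w : ι → H} {φ : ι → R4 → ℂ}
    (h : ∀ i ∈ s, Rep (w i) (φ i)) : Rep (∑ i ∈ s, w i) fun x => ∑ i ∈ s, φ i x := by
  classical
  induction s using Finset.induction_on with
  | empty =>
    filter_upwards [Lp.coeFn_zero ℂ 2 mQ] with x h1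
    simpa using h1
  | insert a s has ih =>
    rw [Finset.sum_insert has]
    have h1 := rep_add (h a (Finset.mem_insert_self a s))
      (ih fun i hi => h i (Finset.mem_insert_of_mem hi))
    filter_upwards [h1] with x h2
    rw [h2, Finset.sum_insert has]

/-- the norm of a represented element -/
theorem rep_norm_sq {w : H} {φ : R4 → ℂ} (h : Rep w φ) :
    ‖w‖ ^ 2 = ci fun x => ‖φ x‖ ^ 2 := by
  have h1 : (inner ℂ w w : ℂ) = ∫ x, inner ℂ (w x) (w x) ∂mQ := L2.inner_def w w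
  have h2 : ∫ x, inner ℂ (w x) (w x) ∂mQ = ((∫ x, ‖φ x‖ ^ 2 ∂mQ : ℝ) : ℂ) := by
    have h3 : ((∫ x, ‖φ x‖ ^ 2 ∂mQ : ℝ) : ℂ) = ∫ x, ((‖φ x‖ ^ 2 : ℝ) : ℂ) ∂mQ :=
      (integral_ofReal (𝕜 := ℂ)).symm
    rw [h3]
    refine integral_congr_ae ?_
    filter_upwards [h] with x hx
    rw [hx, inner_self_eq_norm_sq_to_K]
    simp
  rw [h2, inner_self_eq_norm_sq_to_K] at h1
  have h3 : ((‖w‖ ^ 2 : ℝ) : ℂ) = ((∫ x, ‖φ x‖ ^ 2 ∂mQ : ℝ) : ℂ) := by
    push_cast
    exact h1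
  exact_mod_cast h3

/-! ## The base connection -/

theorem contDiff_A0 (ξ : ℝ × ℝ) : ContDiff ℝ ∞ (A0 ξ) := by
  unfold A0
  have h1 : ContDiff ℝ ∞ fun x : R4 => 2 * Real.pi * x 0 :=
    contDiff_const.mul (contDiff_apply ℝ ℝ (0 : Fin 4))
  exact ((h1.smul contDiff_const).sub contDiff_const).sub contDiff_const

theorem con_A0 (ξ : ℝ × ℝ) : Con (A0 ξ) := by
  intro k x
  unfold A0 tr
  ext v
  simp
  ring

theorem sec_tw {φ : R4 → ℂ} (h : Sec φ) : Tw φ := h.per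

/-! ## The operator -/

/-- the Dirac operator with symbol `γ` composed with `J`, on two-component fields -/
def Dop (G : ℝ × ℝ → Fin 4 → H →L[ℂ] H) (γ : Fin 4 → R4 → Matrix (Fin 2) (Fin 2) ℂ) (ξ : ℝ × ℝ)
    (w : Fin 2 → H) (c : Fin 2) : H :=
  ∑ j, ∑ d, mulOp (fun x => γ j x c d) (G ξ j (w d))

theorem continuous_Dop (G : ℝ × ℝ → Fin 4 → H →L[ℂ] H)
    (γ : Fin 4 → R4 → Matrix (Fin 2) (Fin 2) ℂ) (ξ : ℝ × ℝ) (c : Fin 2) :
    Continuous fun w : Fin 2 → H => Dop G γ ξ w c := by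
  unfold Dop
  exact continuous_finsetSum _ fun j _ => continuous_finsetSum _ fun d _ =>
    (mulOp _).continuous.comp ((G ξ j).continuous.comp (continuous_apply d))

/-- E1: the a priori estimate. -/
theorem E1 {J : ℝ × ℝ → H →L[ℂ] H} {G : ℝ × ℝ → Fin 4 → H →L[ℂ] H} (hF : Fl J G)
    {γ : Fin 4 → R4 → Matrix (Fin 2) (Fin 2) ℂ} {g : Fin 4 → Fin 4 → R4 → ℝ} {lam : ℝ}
    (h : Cliff γ g lam) (hg : ∀ j k, Continuous (g j k)) (ξ : ℝ × ℝ) :
    ∃ C : ℝ, 0 < C ∧ ∀ w : Fin 2 → H,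
      ∑ d, ‖w d‖ ^ 2 ≤ C * (∑ c, ‖Dop G γ ξ w c‖ ^ 2 + ∑ d, ‖J ξ (w d)‖ ^ 2) := by
  obtain ⟨C, hC, hgar⟩ := garding h hg (contDiff_A0 ξ) (con_A0 ξ)
  refine ⟨C + 1, by positivity, ?_⟩
  let S : Set (Fin 2 → H) := {w | ∑ d, ‖w d‖ ^ 2 ≤
    (C + 1) * (∑ c, ‖Dop G γ ξ w c‖ ^ 2 + ∑ d, ‖J ξ (w d)‖ ^ 2)}
  have hS : IsClosed S := by
    refine isClosed_le ?_ ?_
    · exact continuous_finsetSum _ fun d _ => (continuous_apply d).norm.pow 2
    · exact continuous_const.mul ((continuous_finsetSum _ fun c _ =>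
        (continuous_Dop G γ ξ c).norm.pow 2).add (continuous_finsetSum _ fun d _ =>
          ((J ξ).continuous.comp (continuous_apply d)).norm.pow 2))
  have hd : Dense (pi univ fun _ : Fin 2 =>
      {w : H | ∃ φ, Sec φ ∧ Rep (J ξ w) φ ∧ ∀ j, Rep (G ξ j w) (nb ξ j φ)}) :=
    dense_pi univ fun _ _ => hF.dense ξ
  have hsub : (pi univ fun _ : Fin 2 =>
      {w : H | ∃ φ, Sec φ ∧ Rep (J ξ w) φ ∧ ∀ j, Rep (G ξ j w) (nb ξ j φ)}) ⊆ S := by
    intro w hw
    have hw' : ∀ d, ∃ φ, Sec φ ∧ Rep (J ξ (w d)) φ ∧ ∀ j, Rep (G ξ j (w d)) (nb ξ j φ) :=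
      fun d => hw d (mem_univ d)
    choose φ hφ hJ hGj using hw'
    have hn : ∑ d, ‖w d‖ ^ 2 = ci (fun x => ∑ d, ‖φ d x‖ ^ 2) +
        ci (fun x => ∑ d, ∑ j, ‖nab (A0 ξ) (φ d) x (e j)‖ ^ 2) := by
      have hc1 : ∀ d, Continuous fun x => ‖φ d x‖ ^ 2 := fun d =>
        (hφ d).smooth.continuous.norm.pow 2
      have hc2 : ∀ d j, Continuous fun x => ‖nab (A0 ξ) (φ d) x (e j)‖ ^ 2 := fun d j =>
        (contDiff_nab (contDiff_A0 ξ) (hφ d).smooth (e j)).continuous.norm.pow 2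
      rw [ci_sum _ fun d _ => hc1 d, ci_sum _ fun d _ => continuous_finsetSum _ fun j _ => hc2 d j,
        ← Finset.sum_add_distrib]
      refine Finset.sum_congr rfl fun d _ => ?_
      rw [ci_sum _ fun j _ => hc2 d j, hF.norm ξ (w d), rep_norm_sq (hJ d)]
      congr 1
      exact Finset.sum_congr rfl fun j _ => rep_norm_sq (hGj d j)
    have hJn : ∑ d, ‖J ξ (w d)‖ ^ 2 = ci (fun x => ∑ d, ‖φ d x‖ ^ 2) := by
      have hc1 : ∀ d, Continuous fun x => ‖φ d x‖ ^ 2 := fun d =>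
        (hφ d).smooth.continuous.norm.pow 2
      rw [ci_sum _ fun d _ => hc1 d]
      exact Finset.sum_congr rfl fun d _ => rep_norm_sq (hJ d)
    have hDn : ∑ c, ‖Dop G γ ξ w c‖ ^ 2 =
        ci (fun x => ∑ c, ‖∑ j, ∑ d, γ j x c d * nab (A0 ξ) (φ d) x (e j)‖ ^ 2) := by
      have hc : ∀ c, Continuous fun x =>
          ‖∑ j, ∑ d, γ j x c d * nab (A0 ξ) (φ d) x (e j)‖ ^ 2 := fun c =>
        (continuous_finsetSum _ fun j _ => continuous_finsetSum _ fun d _ =>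
          (h.smooth j c d).continuous.mul
            (contDiff_nab (contDiff_A0 ξ) (hφ d).smooth (e j)).continuous).norm.pow 2
      rw [ci_sum _ fun c _ => hc c]
      refine Finset.sum_congr rfl fun c _ => ?_
      refine rep_norm_sq ?_
      unfold Dop
      refine rep_sum _ fun j _ => rep_sum _ fun d _ => ?_
      exact rep_mulOp (h.smooth j c d).continuous (hGj d j)
    change ∑ d, ‖w d‖ ^ 2 ≤ (C + 1) * (∑ c, ‖Dop G γ ξ w c‖ ^ 2 + ∑ d, ‖J ξ (w d)‖ ^ 2)
    rw [hn, hJn, hDn]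
    have h1 := hgar φ (fun d => (hφ d).smooth) (fun d => sec_tw (hφ d))
    have h2 : 0 ≤ ci (fun x => ∑ c, ‖∑ j, ∑ d, γ j x c d * nab (A0 ξ) (φ d) x (e j)‖ ^ 2) :=
      ci_nonneg fun x => Finset.sum_nonneg fun c _ => by positivity
    nlinarith
  intro w
  have : w ∈ closure (pi univ fun _ : Fin 2 =>
      {w : H | ∃ φ, Sec φ ∧ Rep (J ξ w) φ ∧ ∀ j, Rep (G ξ j w) (nb ξ j φ)}) := hd w
  exact hS.closure_subset_iff.mpr hsub this

/-! ## Symbols given by a frame -/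

/-- the symbol `γⱼ = ∑ₐ Eₐⱼ τₐ` -/
def symF (τ : Fin 4 → Matrix (Fin 2) (Fin 2) ℂ) (E : Fin 4 → Fin 4 → R4 → ℝ) (j : Fin 4) (x : R4) :
    Matrix (Fin 2) (Fin 2) ℂ := ∑ a, (E a j x : ℂ) • τ a

/-- the inverse metric of the frame -/
def metF (E : Fin 4 → Fin 4 → R4 → ℝ) (j k : Fin 4) (x : R4) : ℝ := ∑ a, E a j x * E a k x

theorem cliff_of_frame {τ : Fin 4 → Matrix (Fin 2) (Fin 2) ℂ}
    (hτ : ∀ a b, (τ a).conjTranspose * τ b + (τ b).conjTranspose * τ a = if a = b then 2 else 0)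
    {E : Fin 4 → Fin 4 → R4 → ℝ} (hE : ∀ a i, ContDiff ℝ ∞ (E a i)) (hp : ∀ a i, Pe (E a i))
    (hdet : ∀ x, (Matrix.of fun a i => E a i x).det ≠ 0) :
    ∃ lam : ℝ, Cliff (symF τ E) (metF E) lam := by
  -- bound of the inverse matrix
  let A : R4 → Matrix (Fin 4) (Fin 4) ℝ := fun x => Matrix.of fun a i => E a i x
  have hAc : Continuous A := continuous_matrix fun a i => (hE a i).continuous
  have hinv : ∃ M : ℝ, 0 ≤ M ∧ ∀ i a x, |(A x)⁻¹ i a| ≤ M := by
    have h1 : ∀ i a, ∃ M : ℝ, 0 ≤ M ∧ ∀ x, ‖(A x)⁻¹ i a‖ ≤ M := by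
      intro i a
      refine Pe.bdd ?_ ?_
      · have h2 : ∀ x, (A x)⁻¹ i a = (A x).det⁻¹ * (A x).adjugate i a := by
          intro x
          rw [Matrix.inv_def, Ring.inverse_eq_inv']
          rfl
        simp only [h2]
        refine Continuous.mul (Continuous.inv₀ hAc.matrix_det fun x => hdet x) ?_
        exact hAc.matrix_adjugate.matrix_elem i a
      · intro n x
        have : A (tr n x) = A x := by
          ext a i
          exact hp a i n x
        simp only [this]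
    choose M hM0 hM using h1
    refine ⟨∑ i, ∑ a, M i a, Finset.sum_nonneg fun i _ => Finset.sum_nonneg fun a _ => hM0 i a, ?_⟩
    intro i a x
    refine (hM i a x).trans ?_
    refine le_trans ?_ (Finset.single_le_sum (f := fun i => ∑ a, M i a)
      (fun i _ => Finset.sum_nonneg fun a _ => hM0 i a) (Finset.mem_univ i))
    exact Finset.single_le_sum (f := fun a => M i a) (fun a _ => hM0 i a) (Finset.mem_univ a)
  obtain ⟨M, hM0, hM⟩ := hinv
  refine ⟨(16 * (M ^ 2 + 1))⁻¹, ?_, ?_, ?_, by positivity, ?_⟩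
  · intro j c d
    have h1 : (fun x => symF τ E j x c d) = fun x => ∑ a, (E a j x : ℂ) * τ a c d := by
      funext x
      simp [symF, Matrix.sum_apply]
    rw [h1]
    exact ContDiff.sum fun a _ => (Complex.ofRealCLM.contDiff.comp (hE a j)).mul contDiff_const
  · intro j n x
    unfold symF
    exact Finset.sum_congr rfl fun a _ => by rw [hp a j n x]
  · intro x j k
    have h1 : (symF τ E j x).conjTranspose * symF τ E k x +
        (symF τ E k x).conjTranspose * symF τ E j x =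
        ∑ a, ∑ b, ((E a j x : ℂ) * (E b k x : ℂ)) •
          ((τ a).conjTranspose * τ b + (τ b).conjTranspose * τ a) := by
      unfold symF
      rw [Matrix.conjTranspose_sum, Matrix.conjTranspose_sum, Finset.sum_mul_sum,
        Finset.sum_mul_sum]
      rw [Finset.sum_comm (f := fun i j_1 => ((E i k x : ℂ) • τ i).conjTranspose *
        ((E j_1 j x : ℂ) • τ j_1)), ← Finset.sum_add_distrib]
      refine Finset.sum_congr rfl fun a _ => ?_
      rw [← Finset.sum_add_distrib]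
      refine Finset.sum_congr rfl fun b _ => ?_
      rw [Matrix.conjTranspose_smul, Matrix.conjTranspose_smul]
      simp only [Matrix.smul_mul, Matrix.mul_smul, smul_smul, smul_add, RCLike.star_def,
        Complex.conj_ofReal]
      congr 2
      ring
    rw [h1]
    simp only [hτ]
    have h2 : ∀ a, ∑ b, ((E a j x : ℂ) * (E b k x : ℂ)) •
        (if a = b then (2 : Matrix (Fin 2) (Fin 2) ℂ) else 0) =
        ((E a j x : ℂ) * (E a k x : ℂ)) • (2 : Matrix (Fin 2) (Fin 2) ℂ) := by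
      intro a
      rw [Finset.sum_eq_single a]
      · simp
      · intro b _ hb
        rw [if_neg (Ne.symm hb), smul_zero]
      · simp
    simp only [h2]
    rw [← Finset.sum_smul]
    unfold metF
    push_cast
    have h3 : (2 : Matrix (Fin 2) (Fin 2) ℂ) = (2 : ℂ) • 1 := by
      ext i j
      fin_cases i <;> fin_cases j <;> simp [Matrix.ofNat_apply]
    rw [h3, smul_smul]
    congr 1
    ring
  · intro x ζ
    have h1 : (∑ j, ∑ k, (metF E j k x : ℂ) * ((starRingEnd ℂ) (ζ j) * ζ k)).re =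
        ∑ a, ‖∑ j, (E a j x : ℂ) * ζ j‖ ^ 2 := by
      have h2 : ∑ j, ∑ k, (metF E j k x : ℂ) * ((starRingEnd ℂ) (ζ j) * ζ k) =
          ∑ a, (starRingEnd ℂ) (∑ j, (E a j x : ℂ) * ζ j) * (∑ k, (E a k x : ℂ) * ζ k) := by
        simp only [metF, Fin.sum_univ_four, map_add, map_mul, Complex.conj_ofReal]
        push_cast
        ring
      rw [h2, Complex.re_sum]
      refine Finset.sum_congr rfl fun a _ => ?_
      rw [Complex.conj_mul', ← Complex.ofReal_pow, Complex.ofReal_re]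
    rw [h1]
    set y : Fin 4 → ℂ := fun a => ∑ j, (E a j x : ℂ) * ζ j with hy
    have hζ : ∀ i, ζ i = ∑ a, ((A x)⁻¹ i a : ℂ) * y a := by
      intro i
      have h2 : (A x)⁻¹ * A x = 1 := Matrix.nonsing_inv_mul _ (Ne.isUnit (hdet x))
      have h3 : ∀ j, ∑ a, ((A x)⁻¹ i a : ℂ) * (E a j x : ℂ) = if i = j then 1 else 0 := by
        intro j
        have h4 := congrFun (congrFun h2 i) j
        rw [Matrix.mul_apply, Matrix.one_apply] at h4
        have h5 := congrArg (fun t : ℝ => (t : ℂ)) h4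
        simp only [Complex.ofReal_sum, Complex.ofReal_mul] at h5
        rw [show (∑ a, ((A x)⁻¹ i a : ℂ) * (E a j x : ℂ)) = ∑ a, ((A x)⁻¹ i a : ℂ) * (A x a j : ℂ)
          from rfl, h5]
        split_ifs <;> simp
      calc ζ i = ∑ j, (if i = j then 1 else 0) * ζ j := by simp
        _ = ∑ j, (∑ a, ((A x)⁻¹ i a : ℂ) * (E a j x : ℂ)) * ζ j := by simp only [h3]
        _ = _ := by
          simp only [hy, Finset.sum_mul, Finset.mul_sum]
          rw [Finset.sum_comm]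
          refine Finset.sum_congr rfl fun a _ => Finset.sum_congr rfl fun j _ => by ring
    have hb : ∀ i, ‖ζ i‖ ^ 2 ≤ 4 * M ^ 2 * ∑ a, ‖y a‖ ^ 2 := by
      intro i
      have h2 : ‖ζ i‖ ≤ M * ∑ a, ‖y a‖ := by
        rw [hζ i, Finset.mul_sum]
        refine (norm_sum_le _ _).trans (Finset.sum_le_sum fun a _ => ?_)
        rw [norm_mul, Complex.norm_real]
        gcongr
        exact hM i a x
      have h3 : (∑ a, ‖y a‖) ^ 2 ≤ 4 * ∑ a, ‖y a‖ ^ 2 := by
        have := sq_sum_le_card_mul_sum_sq (s := Finset.univ) (f := fun a => ‖y a‖)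
        simpa using this
      calc ‖ζ i‖ ^ 2 ≤ (M * ∑ a, ‖y a‖) ^ 2 := by gcongr
        _ = M ^ 2 * (∑ a, ‖y a‖) ^ 2 := by ring
        _ ≤ M ^ 2 * (4 * ∑ a, ‖y a‖ ^ 2) := by gcongr
        _ = _ := by ring
    have hs : ∑ i, ‖ζ i‖ ^ 2 ≤ 16 * M ^ 2 * ∑ a, ‖y a‖ ^ 2 := by
      calc ∑ i, ‖ζ i‖ ^ 2 ≤ ∑ _i : Fin 4, 4 * M ^ 2 * ∑ a, ‖y a‖ ^ 2 :=
            Finset.sum_le_sum fun i _ => hb i
        _ = _ := by simp; ring
    rw [inv_mul_le_iff₀ (by positivity)]
    have h0 : 0 ≤ ∑ a, ‖y a‖ ^ 2 := Finset.sum_nonneg fun a _ => by positivity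
    calc ∑ i, ‖ζ i‖ ^ 2 ≤ 16 * M ^ 2 * ∑ a, ‖y a‖ ^ 2 := hs
      _ ≤ 16 * (M ^ 2 + 1) * ∑ a, ‖y a‖ ^ 2 := by nlinarith

end Vale.Agent.P247.H94
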