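import Vale.Agent.P247.H94.IL3
import Vale.Agent.P363.R.Sob.Density

/-!
# The Gårding inequality for functions with weak derivatives in `L²`
-/

open scoped ContDiff Topology ENNReal NNReal
open Set MeasureTheory Filter Metric

noncomputable section

namespace Vale.Agent.P247.H94.IL

open Vale.Agent.P247.H74 Vale.Agent.P247.H574
open Vale.Agent.P363.R.Sob (IsWD exists_test_approx)

/-- the square of the `L²` norm of a function -/
theorem sq_eLpNorm {f : R4 → ℂ} (hf : MemLp f 2 volume) :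
    ∫ x, ‖f x‖ ^ 2 = (eLpNorm f 2 volume).toReal ^ 2 := by
  have h1 := hf.eLpNorm_eq_integral_rpow_norm (by norm_num) (by norm_num)
  have h0 : 0 ≤ ∫ x, ‖f x‖ ^ 2 := integral_nonneg (fun x => by positivity)
  simp only [ENNReal.toReal_ofNat, Real.rpow_ofNat] at h1
  rw [h1, ENNReal.toReal_ofReal (Real.rpow_nonneg h0 _), ← Real.rpow_natCast,
    ← Real.rpow_mul h0]
  norm_num

theorem alg_aux {C : ℝ} (hC : 0 < C) {X : Fin 2 → Fin 4 → ℝ} {Y Z : Fin 2 → ℝ}
    (hY0 : ∀ c, 0 ≤ Y c) (hZ0 : ∀ c, 0 ≤ Z c)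
    (hI : ∑ d, ∑ j, X d j ^ 2 ≤ C * (∑ c, Y c ^ 2 + ∑ d, Z d ^ 2)) (d0 : Fin 2) (j0 : Fin 4) :
    X d0 j0 ≤ Real.sqrt C * (∑ c, Y c + ∑ d, Z d) := by
  have hle : X d0 j0 ^ 2 ≤ C * (∑ c, Y c + ∑ d, Z d) ^ 2 := by
    calc X d0 j0 ^ 2 ≤ ∑ j, X d0 j ^ 2 :=
          Finset.single_le_sum (f := fun j => X d0 j ^ 2) (fun j _ => sq_nonneg _)
            (Finset.mem_univ j0)
      _ ≤ ∑ d, ∑ j, X d j ^ 2 :=
          Finset.single_le_sum (f := fun d => ∑ j, X d j ^ 2)
            (fun d _ => Finset.sum_nonneg fun j _ => sq_nonneg _) (Finset.mem_univ d0)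
      _ ≤ C * (∑ c, Y c ^ 2 + ∑ d, Z d ^ 2) := hI
      _ ≤ C * (∑ c, Y c + ∑ d, Z d) ^ 2 := by
          refine mul_le_mul_of_nonneg_left ?_ hC.le
          simp only [Fin.sum_univ_two]
          nlinarith [hY0 0, hY0 1, hZ0 0, hZ0 1, mul_nonneg (hY0 0) (hY0 1),
            mul_nonneg (hY0 0) (hZ0 0), mul_nonneg (hY0 0) (hZ0 1), mul_nonneg (hY0 1) (hZ0 0),
            mul_nonneg (hY0 1) (hZ0 1), mul_nonneg (hZ0 0) (hZ0 1)]
  have h1 : 0 ≤ Real.sqrt C * (∑ c, Y c + ∑ d, Z d) :=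
    mul_nonneg (Real.sqrt_nonneg _) (add_nonneg (Finset.sum_nonneg fun c _ => hY0 c)
      (Finset.sum_nonneg fun c _ => hZ0 c))
  refine abs_le_of_sq_le_sq' ?_ h1 |>.2
  rw [mul_pow, Real.sq_sqrt hC.le]
  exact hle

theorem conv_aux {C : ℝ} {x : ℝ≥0∞} {y z : Fin 2 → ℝ≥0∞} (hx : x ≠ ⊤) (hy : ∀ c, y c ≠ ⊤)
    (hz : ∀ c, z c ≠ ⊤)
    (h : x.toReal ≤ Real.sqrt C * (∑ c, (y c).toReal + ∑ d, (z d).toReal)) :
    x ≤ ((Real.sqrt C).toNNReal : ℝ≥0∞) * (∑ c, y c + ∑ d, z d) := by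
  have e5 : ((Real.sqrt C).toNNReal : ℝ≥0∞) = ENNReal.ofReal (Real.sqrt C) := rfl
  have e6 : ∑ c, y c + ∑ d, z d = ENNReal.ofReal (∑ c, (y c).toReal + ∑ d, (z d).toReal) := by
    rw [ENNReal.ofReal_add (Finset.sum_nonneg fun c _ => ENNReal.toReal_nonneg)
      (Finset.sum_nonneg fun c _ => ENNReal.toReal_nonneg),
      ENNReal.ofReal_sum_of_nonneg fun c _ => ENNReal.toReal_nonneg,
      ENNReal.ofReal_sum_of_nonneg fun c _ => ENNReal.toReal_nonneg]
    simp only [ENNReal.ofReal_toReal (hy _), ENNReal.ofReal_toReal (hz _)]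
  rw [e5, e6, ← ENNReal.ofReal_mul (Real.sqrt_nonneg C), ← ENNReal.ofReal_toReal hx]
  exact ENNReal.ofReal_le_ofReal h

theorem int_sq {f : R4 → ℂ} (hf : Continuous f) (hfs : HasCompactSupport f) :
    Integrable fun x => ‖f x‖ ^ 2 := by
  refine (hf.norm.pow 2).integrable_of_hasCompactSupport ?_
  refine HasCompactSupport.intro (K := tsupport f) hfs fun x hx => ?_
  change ‖f x‖ ^ 2 = 0
  rw [image_eq_zero_of_notMem_tsupport hx, norm_zero]
  norm_num

/-- Gårding for smooth functions with compact support, in terms of `L²` norms -/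
theorem garding_s {γ : Fin 4 → R4 → Matrix (Fin 2) (Fin 2) ℂ} {g : Fin 4 → Fin 4 → R4 → ℝ}
    {lam : ℝ} (h : Cliff γ g lam) (hg : ∀ j k, Continuous (g j k)) :
    ∃ C : ℝ≥0, ∀ φ : Fin 2 → R4 → ℂ, (∀ d, ContDiff ℝ ∞ (φ d)) →
      (∀ d, HasCompactSupport (φ d)) → ∀ d j,
      eLpNorm (fun x => fderiv ℝ (φ d) x (e j)) 2 volume ≤
        C * (∑ c, eLpNorm (fun x => ∑ j, ∑ d, γ j x c d * fderiv ℝ (φ d) x (e j)) 2 volume +
          ∑ d, eLpNorm (φ d) 2 volume) := by
  obtain ⟨C, hC, hG⟩ := garding_c h hg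
  refine ⟨(Real.sqrt C).toNNReal, fun φ hφ hs d0 j0 => ?_⟩
  have hder : ∀ d u, Continuous fun x => fderiv ℝ (φ d) x u := fun d u =>
    ((hφ d).continuous_fderiv (by simp)).clm_apply continuous_const
  have hders : ∀ d u, HasCompactSupport fun x => fderiv ℝ (φ d) x u := fun d u =>
    ((hs d).fderiv (𝕜 := ℝ)).comp_left (g := fun A : R4 →L[ℝ] ℂ => A u) (by simp)
  have m1 : ∀ d u, MemLp (fun x => fderiv ℝ (φ d) x u) 2 (volume : Measure R4) := fun d u =>
    (hder d u).memLp_of_hasCompactSupport (hders d u)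
  have m0 : ∀ d, MemLp (φ d) 2 (volume : Measure R4) := fun d =>
    (hφ d).continuous.memLp_of_hasCompactSupport (hs d)
  have hDc : ∀ c, Continuous fun x => ∑ j, ∑ d, γ j x c d * fderiv ℝ (φ d) x (e j) := fun c =>
    continuous_finsetSum _ fun j _ => continuous_finsetSum _ fun d _ =>
      (h.smooth j c d).continuous.mul (hder d _)
  have hDs : ∀ c, HasCompactSupport fun x => ∑ j, ∑ d, γ j x c d * fderiv ℝ (φ d) x (e j) := by
    intro c
    have hK : IsCompact (⋃ d, tsupport (φ d)) := isCompact_iUnion fun d => hs d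
    refine HasCompactSupport.intro hK fun x hx => ?_
    refine Finset.sum_eq_zero fun j _ => Finset.sum_eq_zero fun d _ => ?_
    have h1 : x ∉ tsupport (φ d) := fun h2 => hx (mem_iUnion.2 ⟨d, h2⟩)
    have h2 : fderiv ℝ (φ d) x = 0 := by
      by_contra h3
      exact h1 (support_fderiv_subset ℝ (f := φ d) h3)
    rw [h2]
    simp
  have m2 : ∀ c, MemLp (fun x => ∑ j, ∑ d, γ j x c d * fderiv ℝ (φ d) x (e j)) 2
      (volume : Measure R4) := fun c => (hDc c).memLp_of_hasCompactSupport (hDs c)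
  have hI := hG φ hφ hs
  have e1 : ∫ x, ∑ d, ∑ j, ‖fderiv ℝ (φ d) x (e j)‖ ^ 2 =
      ∑ d, ∑ j, (eLpNorm (fun x => fderiv ℝ (φ d) x (e j)) 2 volume).toReal ^ 2 := by
    rw [integral_finsetSum _ fun d _ => integrable_finsetSum _ fun j _ =>
      int_sq (hder d _) (hders d _)]
    refine Finset.sum_congr rfl fun d _ => ?_
    rw [integral_finsetSum _ fun j _ => int_sq (hder d _) (hders d _)]
    exact Finset.sum_congr rfl fun j _ => sq_eLpNorm (m1 d (e j))
  have e2 : ∫ x, ∑ c, ‖∑ j, ∑ d, γ j x c d * fderiv ℝ (φ d) x (e j)‖ ^ 2 =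
      ∑ c, (eLpNorm (fun x => ∑ j, ∑ d, γ j x c d * fderiv ℝ (φ d) x (e j)) 2
        volume).toReal ^ 2 := by
    rw [integral_finsetSum _ fun c _ => int_sq (hDc c) (hDs c)]
    exact Finset.sum_congr rfl fun c _ => sq_eLpNorm (m2 c)
  have e3 : ∫ x, ∑ d, ‖φ d x‖ ^ 2 = ∑ d, (eLpNorm (φ d) 2 volume).toReal ^ 2 := by
    rw [integral_finsetSum _ fun c _ => int_sq (hφ c).continuous (hs c)]
    exact Finset.sum_congr rfl fun c _ => sq_eLpNorm (m0 c)
  rw [e1, e2, e3] at hI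
  exact conv_aux (m1 d0 (e j0)).2.ne (fun c => (m2 c).2.ne) (fun c => (m0 c).2.ne)
    (alg_aux hC (fun c => ENNReal.toReal_nonneg) (fun c => ENNReal.toReal_nonneg) hI d0 j0)

/-- the entries of the Clifford matrices are bounded -/
theorem Cliff.entry_bdd {γ : Fin 4 → R4 → Matrix (Fin 2) (Fin 2) ℂ} {g : Fin 4 → Fin 4 → R4 → ℝ}
    {lam : ℝ} (h : Cliff γ g lam) : ∃ M : ℝ≥0, ∀ j c d x, ‖γ j x c d‖ ≤ M := by
  have h1 : ∀ j c d, ∃ M : ℝ, 0 ≤ M ∧ ∀ x, ‖γ j x c d‖ ≤ M := fun j c d =>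
    Pe.bdd (h.smooth j c d).continuous fun n x => by
      rw [h.per j]
  choose M hM0 hM using h1
  refine ⟨⟨∑ j, ∑ c, ∑ d, M j c d, Finset.sum_nonneg fun j _ => Finset.sum_nonneg fun c _ =>
    Finset.sum_nonneg fun d _ => hM0 j c d⟩, fun j c d x => (hM j c d x).trans ?_⟩
  change M j c d ≤ ∑ j, ∑ c, ∑ d, M j c d
  refine le_trans ?_ (Finset.single_le_sum (f := fun j => ∑ c, ∑ d, M j c d)
    (fun j _ => Finset.sum_nonneg fun c _ => Finset.sum_nonneg fun d _ => hM0 j c d)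
    (Finset.mem_univ j))
  refine le_trans ?_ (Finset.single_le_sum (f := fun c => ∑ d, M j c d)
    (fun c _ => Finset.sum_nonneg fun d _ => hM0 j c d) (Finset.mem_univ c))
  exact Finset.single_le_sum (f := fun d => M j c d) (fun d _ => hM0 j c d) (Finset.mem_univ d)

/-- Gårding for functions with weak derivatives in `L²` -/
theorem garding_W {γ : Fin 4 → R4 → Matrix (Fin 2) (Fin 2) ℂ} {g : Fin 4 → Fin 4 → R4 → ℝ}
    {lam : ℝ} (h : Cliff γ g lam) (hg : ∀ j k, Continuous (g j k)) :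
    ∃ C : ℝ≥0, ∀ (v : Fin 2 → R4 → ℂ) (dv : Fin 2 → Fin 4 → R4 → ℂ),
      (∀ d, MemLp (v d) 2 volume) → (∀ d j, MemLp (dv d j) 2 volume) →
      (∀ d j, IsWD volume (e j) (v d) (dv d j)) → ∀ d j,
      eLpNorm (dv d j) 2 volume ≤
        C * (∑ c, eLpNorm (fun x => ∑ j, ∑ d, γ j x c d * dv d j x) 2 volume +
          ∑ d, eLpNorm (v d) 2 volume) := by
  obtain ⟨C, hC⟩ := garding_s h hg
  obtain ⟨M, hM⟩ := h.entry_bdd
  refine ⟨C, fun v dv hv hdv hw d0 j0 => ?_⟩
  choose fn f1 f2 f3 f4 using fun d => exists_test_approx (μ := (volume : Measure R4))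
    (b := fun j : Fin 4 => (e j : R4)) (hv d) (hdv d) (hw d)
  have hder : ∀ d n u, Continuous fun x => fderiv ℝ (fn d n) x u := fun d n u =>
    ((f1 d n).continuous_fderiv (by simp)).clm_apply continuous_const
  have hders : ∀ d n u, HasCompactSupport fun x => fderiv ℝ (fn d n) x u := fun d n u =>
    ((f2 d n).fderiv (𝕜 := ℝ)).comp_left (g := fun A : R4 →L[ℝ] ℂ => A u) (by simp)
  have m1 : ∀ d n u, MemLp (fun x => fderiv ℝ (fn d n) x u) 2 (volume : Measure R4) :=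
    fun d n u => (hder d n u).memLp_of_hasCompactSupport (hders d n u)
  have m0 : ∀ d n, MemLp (fn d n) 2 (volume : Measure R4) := fun d n =>
    (f1 d n).continuous.memLp_of_hasCompactSupport (f2 d n)
  have mγ : ∀ c {w : Fin 2 → Fin 4 → R4 → ℂ}, (∀ d j, MemLp (w d j) 2 volume) →
      ∀ j d, MemLp (fun x => γ j x c d * w d j x) 2 (volume : Measure R4) := by
    intro c w hw j d
    refine (hw d j).of_le_mul (c := M)
      ((h.smooth j c d).continuous.aestronglyMeasurable.mul (hw d j).1) ?_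
    exact Eventually.of_forall fun x => by
      rw [norm_mul]; exact mul_le_mul_of_nonneg_right (hM j c d x) (norm_nonneg _)
  set δ : ℕ → ℝ≥0∞ := fun n => ∑ d, (eLpNorm (fn d n - v d) 2 volume +
    ∑ j, eLpNorm ((fun x => fderiv ℝ (fn d n) x (e j)) - dv d j) 2 volume) with hδ
  have hδ0 : Tendsto δ atTop (𝓝 0) := by
    have h1 : Tendsto δ atTop (𝓝 (∑ _d : Fin 2, ((0 : ℝ≥0∞) + ∑ _j : Fin 4, (0 : ℝ≥0∞)))) :=
      tendsto_finsetSum _ fun d _ => (f3 d).add (tendsto_finsetSum _ fun j _ => f4 d j)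
    simpa using h1
  have hδ1 : ∀ d n, eLpNorm (fn d n - v d) 2 volume ≤ δ n := by
    intro d n
    refine le_trans ?_ (Finset.single_le_sum (f := fun d => eLpNorm (fn d n - v d) 2 volume +
      ∑ j, eLpNorm ((fun x => fderiv ℝ (fn d n) x (e j)) - dv d j) 2 volume)
      (fun _ _ => zero_le) (Finset.mem_univ d))
    exact le_self_add
  have hδ2 : ∀ d j n, eLpNorm ((fun x => fderiv ℝ (fn d n) x (e j)) - dv d j) 2 volume ≤ δ n := by
    intro d j n
    refine le_trans ?_ (Finset.single_le_sum (f := fun d => eLpNorm (fn d n - v d) 2 volume +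
      ∑ j, eLpNorm ((fun x => fderiv ℝ (fn d n) x (e j)) - dv d j) 2 volume)
      (fun _ _ => zero_le) (Finset.mem_univ d))
    refine le_trans ?_ le_add_self
    exact Finset.single_le_sum
      (f := fun j => eLpNorm ((fun x => fderiv ℝ (fn d n) x (e j)) - dv d j) 2 volume)
      (fun _ _ => zero_le) (Finset.mem_univ j)
  have hA : ∀ n c, eLpNorm (fun x => ∑ j, ∑ d, γ j x c d * fderiv ℝ (fn d n) x (e j)) 2 volume ≤
      eLpNorm (fun x => ∑ j, ∑ d, γ j x c d * dv d j x) 2 volume + 8 * M * δ n := by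
    intro n c
    have e1 : (fun x => ∑ j, ∑ d, γ j x c d * fderiv ℝ (fn d n) x (e j)) =
        (fun x => ∑ j, ∑ d, γ j x c d * dv d j x) + ∑ j, ∑ d,
          fun x => γ j x c d * (fderiv ℝ (fn d n) x (e j) - dv d j x) := by
      ext x
      simp only [Pi.add_apply, Finset.sum_apply, mul_sub, Finset.sum_sub_distrib]
      ring
    rw [e1]
    have m3 : MemLp (fun x => ∑ j, ∑ d, γ j x c d * dv d j x) 2 (volume : Measure R4) :=
      memLp_finsetSum _ fun j _ => memLp_finsetSum _ fun d _ => mγ c hdv j d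
    have m4 : ∀ j d, MemLp (fun x => γ j x c d * (fderiv ℝ (fn d n) x (e j) - dv d j x)) 2
        (volume : Measure R4) := fun j d =>
      mγ c (w := fun d j x => fderiv ℝ (fn d n) x (e j) - dv d j x)
        (fun d j => (m1 d n (e j)).sub (hdv d j)) j d
    refine (eLpNorm_add_le m3.1 (memLp_finsetSum' _ fun j _ => memLp_finsetSum' _
      fun d _ => m4 j d).1 (by norm_num)).trans ?_
    refine add_le_add_right ?_ _
    refine (eLpNorm_sum_le (fun j _ => (memLp_finsetSum' _ fun d _ => m4 j d).1)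
      (by norm_num)).trans ?_
    have h5 : ∀ j d, eLpNorm (fun x => γ j x c d * (fderiv ℝ (fn d n) x (e j) - dv d j x)) 2
        volume ≤ M * δ n := by
      intro j d
      have h6 : eLpNorm (fun x => γ j x c d * (fderiv ℝ (fn d n) x (e j) - dv d j x)) 2 volume ≤
          ENNReal.ofReal M * eLpNorm ((fun x => fderiv ℝ (fn d n) x (e j)) - dv d j) 2 volume := by
        refine eLpNorm_le_mul_eLpNorm_of_ae_le_mul (Eventually.of_forall fun x => ?_) 2
        rw [norm_mul]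
        exact mul_le_mul_of_nonneg_right (hM j c d x) (norm_nonneg _)
      rw [ENNReal.ofReal_coe_nnreal] at h6
      exact h6.trans (by gcongr; exact hδ2 d j n)
    calc ∑ j, eLpNorm (∑ d, fun x => γ j x c d * (fderiv ℝ (fn d n) x (e j) - dv d j x)) 2 volume
        ≤ ∑ _j : Fin 4, ∑ _d : Fin 2, M * δ n := by
          refine Finset.sum_le_sum fun j _ => ?_
          refine (eLpNorm_sum_le (fun d _ => (m4 j d).1) (by norm_num)).trans ?_
          exact Finset.sum_le_sum fun d _ => h5 j d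
      _ = 8 * M * δ n := by
          simp only [Finset.sum_const, Finset.card_univ, Fintype.card_fin, nsmul_eq_mul]
          push_cast
          ring
  have hB : ∀ n d, eLpNorm (fn d n) 2 volume ≤ eLpNorm (v d) 2 volume + δ n := by
    intro n d
    have e1 : fn d n = v d + (fn d n - v d) := by abel
    calc eLpNorm (fn d n) 2 volume = eLpNorm (v d + (fn d n - v d)) 2 volume := by rw [← e1]
      _ ≤ _ := (eLpNorm_add_le (hv d).1 ((m0 d n).sub (hv d)).1 (by norm_num)).trans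
        (add_le_add_right (hδ1 d n) _)
  have hD : ∀ n, eLpNorm (dv d0 j0) 2 volume ≤
      eLpNorm (fun x => fderiv ℝ (fn d0 n) x (e j0)) 2 volume + δ n := by
    intro n
    have e1 : dv d0 j0 = (fun x => fderiv ℝ (fn d0 n) x (e j0)) -
        ((fun x => fderiv ℝ (fn d0 n) x (e j0)) - dv d0 j0) := by abel
    calc eLpNorm (dv d0 j0) 2 volume = eLpNorm ((fun x => fderiv ℝ (fn d0 n) x (e j0)) -
        ((fun x => fderiv ℝ (fn d0 n) x (e j0)) - dv d0 j0)) 2 volume := by rw [← e1]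
      _ ≤ _ := (eLpNorm_sub_le (m1 d0 n _).1 ((m1 d0 n _).sub (hdv d0 j0)).1 (by norm_num)).trans
        (add_le_add_right (hδ2 d0 j0 n) _)
  have hfin : ∀ n, eLpNorm (dv d0 j0) 2 volume ≤
      C * (∑ c, (eLpNorm (fun x => ∑ j, ∑ d, γ j x c d * dv d j x) 2 volume + 8 * M * δ n) +
        ∑ d, (eLpNorm (v d) 2 volume + δ n)) + δ n := by
    intro n
    refine (hD n).trans (add_le_add_left ?_ _)
    refine (hC (fun d => fn d n) (fun d => f1 d n) (fun d => f2 d n) d0 j0).trans ?_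
    gcongr with c _ d _
    · exact hA n c
    · exact hB n d
  have hlim : Tendsto (fun n => C * (∑ c, (eLpNorm (fun x => ∑ j, ∑ d, γ j x c d * dv d j x) 2
      volume + 8 * M * δ n) + ∑ d, (eLpNorm (v d) 2 volume + δ n)) + δ n) atTop
      (𝓝 (C * (∑ c, (eLpNorm (fun x => ∑ j, ∑ d, γ j x c d * dv d j x) 2
      volume + 8 * M * 0) + ∑ d, (eLpNorm (v d) 2 volume + 0)) + 0)) := by
    refine Tendsto.add ?_ hδ0
    refine ENNReal.Tendsto.const_mul ?_ (Or.inr (by simp))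
    refine Tendsto.add (tendsto_finsetSum _ fun c _ => ?_) (tendsto_finsetSum _ fun d _ => ?_)
    · refine tendsto_const_nhds.add (ENNReal.Tendsto.const_mul hδ0 (Or.inr ?_))
      exact ENNReal.mul_ne_top (by norm_num) (by simp)
    · exact tendsto_const_nhds.add hδ0
  have hres := ge_of_tendsto' hlim hfin
  simpa using hres

end Vale.Agent.P247.H94.IL
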