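import Vale.Agent.P247.H94.LRC4

/-!
# `LRC`: the critical step of the regularity theory, conclusion
-/

open scoped ContDiff Topology ENNReal NNReal
open Set MeasureTheory Filter Metric
open Vale.Agent.P247.H74 (R4 e)
open Vale.Agent.P363.R.Sob
open Vale.Agent.P247.H306

set_option linter.unusedSectionVars false

noncomputable section

namespace Vale.Agent.P247.H94.LR

open Vale.Agent.P247.H447.E5 (Gar LRC_statement LRk_statement GNS_statement)
open Vale.Agent.P247.H109 (dq)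

variable {V W : Type} [NormedAddCommGroup V] [NormedSpace ℝ V] [FiniteDimensional ℝ V]
  [NormedAddCommGroup W] [NormedSpace ℝ W] [FiniteDimensional ℝ W]

/-- local bound of the difference quotients of the first derivatives -/
theorem local_bound {M : Fin 4 → R4 → (V →L[ℝ] W)} (hM : ∀ i, ContDiff ℝ ∞ (M i)) (hG : Gar M)
    {A : R4 → (V →L[ℝ] W)} {A' : Fin 4 → R4 → (V →L[ℝ] W)} {f : R4 → W} {f' : Fin 4 → R4 → W}
    {u : R4 → V} {P : Fin 4 → R4 → V} (hA : LL 4 A) (hA' : ∀ i, LL 4 (A' i))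
    (wA : ∀ i, IsWD volume (e i) A (A' i)) (hf : LL 2 f) (hf' : ∀ i, LL 2 (f' i))
    (wf : ∀ i, IsWD volume (e i) f (f' i)) (hu : LL 2 u) (hP : ∀ i, LL 2 (P i))
    (wu : ∀ i, IsWD volume (e i) u (P i)) (heq : ∀ᵐ x, ∑ j, M j x (P j x) + A x (u x) = f x)
    (i : Fin 4) (x₀ : R4) :
    ∃ r : ℝ, 0 < r ∧ ∃ B : ℝ≥0∞, B ≠ ⊤ ∧ ∀ h : ℝ, h ≠ 0 → |h| ≤ 1 → ∀ j,
      eLpNorm (dq h (e i) (P j)) 2 (volume.restrict (closedBall x₀ r)) ≤ B := by
  have one2 : (1 : ℝ≥0∞) ≤ 2 := by norm_num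
  obtain ⟨r0, hr0, C, hC⟩ := hG x₀
  obtain ⟨CS, hCS⟩ := sobolev V
  obtain ⟨r1, hr1, hsm⟩ := small_ball (p := 4) (by norm_num) (by simp) hA x₀
    (δ := 1 / (8 * (C * CS + 1))) (by positivity)
  set r := min r1 (r0 / 2) with hr
  have hrp : 0 < r := lt_min hr1 (by positivity)
  obtain ⟨η, hη, hη1, hηe, h0, h0'⟩ := exists_eta x₀ hrp
  have hK : IsCompact (closedBall x₀ r) := isCompact_closedBall _ _
  obtain ⟨B, hB, hpr⟩ := principal hM hA hA' wA hf hf' wf hu hP wu heq hη hη1 hK h0 h0' i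
  have hdη : ∀ j, Continuous fun x => fderiv ℝ η x (e j) := fun j =>
    (hη.continuous_fderiv (by simp)).clm_apply continuous_const
  choose c hc using fun j => bdd_on (hdη j) hK
  have hN : eLpNorm (P i) 2 (volume.restrict (cthickening 1 (closedBall x₀ r))) ≠ ⊤ :=
    (hP i _ hK.cthickening).2.ne
  set N := eLpNorm (P i) 2 (volume.restrict (cthickening 1 (closedBall x₀ r))) with hNdef
  refine ⟨r / 2, by positivity, 2 * (4 * C * (B + N)) + ∑ j, c j * N, ?_, ?_⟩
  · refine ENNReal.add_ne_top.2 ⟨?_, ?_⟩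
    · exact ENNReal.mul_ne_top (by simp) (ENNReal.mul_ne_top (ENNReal.mul_ne_top (by simp)
        (by simp)) (ENNReal.add_ne_top.2 ⟨hB, hN⟩))
    · exact ENNReal.sum_ne_top.2 fun j _ => ENNReal.mul_ne_top (by simp) hN
  intro h hh hh1 j0
  have hdu : eLpNorm (dq h (e i) u) 2 (volume.restrict (closedBall x₀ r)) ≤ N :=
    Vale.Agent.P247.H109.dq_le' (wu i) one2 (by simp) hu (hP i) (norm_e i) hh hh1 hK
  have lu : LocallyIntegrable (dq h (e i) u) volume := LL.locInt one2 (LL.dq hu _ _)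
  have lP : ∀ j, LocallyIntegrable (dq h (e i) (P j)) volume := fun j =>
    LL.locInt one2 (LL.dq (hP j) _ _)
  set v : R4 → V := fun x => η x • dq h (e i) u x with hv
  set dv : Fin 4 → R4 → V := fun j x => fderiv ℝ η x (e j) • dq h (e i) u x +
    η x • dq h (e i) (P j) x with hdv
  have wv : ∀ j, IsWD volume (e j) v (dv j) := fun j =>
    (Vale.Agent.P247.H109.IsWD.dq (wu j) (LL.locInt one2 hu) (LL.locInt one2 (hP j)) h
      (e i)).cut_smul hη lu (lP j)
  have mv : MemLp v 2 volume := LL.smul_cut one2 (LL.dq hu _ _) hη.continuous hK h0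
  have mdv1 : ∀ j, MemLp (fun x => fderiv ℝ η x (e j) • dq h (e i) u x) 2 volume := fun j =>
    LL.smul_cut one2 (LL.dq hu _ _) (hdη j) hK fun x hx => by rw [h0' x hx]; rfl
  have mdv : ∀ j, MemLp (dv j) 2 volume := fun j =>
    (mdv1 j).add (LL.smul_cut one2 (LL.dq (hP j) _ _) hη.continuous hK h0)
  have hsub : closedBall x₀ r ⊆ closedBall x₀ (r0 / 2) :=
    closedBall_subset_closedBall (min_le_right _ _)
  have hgw := garding_w hM hr0 hC mv mdv wv
    (fun x hx => by
      have h5 : x ∉ closedBall x₀ r := fun h6 => hx (hsub h6)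
      simp only [hv, h0 x h5, zero_smul])
    (fun j x hx => by
      have h5 : x ∉ closedBall x₀ r := fun h6 => hx (hsub h6)
      simp [hdv, h0 x h5, h0' x h5])
  -- bound of `v`
  have nv : eLpNorm v 2 volume ≤ N := by
    have h5 := eLpNorm_le_restrict (p := 2) (f := dq h (e i) u) (g := v) hK.measurableSet (c := 1)
      (fun x hx => by simp only [hv, h0 x hx, zero_smul]) fun x hx => by
        simp only [hv]
        rw [norm_smul, NNReal.coe_one]
        exact mul_le_mul_of_nonneg_right (hη1 x) (norm_nonneg _)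
    rw [ENNReal.coe_one, one_mul] at h5
    exact h5.trans hdu
  -- bound of the `L⁴` norm of `v`
  set X : ℝ≥0∞ := ∑ j, eLpNorm (dv j) 2 volume with hX
  have hXt : X ≠ ⊤ := ENNReal.sum_ne_top.2 fun j _ => (mdv j).2.ne
  have n4 : eLpNorm v 4 volume ≤ CS * X :=
    hCS v dv (mv.locallyIntegrable one2) (HasCompactSupport.intro hK fun x hx => by
      simp only [hv, h0 x hx, zero_smul]) mdv wv
  have hp := hpr h hh hh1
  have hsmall : eLpNorm A 4 (volume.restrict (closedBall x₀ r)) ≤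
      ENNReal.ofReal (1 / (8 * (C * CS + 1))) := hsm r (min_le_left _ _)
  have hprin : eLpNorm (fun x => ∑ j, M j x (dv j x)) 2 volume ≤
      B + ENNReal.ofReal (1 / (8 * (C * CS + 1))) * (CS * X) := by
    refine hp.trans ?_
    gcongr
  have hX2 : X ≤ 4 * C * (B + N) +
      (4 * C * ENNReal.ofReal (1 / (8 * (C * CS + 1))) * CS) * X := by
    calc X ≤ ∑ _j : Fin 4, C * ((B + ENNReal.ofReal (1 / (8 * (C * CS + 1))) * (CS * X)) + N) := by
          refine Finset.sum_le_sum fun j _ => (hgw j).trans ?_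
          gcongr
      _ = _ := by
          simp only [Finset.sum_const, Finset.card_univ, Fintype.card_fin, nsmul_eq_mul]
          push_cast
          ring
  have ha : 4 * C * ENNReal.ofReal (1 / (8 * (C * CS + 1))) * CS ≤ (2⁻¹ : ℝ≥0∞) := by
    have e1 : (4 * C * ENNReal.ofReal (1 / (8 * (C * CS + 1))) * CS : ℝ≥0∞) =
        ENNReal.ofReal (4 * C * (1 / (8 * (C * CS + 1))) * CS) := by
      rw [ENNReal.ofReal_mul (by positivity), ENNReal.ofReal_mul (by positivity),
        ENNReal.ofReal_mul (by positivity), ENNReal.ofReal_coe_nnreal, ENNReal.ofReal_coe_nnreal,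
        ENNReal.ofReal_ofNat]
    have e2 : (2⁻¹ : ℝ≥0∞) = ENNReal.ofReal (1 / 2) := by
      rw [ENNReal.ofReal_div_of_pos (by norm_num)]
      simp
    rw [e1, e2]
    refine ENNReal.ofReal_le_ofReal ?_
    have hp0 : (0 : ℝ) ≤ C * CS := by positivity
    have : (4 * C * (1 / (8 * (C * CS + 1))) * CS : ℝ) = (C * CS) / (2 * (C * CS + 1)) := by
      field_simp
      ring
    rw [this, div_le_div_iff₀ (by positivity) (by norm_num)]
    nlinarith
  have hXf := absorb hXt ha hX2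
  -- conclusion
  have hball : closedBall x₀ (r / 2) ⊆ closedBall x₀ r := closedBall_subset_closedBall (by linarith)
  have e3 : eLpNorm (dq h (e i) (P j0)) 2 (volume.restrict (closedBall x₀ (r / 2))) =
      eLpNorm (dv j0 - fun x => fderiv ℝ η x (e j0) • dq h (e i) u x) 2
        (volume.restrict (closedBall x₀ (r / 2))) := by
    refine eLpNorm_congr_ae ((ae_restrict_mem measurableSet_closedBall).mono fun x hx => ?_)
    simp only [hdv, Pi.sub_apply, hηe x hx, one_smul]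
    abel
  rw [e3]
  refine (eLpNorm_sub_le (mdv j0).1.restrict (mdv1 j0).1.restrict one2).trans ?_
  refine add_le_add ?_ ?_
  · calc eLpNorm (dv j0) 2 (volume.restrict (closedBall x₀ (r / 2))) ≤
        eLpNorm (dv j0) 2 volume := eLpNorm_mono_measure _ Measure.restrict_le_self
      _ ≤ X := Finset.single_le_sum (f := fun j => eLpNorm (dv j) 2 volume)
          (fun _ _ => zero_le) (Finset.mem_univ j0)
      _ ≤ _ := hXf
  · refine (eLpNorm_mono_measure _ Measure.restrict_le_self).trans ?_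
    refine (eLpNorm_le_restrict (f := dq h (e i) u) hK.measurableSet (c := c j0)
      (fun x hx => by rw [h0' x hx]; simp) fun x hx => ?_).trans ?_
    · rw [norm_smul]
      exact mul_le_mul_of_nonneg_right (hc j0 x hx) (norm_nonneg _)
    · calc c j0 * eLpNorm (dq h (e i) u) 2 (volume.restrict (closedBall x₀ r)) ≤ c j0 * N := by
            gcongr
        _ ≤ ∑ j, c j * N := Finset.single_le_sum (f := fun j => (c j : ℝ≥0∞) * N)
            (fun _ _ => zero_le) (Finset.mem_univ j0)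

theorem eLpNorm_add_measure_le {F : Type*} [NormedAddCommGroup F] {w : R4 → F}
    {μ ν : Measure R4} : eLpNorm w 2 (μ + ν) ≤ eLpNorm w 2 μ + eLpNorm w 2 ν := by
  rw [eLpNorm_eq_lintegral_rpow_enorm_toReal (by norm_num) (by norm_num),
    eLpNorm_eq_lintegral_rpow_enorm_toReal (by norm_num) (by norm_num),
    eLpNorm_eq_lintegral_rpow_enorm_toReal (by norm_num) (by norm_num), lintegral_add_measure]
  refine ENNReal.rpow_add_le_add_rpow _ _ (by simp) ?_
  simp only [ENNReal.toReal_ofNat]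
  norm_num

/-- bounded difference quotients on all compact sets -/
theorem global_bound {F : Type*} [NormedAddCommGroup F] [NormedSpace ℝ F] {w : R4 → F} {v : R4}
    (hloc : ∀ x₀ : R4, ∃ r : ℝ, 0 < r ∧ ∃ B : ℝ≥0∞, B ≠ ⊤ ∧ ∀ h : ℝ, h ≠ 0 → |h| ≤ 1 →
      eLpNorm (dq h v w) 2 (volume.restrict (closedBall x₀ r)) ≤ B) {K : Set R4}
    (hK : IsCompact K) : ∃ B : ℝ≥0∞, B ≠ ⊤ ∧ ∀ h : ℝ, h ≠ 0 → |h| ≤ 1 →
      eLpNorm (dq h v w) 2 (volume.restrict K) ≤ B := by
  refine hK.induction_on (p := fun K => ∃ B : ℝ≥0∞, B ≠ ⊤ ∧ ∀ h : ℝ, h ≠ 0 → |h| ≤ 1 →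
      eLpNorm (dq h v w) 2 (volume.restrict K) ≤ B) ?_ ?_ ?_ ?_
  · exact ⟨0, by simp, fun h _ _ => by simp⟩
  · rintro s t hst ⟨B, hB, h⟩
    exact ⟨B, hB, fun t h1 h2 => (eLpNorm_mono_measure _
      (Measure.restrict_mono hst le_rfl)).trans (h t h1 h2)⟩
  · rintro s t ⟨B, hB, h⟩ ⟨B', hB', h'⟩
    refine ⟨B + B', ENNReal.add_ne_top.2 ⟨hB, hB'⟩, fun τ h1 h2 => ?_⟩
    refine (eLpNorm_mono_measure _ (Measure.restrict_union_le s t)).trans ?_
    refine eLpNorm_add_measure_le.trans ?_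
    exact add_le_add (h τ h1 h2) (h' τ h1 h2)
  · intro x _
    obtain ⟨r, hr, B, hB, h⟩ := hloc x
    exact ⟨closedBall x r, mem_nhdsWithin_of_mem_nhds (closedBall_mem_nhds x hr), B, hB, h⟩

/-- `LRC` -/
theorem LRC : LRC_statement := by
  intro V W _ _ _ _ _ _ M hM hG A A' f u P hA hA' wA hf hu hP wu heq
  have hf2 : LL 2 f := hf.ll
  choose f' wf hf' using hf.2
  have hf'' : ∀ i, LL 2 (f' i) := hf'
  refine ⟨hu, fun j => ⟨P j, wu j, hP j, fun i => ?_⟩⟩
  have h1 := Vale.Agent.P247.H109.exists_wd_fin (f := P j) (v := (e i : R4)) (hP j)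
    fun K hK => by
      obtain ⟨B, hB, h⟩ := global_bound (w := P j) (v := (e i : R4)) (fun x₀ => by
        obtain ⟨r, hr, B, hB, h⟩ := local_bound hM hG hA hA' wA hf2 hf'' wf hu hP wu heq i x₀
        exact ⟨r, hr, B, hB, fun t h1 h2 => h t h1 h2 j⟩) hK
      exact ⟨B, hB, 1, one_pos, fun t h1 h2 => h t h1 h2.le⟩
  obtain ⟨g, wg, hg⟩ := h1
  exact ⟨g, wg, hg⟩

end Vale.Agent.P247.H94.LR
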