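import Vale.Agent.P247.H94.Diff

/-! # P247, package P4: local structure of `J`-holomorphic curves, unique continuation -/

open scoped ContDiff Topology
open Set Filter Metric Asymptotics Vale.Agent.P247.H74

noncomputable section

namespace Vale.Agent.P247.H94

theorem JH_const (D : Data) (x : R4) : JH D (fun _ => x) := by
  refine ⟨contDiff_const, fun z => ?_⟩
  simp

theorem smooth_pow (z₀ : ℂ) (k : ℕ) : ContDiff ℝ ∞ (fun z : ℂ => (z - z₀) ^ k) := by
  fun_prop

theorem smooth_cm (D : Data) (x a : R4) (z₀ : ℂ) (k : ℕ) :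
    ContDiff ℝ ∞ (fun z : ℂ => cm D x ((z - z₀) ^ k) a) :=
  (cmL D x a).contDiff.comp (smooth_pow z₀ k)

theorem smooth_rem (D : Data) {u : ℂ → R4} (hu : ContDiff ℝ ∞ u) (z₀ : ℂ) (k : ℕ) (a : R4) :
    ContDiff ℝ ∞ (rem D u z₀ k a) :=
  (hu.sub contDiff_const).sub (smooth_cm D _ a z₀ k)

/-- from the `o` expansion to all the derivatives -/
theorem rem_bounds (D : Data) {u : ℂ → R4} (hu : ContDiff ℝ ∞ u) (z₀ : ℂ) (k : ℕ) (a : R4)
    (h : rem D u z₀ k a =o[𝓝 z₀] (fun z => ‖z - z₀‖ ^ k)) :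
    ∀ j ≤ k + 1, (fun z => iteratedFDeriv ℝ j (rem D u z₀ k a) z) =O[𝓝 z₀]
      (fun z => ‖z - z₀‖ ^ (k + 1 - j)) := by
  intro j hj
  have hs := smooth_rem D hu z₀ k a
  have hjet := jet_of_littleO.{0, 0} z₀ k R4 _ hs h
  exact bigO_iter.{0, 0} z₀ j (k + 1) R4 _ hj hs (fun i hi => hjet i (by omega))

theorem P4 (SP : SP_statement) : P4_statement := by
  intro D u z₀ hu
  rcases diff_lemma SP D u (fun _ => u z₀) z₀ hu (JH_const D _) rfl with h | ⟨k, a, hk, ha, h⟩
  · exact Or.inl h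
  · exact Or.inr ⟨k, a, hk, ha, rem_bounds D hu.1 z₀ k a h⟩

/-- a function with a nonzero leading term has an isolated zero -/
theorem isolated (D : Data) {w : ℂ → R4} {z₀ : ℂ} {x a : R4} {m : ℕ} (ha : a ≠ 0)
    (h : (fun z => w z - cm D x ((z - z₀) ^ m) a) =o[𝓝 z₀] (fun z => ‖z - z₀‖ ^ m)) :
    ∀ᶠ z in 𝓝[≠] z₀, w z ≠ 0 := by
  obtain ⟨c, hc, hcm⟩ := cm_lower D x a ha
  have h1 := (isLittleO_iff.1 h) (show (0 : ℝ) < c / 2 by positivity)
  have h2 : ∀ᶠ z in 𝓝[≠] z₀, ‖w z - cm D x ((z - z₀) ^ m) a‖ ≤ c / 2 * ‖‖z - z₀‖ ^ m‖ :=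
    nhdsWithin_le_nhds h1
  filter_upwards [h2, self_mem_nhdsWithin] with z hz hne hw
  rw [hw, zero_sub, norm_neg, norm_pow, norm_norm] at hz
  have h3 := hcm ((z - z₀) ^ m)
  rw [norm_pow] at h3
  have h4 : 0 < ‖z - z₀‖ ^ m := by
    have : 0 < ‖z - z₀‖ := norm_pos_iff.2 (sub_ne_zero.2 hne)
    positivity
  nlinarith

/-- the alternative at a coincidence point -/
theorem diff_alt (SP : SP_statement) (D : Data) (u v : ℂ → R4) (z₀ : ℂ) (hu : JH D u)
    (hv : JH D v) : (∀ᶠ z in 𝓝 z₀, u z = v z) ∨ ∀ᶠ z in 𝓝[≠] z₀, u z ≠ v z := by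
  by_cases h0 : u z₀ = v z₀
  · rcases diff_lemma SP D u v z₀ hu hv h0 with h | ⟨k, a, hk, ha, h⟩
    · exact Or.inl h
    · right
      have := isolated D (w := fun z => u z - v z) ha h
      filter_upwards [this] with z hz
      exact sub_ne_zero.1 hz
  · right
    have : ∀ᶠ z in 𝓝 z₀, u z ≠ v z :=
      (isOpen_ne_fun hu.1.continuous hv.1.continuous).mem_nhds h0
    exact nhdsWithin_le_nhds this

theorem P5 (SP : SP_statement) : P5_statement := by
  intro D u v hu hv ⟨z₀, hz₀⟩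
  set E : Set ℂ := {z | ∀ᶠ z' in 𝓝 z, u z' = v z'} with hE
  have hopen : IsOpen E := by
    rw [isOpen_iff_mem_nhds]
    intro z hz
    exact eventually_eventually_nhds.2 hz
  have hclosed : IsClosed E := by
    rw [← closure_subset_iff_isClosed]
    intro z hz
    rcases diff_alt SP D u v z hu hv with h | h
    · exact h
    · by_contra hzE
      rw [mem_closure_iff_frequently] at hz
      have h2 : ∃ᶠ x in 𝓝[≠] z, x ∈ E := by
        rw [frequently_nhdsWithin_iff]
        refine hz.mono fun x hx => ⟨hx, ?_⟩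
        intro hxz
        rw [mem_singleton_iff] at hxz
        rw [hxz] at hx
        exact hzE hx
      obtain ⟨x, hx1, hx2⟩ := (h2.and_eventually h).exists
      exact hx2 (Filter.Eventually.self_of_nhds (p := fun z' => u z' = v z') hx1)
  have huniv : E = univ := IsClopen.eq_univ ⟨hclosed, hopen⟩ ⟨z₀, hz₀⟩
  funext z
  have : z ∈ E := by rw [huniv]; trivial
  exact Filter.Eventually.self_of_nhds (p := fun z' => u z' = v z') this

theorem P6 (SP : SP_statement) : P6_statement := by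
  intro D u hu hne z₀
  rcases P4 SP D u z₀ hu with h | ⟨k, a, hk, ha, h⟩
  · exfalso
    have := P5 SP D u (fun _ => u z₀) hu (JH_const D _) ⟨z₀, h⟩
    obtain ⟨z, w, hzw⟩ := hne
    rw [this] at hzw
    exact hzw rfl
  have hs := smooth_rem D hu.1 z₀ k a
  obtain ⟨c, hc, hcm⟩ := cm_lower D (u z₀) a ha
  -- values
  have hval : ∀ᶠ z in 𝓝[≠] z₀, u z ≠ u z₀ := by
    have h0 := h 0 (by omega)
    rw [← isBigO_norm_left] at h0
    simp only [norm_iteratedFDeriv_zero, isBigO_norm_left, Nat.sub_zero] at h0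
    have h1 : rem D u z₀ k a =o[𝓝 z₀] (fun z => ‖z - z₀‖ ^ k) := by
      refine h0.trans_isLittleO ?_
      have ht : Tendsto (fun z : ℂ => ‖z - z₀‖) (𝓝 z₀) (𝓝 0) := by
        have : Continuous (fun z : ℂ => ‖z - z₀‖) := by fun_prop
        simpa using this.tendsto z₀
      simp only [pow_succ]
      have := ((isLittleO_one_iff ℝ).2 ht)
      have h3 := (isBigO_refl (fun z : ℂ => ‖z - z₀‖ ^ k) (𝓝 z₀)).mul_isLittleO this
      simpa using h3
    have := isolated D (w := fun z => u z - u z₀) ha h1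
    filter_upwards [this] with z hz
    exact sub_ne_zero.1 hz
  -- derivatives
  have hder : ∀ᶠ z in 𝓝[≠] z₀, fderiv ℝ u z 1 ≠ 0 := by
    have h1 := h 1 (by omega)
    rw [← isBigO_norm_left] at h1
    simp only [norm_iteratedFDeriv_one, isBigO_norm_left, Nat.add_sub_cancel] at h1
    obtain ⟨C, hC0, hC⟩ := h1.exists_pos
    rw [isBigOWith_iff] at hC
    have hfd : ∀ z, fderiv ℝ u z 1 = cm D (u z₀) (k * (z - z₀) ^ (k - 1)) a
        + fderiv ℝ (rem D u z₀ k a) z 1 := by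
      intro z
      have e1 : HasFDerivAt (fun z : ℂ => (z - z₀) ^ k)
          ((ContinuousLinearMap.smulRight (1 : ℂ →L[ℂ] ℂ)
            ((k : ℂ) * (z - z₀) ^ (k - 1))).restrictScalars ℝ) z := by
        have : HasDerivAt (fun z : ℂ => (z - z₀) ^ k) ((k : ℂ) * (z - z₀) ^ (k - 1)) z := by
          have := ((hasDerivAt_id z).sub_const z₀).fun_pow k
          simpa using this
        exact this.hasFDerivAt.restrictScalars ℝ
      have e2 := ((cmL D (u z₀) a).hasFDerivAt).comp z e1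
      have e3 := (smooth_diff hs z).hasFDerivAt
      have e4 : HasFDerivAt u ((cmL D (u z₀) a).comp ((ContinuousLinearMap.smulRight
            (1 : ℂ →L[ℂ] ℂ) ((k : ℂ) * (z - z₀) ^ (k - 1))).restrictScalars ℝ)
            + fderiv ℝ (rem D u z₀ k a) z) z := by
        refine ((e2.add e3).add_const (u z₀)).congr_of_eventuallyEq ?_
        refine Eventually.of_forall fun z => ?_
        simp only [rem, Function.comp_apply, cmL_apply, Pi.add_apply]
        abel
      rw [e4.fderiv]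
      simp [← cmL_apply]
    have ht : Tendsto (fun z : ℂ => ‖z - z₀‖) (𝓝 z₀) (𝓝 0) := by
      have : Continuous (fun z : ℂ => ‖z - z₀‖) := by fun_prop
      simpa using this.tendsto z₀
    have ht2 := ht.eventually (gt_mem_nhds (show (0 : ℝ) < c / (C + 1) by positivity))
    filter_upwards [nhdsWithin_le_nhds hC, nhdsWithin_le_nhds ht2, self_mem_nhdsWithin]
      with z h2 h3 hne hz0
    rw [hfd] at hz0
    have hpos : 0 < ‖z - z₀‖ := norm_pos_iff.2 (sub_ne_zero.2 hne)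
    have h5 : ‖fderiv ℝ (rem D u z₀ k a) z 1‖ ≤ C * ‖z - z₀‖ ^ k := by
      have := (fderiv ℝ (rem D u z₀ k a) z).le_opNorm 1
      rw [norm_one, mul_one] at this
      rw [norm_pow, norm_norm] at h2
      exact this.trans h2
    have h6 := hcm (k * (z - z₀) ^ (k - 1))
    rw [norm_mul, norm_pow] at h6
    have h7 : ‖cm D (u z₀) (k * (z - z₀) ^ (k - 1)) a‖ = ‖fderiv ℝ (rem D u z₀ k a) z 1‖ := by
      rw [eq_neg_of_add_eq_zero_left hz0, norm_neg]
    have h8 : (1 : ℝ) ≤ ‖(k : ℂ)‖ := by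
      rw [Complex.norm_natCast]; exact_mod_cast hk
    obtain ⟨k', rfl⟩ : ∃ k', k = k' + 1 := ⟨k - 1, by omega⟩
    simp only [Nat.add_sub_cancel] at h6 h7
    have h9 : 0 < ‖z - z₀‖ ^ k' := by positivity
    have h10 : c * ‖z - z₀‖ ^ k' ≤ C * (‖z - z₀‖ ^ k' * ‖z - z₀‖) := by
      calc c * ‖z - z₀‖ ^ k' ≤ c * (‖((k' + 1 : ℕ) : ℂ)‖ * ‖z - z₀‖ ^ k') := by
            have := mul_le_mul_of_nonneg_right h8 h9.le
            rw [one_mul] at this
            gcongr
        _ ≤ C * (‖z - z₀‖ ^ k' * ‖z - z₀‖) := by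
            rw [← pow_succ]; linarith
    have h11 : c ≤ C * ‖z - z₀‖ := by
      have : ‖z - z₀‖ ^ k' * c ≤ ‖z - z₀‖ ^ k' * (C * ‖z - z₀‖) := by linarith
      exact le_of_mul_le_mul_left this h9
    have h12 : C * ‖z - z₀‖ < c := by
      have h13 : (C + 1) * ‖z - z₀‖ < (C + 1) * (c / (C + 1)) := by gcongr
      have h14 : (C + 1) * (c / (C + 1)) = c := by field_simp
      linarith
    linarith
  filter_upwards [hval, hder] with z h1 h2
  exact ⟨h2, h1⟩

end Vale.Agent.P247.H94
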