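import Vale.Agent.P247.H94.Jets

/-! # P247, package P4: the leading term of a difference of two `J`-holomorphic curves -/

open scoped ContDiff Topology
open Set Filter Metric Asymptotics Vale.Agent.P247.H74

noncomputable section

namespace Vale.Agent.P247.H94

/-- `cm` as a continuous linear map in the complex number -/
def cmL (D : Data) (x a : R4) : ℂ →L[ℝ] R4 :=
  Complex.reCLM.smulRight a + Complex.imCLM.smulRight (D.J x a)

theorem cmL_apply (D : Data) (x a : R4) (w : ℂ) : cmL D x a w = cm D x w a := rfl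

theorem cmL_one (D : Data) (x a : R4) : cmL D x a 1 = a := by
  rw [cmL_apply]; simp [cm]

theorem cm_eq_zero (D : Data) (x a : R4) (w : ℂ) (ha : a ≠ 0) (h : cm D x w a = 0) : w = 0 := by
  have h1 : D.J x (cm D x w a) = 0 := by rw [h, map_zero]
  simp only [cm, map_add, map_smul, D.J_sq] at h h1
  have h2 : (w.re * w.re + w.im * w.im) • a = 0 := by
    have e1 : (w.re * w.re + w.im * w.im) • a
        = w.re • (w.re • a + w.im • (D.J x) a) - w.im • (w.re • (D.J x) a + w.im • -a) := by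
      module
    rw [e1, h, h1, smul_zero, smul_zero, sub_zero]
  rcases smul_eq_zero.1 h2 with h3 | h3
  · have h4 : w.re = 0 := by nlinarith [mul_self_nonneg w.re, mul_self_nonneg w.im]
    have h5 : w.im = 0 := by nlinarith [mul_self_nonneg w.re, mul_self_nonneg w.im]
    exact Complex.ext h4 h5
  · exact absurd h3 ha

/-- lower bound -/
theorem cm_lower (D : Data) (x a : R4) (ha : a ≠ 0) :
    ∃ c > 0, ∀ w : ℂ, c * ‖w‖ ≤ ‖cm D x w a‖ := by
  have hinj : LinearMap.ker (cmL D x a : ℂ →ₗ[ℝ] R4) = ⊥ := by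
    rw [LinearMap.ker_eq_bot']
    intro w hw
    exact cm_eq_zero D x a w ha hw
  obtain ⟨K, hK, hL⟩ := (cmL D x a : ℂ →ₗ[ℝ] R4).exists_antilipschitzWith hinj
  refine ⟨(K : ℝ)⁻¹, by positivity, fun w => ?_⟩
  have := hL.le_mul_dist w 0
  simp only [dist_zero_right, map_zero] at this
  rw [inv_mul_le_iff₀ (by positivity)]
  exact this

/-- the `(1,0)`-part -/
def iota (J₀ : R4 →L[ℝ] R4) : R4 →L[ℝ] (Fin 4 → ℂ) :=
  ContinuousLinearMap.pi fun i =>
    Complex.ofRealCLM.comp (ContinuousLinearMap.proj i) -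
      ((Complex.I : ℂ) • Complex.ofRealCLM).comp ((ContinuousLinearMap.proj i).comp J₀)

theorem iota_apply (J₀ : R4 →L[ℝ] R4) (a : R4) (i : Fin 4) :
    iota J₀ a i = (a i : ℂ) - Complex.I * (J₀ a i : ℂ) := by
  simp [iota]

theorem iota_re (J₀ : R4 →L[ℝ] R4) (a : R4) (i : Fin 4) : (iota J₀ a i).re = a i := by
  rw [iota_apply]; simp

theorem iota_im (J₀ : R4 →L[ℝ] R4) (a : R4) (i : Fin 4) : (iota J₀ a i).im = -(J₀ a i) := by
  rw [iota_apply]; simp

theorem iota_J (J₀ : R4 →L[ℝ] R4) (h : ∀ a, J₀ (J₀ a) = -a) (a : R4) :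
    iota J₀ (J₀ a) = Complex.I • iota J₀ a := by
  funext i
  apply Complex.ext
  · rw [iota_re, Pi.smul_apply, smul_eq_mul, Complex.mul_re, iota_re, iota_im]
    simp
  · rw [iota_im, Pi.smul_apply, smul_eq_mul, Complex.mul_im, iota_re, iota_im, h]
    simp

theorem norm_le_iota (J₀ : R4 →L[ℝ] R4) (a : R4) : ‖a‖ ≤ ‖iota J₀ a‖ := by
  rw [pi_norm_le_iff_of_nonneg (norm_nonneg _)]
  intro i
  calc ‖a i‖ = |(iota J₀ a i).re| := by rw [iota_re, Real.norm_eq_abs]
    _ ≤ ‖iota J₀ a i‖ := Complex.abs_re_le_norm _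
    _ ≤ ‖iota J₀ a‖ := norm_le_pi_norm _ i

/-- the frame change -/
def Phm (D : Data) (x₀ x : R4) : R4 →L[ℝ] R4 :=
  (1 / 2 : ℝ) • (ContinuousLinearMap.id ℝ R4 - (D.J x₀).comp (D.J x))

theorem Phm_apply (D : Data) (x₀ x a : R4) :
    Phm D x₀ x a = (1 / 2 : ℝ) • (a - D.J x₀ (D.J x a)) := rfl

theorem Phm_self (D : Data) (x₀ : R4) : Phm D x₀ x₀ = ContinuousLinearMap.id ℝ R4 := by
  ext1 a
  rw [Phm_apply, D.J_sq, ContinuousLinearMap.id_apply]
  module

theorem Phm_J (D : Data) (x₀ x a : R4) : Phm D x₀ x (D.J x a) = D.J x₀ (Phm D x₀ x a) := by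
  rw [Phm_apply, Phm_apply, D.J_sq, map_smul, map_sub, D.J_sq, map_neg]
  module

theorem Phm_smooth (D : Data) (x₀ : R4) : ContDiff ℝ ∞ (Phm D x₀) := by
  unfold Phm
  have := D.J_smooth
  fun_prop

/-- the complex frame -/
def Mm (D : Data) (x₀ x : R4) : R4 →L[ℝ] (Fin 4 → ℂ) := (iota (D.J x₀)).comp (Phm D x₀ x)

theorem Mm_smooth (D : Data) (x₀ : R4) : ContDiff ℝ ∞ (Mm D x₀) := by
  unfold Mm
  have := Phm_smooth D x₀
  fun_prop

theorem Mm_J (D : Data) (x₀ x a : R4) : Mm D x₀ x (D.J x a) = Complex.I • Mm D x₀ x a := by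
  rw [Mm, ContinuousLinearMap.comp_apply, ContinuousLinearMap.comp_apply, Phm_J,
    iota_J _ (D.J_sq x₀)]

theorem Mm_self (D : Data) (x₀ : R4) : Mm D x₀ x₀ = iota (D.J x₀) := by
  rw [Mm, Phm_self]; rfl

/-- the `∂̄` of a vector field along `u` in the complex frame -/
theorem dbar_frame (D : Data) (x₀ : R4) {u w : ℂ → R4} {z : ℂ} {A : R4}
    (hu : DifferentiableAt ℝ u z) (hw : DifferentiableAt ℝ w z)
    (h : fderiv ℝ w z Complex.I = D.J (u z) (fderiv ℝ w z 1) + A) :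
    dbar (fun z => Mm D x₀ (u z) (w z)) z = (1 / 2 : ℂ) •
      (fderiv ℝ (fun z => Mm D x₀ (u z)) z 1 (w z)
        + Complex.I • fderiv ℝ (fun z => Mm D x₀ (u z)) z Complex.I (w z)
        + Mm D x₀ (u z) (D.J (u z) A)) := by
  have hM : DifferentiableAt ℝ (fun z => Mm D x₀ (u z)) z :=
    ((Mm_smooth D x₀).differentiable (by simp) (u z)).comp z hu
  have h1 : fderiv ℝ (fun z => Mm D x₀ (u z) (w z)) z
      = (Mm D x₀ (u z)).comp (fderiv ℝ w z) + (fderiv ℝ (fun z => Mm D x₀ (u z)) z).flip (w z) :=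
    fderiv_clm_apply hM hw
  unfold dbar
  rw [h1]
  simp only [_root_.add_apply, ContinuousLinearMap.comp_apply,
    ContinuousLinearMap.flip_apply]
  have h2 : Complex.I • Mm D x₀ (u z) (fderiv ℝ w z Complex.I)
      = Mm D x₀ (u z) (D.J (u z) A) - Mm D x₀ (u z) (fderiv ℝ w z 1) := by
    rw [← Mm_J, h, map_add, D.J_sq, map_add, map_neg]
    abel
  rw [smul_add Complex.I, h2]
  congr 1
  abel

/-- real and imaginary parts of a complex vector -/
def reV : (Fin 4 → ℂ) →L[ℝ] R4 :=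
  ContinuousLinearMap.pi fun i => Complex.reCLM.comp (ContinuousLinearMap.proj i)

def imV : (Fin 4 → ℂ) →L[ℝ] R4 :=
  ContinuousLinearMap.pi fun i => Complex.imCLM.comp (ContinuousLinearMap.proj i)

theorem reV_apply (a : Fin 4 → ℂ) (i : Fin 4) : reV a i = (a i).re := rfl
theorem imV_apply (a : Fin 4 → ℂ) (i : Fin 4) : imV a i = (a i).im := rfl

theorem reV_iota (J₀ : R4 →L[ℝ] R4) (a : R4) : reV (iota J₀ a) = a := by
  funext i; rw [reV_apply, iota_re]

theorem imV_iota (J₀ : R4 →L[ℝ] R4) (a : R4) : imV (iota J₀ a) = -J₀ a := by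
  funext i; rw [imV_apply, iota_im]; rfl

/-- if `P ((z - z₀) ^ m) = o(|z - z₀| ^ m)` then `P 1 = 0` -/
theorem lin_littleO {F : Type*} [NormedAddCommGroup F] [NormedSpace ℝ F] (P : ℂ →L[ℝ] F) (z₀ : ℂ)
    (m : ℕ) (h : (fun z => P ((z - z₀) ^ m)) =o[𝓝 z₀] (fun z => ‖z - z₀‖ ^ m)) : P 1 = 0 := by
  rw [← norm_le_zero_iff]
  refine le_of_forall_pos_le_add fun c hc => ?_
  obtain ⟨ε, hε, hb⟩ := Metric.eventually_nhds_iff_ball.1 ((isLittleO_iff.1 h) hc)
  have := hb (z₀ + (ε / 2 : ℝ)) (by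
    rw [mem_ball, dist_eq_norm, add_sub_cancel_left, Complex.norm_real, Real.norm_eq_abs,
      abs_of_pos (by positivity)]
    linarith)
  simp only [add_sub_cancel_left] at this
  have e1 : P (((ε / 2 : ℝ) : ℂ) ^ m) = (ε / 2) ^ m • P 1 := by
    rw [← map_smul, ← Complex.ofReal_pow, Complex.real_smul, mul_one]
  rw [e1, norm_smul, norm_pow, norm_pow, norm_norm, Complex.norm_real, Real.norm_eq_abs,
    abs_of_pos (by positivity), mul_comm] at this
  have h2 := le_of_mul_le_mul_right this (by positivity)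
  linarith

/-- the difference of two `J`-holomorphic curves through the same point -/
theorem diff_lemma (SP : SP_statement) (D : Data) (u v : ℂ → R4) (z₀ : ℂ) (hu : JH D u)
    (hv : JH D v) (h0 : u z₀ = v z₀) :
    (∀ᶠ z in 𝓝 z₀, u z = v z) ∨ ∃ (m : ℕ) (a : R4), 1 ≤ m ∧ a ≠ 0 ∧
      (fun z => u z - v z - cm D (u z₀) ((z - z₀) ^ m) a) =o[𝓝 z₀] (fun z => ‖z - z₀‖ ^ m) := by
  classical
  obtain ⟨hus, hue⟩ := hu
  obtain ⟨hvs, hve⟩ := hv
  set x₀ := u z₀ with hx₀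
  set w : ℂ → R4 := fun z => u z - v z with hw
  have hws : ContDiff ℝ ∞ w := hus.sub hvs
  have hw0 : w z₀ = 0 := by simp [hw, ← hx₀, h0]
  set M : ℂ → R4 →L[ℝ] (Fin 4 → ℂ) := fun z => Mm D x₀ (u z) with hM
  have hMs : ContDiff ℝ ∞ M := (Mm_smooth D x₀).comp hus
  have hM0 : M z₀ = iota (D.J x₀) := Mm_self D x₀
  set W : ℂ → Fin 4 → ℂ := fun z => M z (w z) with hW
  have hWs : ContDiff ℝ ∞ W := hMs.clm_apply hws
  -- `w` is bounded by `W`
  have hwW : ∀ᶠ z in 𝓝 z₀, ‖w z‖ ≤ 2 * ‖W z‖ := by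
    have hc : Tendsto (fun z => ‖M z - M z₀‖) (𝓝 z₀) (𝓝 0) := by
      have : Continuous (fun z => ‖M z - M z₀‖) := by
        have := hMs.continuous
        fun_prop
      simpa using this.tendsto z₀
    filter_upwards [hc.eventually (gt_mem_nhds (show (0 : ℝ) < 1 / 2 by norm_num))] with z hz
    have h1 : ‖w z‖ ≤ ‖M z₀ (w z)‖ := by rw [hM0]; exact norm_le_iota _ _
    have h2 : ‖(M z - M z₀) (w z)‖ ≤ 1 / 2 * ‖w z‖ :=
      ((M z - M z₀).le_opNorm _).trans (by gcongr)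
    have h3 : M z₀ (w z) = W z - (M z - M z₀) (w z) := by
      rw [_root_.sub_apply]; simp only [hW]; abel
    have h4 : ‖M z₀ (w z)‖ ≤ ‖W z‖ + ‖(M z - M z₀) (w z)‖ := by
      rw [h3]; exact norm_sub_le _ _
    linarith
  -- the error term
  set A : ℂ → R4 := fun z => (D.J (u z) - D.J (v z)) (fderiv ℝ v z 1) with hA
  have hAe : ∀ z, fderiv ℝ w z Complex.I = D.J (u z) (fderiv ℝ w z 1) + A z := by
    intro z
    have h1 : fderiv ℝ w z = fderiv ℝ u z - fderiv ℝ v z :=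
      fderiv_fun_sub (hus.differentiable (by simp) z) (hvs.differentiable (by simp) z)
    rw [h1]
    simp only [hA, _root_.sub_apply, hue, hve, map_sub]
    abel
  have hAb : ∃ K : ℝ, ∀ᶠ z in 𝓝 z₀, ‖A z‖ ≤ K * ‖w z‖ := by
    obtain ⟨K, t, ht, hK⟩ :=
      ((D.J_smooth.of_le (by simp : (1 : WithTop ℕ∞) ≤ ∞)).contDiffAt
        (x := x₀)).exists_lipschitzOnWith
    have hvb : ∀ᶠ z in 𝓝 z₀, ‖fderiv ℝ v z 1‖ ≤ ‖fderiv ℝ v z₀ 1‖ + 1 := by
      have : Continuous (fun z => ‖fderiv ℝ v z 1‖) :=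
        ((hvs.continuous_fderiv (by simp)).clm_apply continuous_const).norm
      exact (this.tendsto z₀).eventually (ge_mem_nhds (by linarith))
    have hut : ∀ᶠ z in 𝓝 z₀, u z ∈ t := (hus.continuous.tendsto z₀).eventually ht
    have hvt : ∀ᶠ z in 𝓝 z₀, v z ∈ t := by
      have := hvs.continuous.tendsto z₀
      rw [← h0] at this
      exact this.eventually ht
    refine ⟨K * (‖fderiv ℝ v z₀ 1‖ + 1), ?_⟩
    filter_upwards [hvb, hut, hvt] with z h1 h2 h3
    have h4 := hK.dist_le_mul _ h2 _ h3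
    rw [dist_eq_norm, dist_eq_norm] at h4
    calc ‖A z‖ ≤ ‖D.J (u z) - D.J (v z)‖ * ‖fderiv ℝ v z 1‖ := ContinuousLinearMap.le_opNorm _ _
      _ ≤ (K * ‖u z - v z‖) * (‖fderiv ℝ v z₀ 1‖ + 1) := by gcongr
      _ = K * (‖fderiv ℝ v z₀ 1‖ + 1) * ‖w z‖ := by simp only [hw]; ring
  -- the differential inequality
  have hdb : ∃ C : ℝ, ∀ᶠ z in 𝓝 z₀, ‖dbar W z‖ ≤ C * ‖W z‖ := by
    obtain ⟨K, hK⟩ := hAb
    have hK' : ∀ᶠ z in 𝓝 z₀, ‖A z‖ ≤ |K| * ‖w z‖ := by
      filter_upwards [hK] with z hz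
      exact hz.trans (mul_le_mul_of_nonneg_right (le_abs_self K) (norm_nonneg _))
    have hMd : Continuous (fderiv ℝ M) := hMs.continuous_fderiv (by simp)
    have c1 : Continuous (fun z => ‖fderiv ℝ M z 1‖ + ‖fderiv ℝ M z Complex.I‖) := by fun_prop
    have c2 : Continuous (fun z => ‖M z‖ * ‖D.J (u z)‖) := by
      have := hMs.continuous
      have h2 := D.J_smooth.continuous.comp hus.continuous
      exact this.norm.mul h2.norm
    set B1 := ‖fderiv ℝ M z₀ 1‖ + ‖fderiv ℝ M z₀ Complex.I‖ + 1 with hB1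
    set B2 := ‖M z₀‖ * ‖D.J (u z₀)‖ + 1 with hB2
    have b1 : ∀ᶠ z in 𝓝 z₀, ‖fderiv ℝ M z 1‖ + ‖fderiv ℝ M z Complex.I‖ ≤ B1 :=
      (c1.tendsto z₀).eventually (ge_mem_nhds (by rw [hB1]; linarith))
    have b2 : ∀ᶠ z in 𝓝 z₀, ‖M z‖ * ‖D.J (u z)‖ ≤ B2 :=
      (c2.tendsto z₀).eventually (ge_mem_nhds (by rw [hB2]; linarith))
    refine ⟨(B1 + B2 * |K|), ?_⟩
    filter_upwards [hwW, hK', b1, b2] with z hz hKz h1 h2
    have key := dbar_frame D x₀ (hus.differentiable (by simp) z)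
      (hws.differentiable (by simp) z) (hAe z)
    change dbar W z = _ at key
    rw [key, norm_smul]
    have t1 : ‖fderiv ℝ M z 1 (w z)‖ ≤ ‖fderiv ℝ M z 1‖ * ‖w z‖ :=
      ContinuousLinearMap.le_opNorm _ _
    have t2 : ‖Complex.I • fderiv ℝ M z Complex.I (w z)‖ ≤ ‖fderiv ℝ M z Complex.I‖ * ‖w z‖ := by
      rw [norm_smul, Complex.norm_I, one_mul]
      exact ContinuousLinearMap.le_opNorm _ _
    have t3 : ‖M z (D.J (u z) (A z))‖ ≤ B2 * (|K| * ‖w z‖) := by
      calc ‖M z (D.J (u z) (A z))‖ ≤ ‖M z‖ * ‖D.J (u z) (A z)‖ :=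
            ContinuousLinearMap.le_opNorm _ _
        _ ≤ ‖M z‖ * (‖D.J (u z)‖ * ‖A z‖) := by
            gcongr; exact ContinuousLinearMap.le_opNorm _ _
        _ = ‖M z‖ * ‖D.J (u z)‖ * ‖A z‖ := by ring
        _ ≤ B2 * (|K| * ‖w z‖) := by gcongr
    have t4 : ‖(fderiv ℝ M z 1) (w z) + Complex.I • (fderiv ℝ M z Complex.I) (w z)
        + (M z) ((D.J (u z)) (A z))‖ ≤ (B1 + B2 * |K|) * ‖w z‖ := by
      refine (norm_add₃_le).trans ?_
      have : ‖fderiv ℝ M z 1‖ * ‖w z‖ + ‖fderiv ℝ M z Complex.I‖ * ‖w z‖ ≤ B1 * ‖w z‖ := by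
        rw [← add_mul]; gcongr
      linarith
    have hB : 0 ≤ B1 + B2 * |K| := by positivity
    calc ‖(1 / 2 : ℂ)‖ * ‖(fderiv ℝ M z 1) (w z) + Complex.I • (fderiv ℝ M z Complex.I) (w z)
        + (M z) ((D.J (u z)) (A z))‖ ≤ 1 / 2 * ((B1 + B2 * |K|) * ‖w z‖) := by
          have : ‖(1 / 2 : ℂ)‖ = 1 / 2 := by norm_num
          rw [this]
          gcongr
      _ ≤ 1 / 2 * ((B1 + B2 * |K|) * (2 * ‖W z‖)) := by gcongr
      _ = (B1 + B2 * |K|) * ‖W z‖ := by ring
  obtain ⟨C, hC⟩ := hdb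
  obtain ⟨R, hR, hb⟩ := Metric.eventually_nhds_iff_ball.1 hC
  -- apply the similarity principle to the translate
  have hsp := SP 4 (fun z => W (z + z₀)) R C hR
    ((hWs.continuous.comp (continuous_add_const z₀)).continuousOn)
    (((hWs.comp (contDiff_id.add contDiff_const)).of_le (by simp)).contDiffOn) (by
      intro z hz
      have h1 : dbar (fun z => W (z + z₀)) z = dbar W (z + z₀) := by
        unfold dbar
        rw [fderiv_comp_add_right]
      rw [h1]
      apply hb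
      rw [mem_ball, dist_eq_norm, add_sub_cancel_right]
      simpa using hz.1)
  rcases hsp with ⟨r, hr, hz⟩ | ⟨m, a, ha, hlo⟩
  · left
    filter_upwards [hwW, Metric.ball_mem_nhds z₀ hr] with z h1 h2
    have h3 : W z = 0 := by
      have := hz (z - z₀) (by rwa [mem_ball, dist_eq_norm, sub_zero, ← dist_eq_norm])
      simpa using this
    rw [h3, norm_zero, mul_zero] at h1
    exact sub_eq_zero.1 (norm_le_zero_iff.1 h1)
  right
  -- the expansion at `z₀`
  have htend : Tendsto (fun z : ℂ => z - z₀) (𝓝 z₀) (𝓝 0) := by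
    have : Continuous (fun z : ℂ => z - z₀) := by fun_prop
    simpa using this.tendsto z₀
  have hexp : (fun z => W z - (z - z₀) ^ m • a) =o[𝓝 z₀] (fun z => ‖z - z₀‖ ^ m) := by
    have := hlo.comp_tendsto htend
    have h2 := this.norm_right
    refine (h2.congr ?_ ?_)
    · intro z; simp
    · intro z; simp
  set α : R4 := reV a with hα
  set β : R4 := imV a with hβ
  have hrel : β = -D.J x₀ α := by
    set Q : (Fin 4 → ℂ) →L[ℝ] R4 := imV + (D.J x₀).comp reV with hQ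
    have hQW : ∀ z, Q (W z) = 0 := by
      intro z
      simp only [hQ, _root_.add_apply, ContinuousLinearMap.comp_apply]
      change imV (iota (D.J x₀) (Phm D x₀ (u z) (w z))) + _ = _
      change _ + D.J x₀ (reV (iota (D.J x₀) (Phm D x₀ (u z) (w z)))) = 0
      rw [imV_iota, reV_iota, neg_add_cancel]
    set P : ℂ →L[ℝ] R4 :=
      Q.comp ((ContinuousLinearMap.smulRight (1 : ℂ →L[ℂ] ℂ) a).restrictScalars ℝ) with hP
    have hPa : ∀ ζ : ℂ, P ζ = Q (ζ • a) := by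
      intro ζ; simp [hP]
    have h1 := lin_littleO P z₀ m ?_
    · rw [hPa, one_smul] at h1
      exact eq_neg_of_add_eq_zero_left h1
    · have h2 := (Q.isBigO_comp (fun z => W z - (z - z₀) ^ m • a) (𝓝 z₀)).trans_isLittleO hexp
      refine (h2.neg_left).congr_left ?_
      intro z
      rw [hPa, map_sub, hQW]
      simp
  have hcm : ∀ ζ : ℂ, reV (ζ • a) = cm D x₀ ζ α := by
    intro ζ
    funext i
    have hβi : (a i).im = -(D.J x₀ α) i := by
      have := congrFun hrel i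
      rw [hβ, imV_apply] at this
      rw [this]; rfl
    rw [reV_apply, Pi.smul_apply, smul_eq_mul, Complex.mul_re, hβi]
    simp only [cm, Pi.add_apply, Pi.smul_apply, smul_eq_mul]
    rw [hα, reV_apply]
    ring
  have hα0 : α ≠ 0 := by
    intro h
    apply ha
    have hβ0 : β = 0 := by rw [hrel, h, map_zero, neg_zero]
    funext i
    apply Complex.ext
    · have := congrFun h i; exact this
    · have := congrFun hβ0 i; exact this
  have hwO : w =O[𝓝 z₀] (fun z => ‖z - z₀‖ ^ m) := by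
    have h1 : w =O[𝓝 z₀] W := IsBigO.of_bound 2 hwW
    have h2 : W =O[𝓝 z₀] (fun z => ‖z - z₀‖ ^ m) := by
      have h3 : (fun z => (z - z₀) ^ m • a) =O[𝓝 z₀] (fun z => ‖z - z₀‖ ^ m) := by
        refine IsBigO.of_bound ‖a‖ (Eventually.of_forall fun z => ?_)
        rw [norm_smul, norm_pow, norm_pow, norm_norm, mul_comm]
      have := hexp.isBigO.add h3
      simpa using this
    exact h1.trans h2
  have hmain : (fun z => w z - cm D x₀ ((z - z₀) ^ m) α) =o[𝓝 z₀] (fun z => ‖z - z₀‖ ^ m) := by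
    have e1 : (fun z => reV (W z - (z - z₀) ^ m • a)) =o[𝓝 z₀] (fun z => ‖z - z₀‖ ^ m) :=
      (reV.isBigO_comp (fun z => W z - (z - z₀) ^ m • a) (𝓝 z₀)).trans_isLittleO hexp
    have e2 : (fun z => (ContinuousLinearMap.id ℝ R4 - Phm D x₀ (u z)) (w z)) =o[𝓝 z₀]
        (fun z => ‖z - z₀‖ ^ m) := by
      refine IsLittleO.trans_isBigO ?_ hwO
      rw [isLittleO_iff]
      intro c hc
      have : Continuous (fun z => ‖ContinuousLinearMap.id ℝ R4 - Phm D x₀ (u z)‖) := by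
        have h1 := (Phm_smooth D x₀).continuous.comp hus.continuous
        exact (continuous_const.sub h1).norm
      have ht := this.tendsto z₀
      rw [show u z₀ = x₀ from rfl, Phm_self, sub_self, norm_zero] at ht
      filter_upwards [ht.eventually (gt_mem_nhds hc)] with z hz
      exact (ContinuousLinearMap.le_opNorm _ _).trans (by gcongr)
    refine (e1.add e2).congr_left ?_
    intro z
    rw [map_sub, hcm]
    have : reV (W z) = Phm D x₀ (u z) (w z) := reV_iota _ _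
    rw [this, _root_.sub_apply, ContinuousLinearMap.id_apply]
    abel
  refine ⟨m, α, ?_, hα0, hmain⟩
  by_contra hm
  obtain rfl : m = 0 := by omega
  have h1 := apply_eq_zero_of_littleO hmain
  simp only [pow_zero, hw0, zero_sub, neg_eq_zero] at h1
  rw [← cmL_apply, cmL_one] at h1
  exact hα0 h1

end Vale.Agent.P247.H94
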