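import Vale.Agent.P247.H332.K3.Sta
import Vale.Agent.P247.H94.Diff
import Vale.Agent.P247.H74.K2A.K2A

/-! # P247, package DPSI: the total map of a family is an immersion -/

open scoped ContDiff Topology
open Set Filter Metric Asymptotics MeasureTheory Vale.Agent.P247.H74 Vale.Agent.P247.H332

noncomputable section

namespace Vale.Agent.P247.H94

theorem two_le_inf : (2 : WithTop ℕ∞) ≤ ∞ := WithTop.coe_le_coe.2 (le_top : (2 : ℕ∞) ≤ ⊤)

/-! ## Differentiation under the mean -/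

theorem hasDerivAt_mean {U : Set P2} (hU : IsOpen U) {Q : P2 × P2 → ℝ}
    (hQ : ContDiffOn ℝ 1 Q (U ×ˢ univ)) {y : P2} (hy : y ∈ U) (y' : P2) :
    HasDerivAt (fun ε : ℝ => mean (fun p => Q (y + ε • y', p)))
      (mean (fun p => fderiv ℝ Q (y, p) (y', 0))) 0 := by
  have hUo : IsOpen (U ×ˢ (univ : Set P2)) := hU.prod isOpen_univ
  -- a small interval
  have hc : Continuous (fun ε : ℝ => y + ε • y') := by fun_prop
  have hmem : ∀ᶠ ε : ℝ in 𝓝 0, y + ε • y' ∈ U := by
    have := hc.tendsto 0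
    rw [zero_smul, add_zero] at this
    exact this.eventually (hU.mem_nhds hy)
  obtain ⟨δ, hδ, hb⟩ := Metric.eventually_nhds_iff_ball.1 hmem
  have hseg : ∀ ε ∈ closedBall (0 : ℝ) (δ / 2), y + ε • y' ∈ U := by
    intro ε hε
    apply hb
    rw [mem_closedBall] at hε
    rw [mem_ball]
    linarith
  have hdiff : ∀ q ∈ U ×ˢ (univ : Set P2), DifferentiableAt ℝ Q q := fun q hq =>
    (hQ.differentiableOn (by simp) q hq).differentiableAt (hUo.mem_nhds hq)
  have hcont' : ContinuousOn (fderiv ℝ Q) (U ×ˢ (univ : Set P2)) :=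
    hQ.continuousOn_fderiv_of_isOpen hUo (by simp)
  set K : Set (ℝ × P2) := closedBall (0 : ℝ) (δ / 2) ×ˢ Icc (0 : P2) 1 with hK
  have hKc : IsCompact K := (isCompact_closedBall _ _).prod isCompact_Icc
  have hcK : ContinuousOn (fun r : ℝ × P2 => fderiv ℝ Q (y + r.1 • y', r.2) (y', 0)) K := by
    have h1 : ContinuousOn (fun r : ℝ × P2 => fderiv ℝ Q (y + r.1 • y', r.2)) K := by
      refine hcont'.comp (by fun_prop) ?_
      intro r hr
      exact ⟨hseg _ hr.1, mem_univ _⟩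
    exact h1.clm_apply continuousOn_const
  obtain ⟨C, hC⟩ := hKc.exists_bound_of_continuousOn hcK
  have hder : ∀ p, ∀ ε ∈ closedBall (0 : ℝ) (δ / 2),
      HasDerivAt (fun ε : ℝ => Q (y + ε • y', p)) (fderiv ℝ Q (y + ε • y', p) (y', 0)) ε := by
    intro p ε hε
    have h1 := (hdiff (y + ε • y', p) ⟨hseg _ hε, mem_univ _⟩).hasFDerivAt
    have h2 : HasDerivAt (fun ε : ℝ => (y + ε • y', p)) (y', (0 : P2)) ε := by
      have h3 : HasDerivAt (fun ε : ℝ => y + ε • y') y' ε := by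
        have := ((hasDerivAt_id ε).smul_const y').const_add y
        simpa using this
      exact h3.prodMk (hasDerivAt_const ε p)
    exact h1.comp_hasDerivAt ε h2
  have hQc : ∀ ε ∈ closedBall (0 : ℝ) (δ / 2), Continuous (fun p => Q (y + ε • y', p)) := by
    intro ε hε
    rw [← continuousOn_univ]
    refine hQ.continuousOn.comp (by fun_prop) ?_
    intro p _
    exact ⟨hseg _ hε, mem_univ _⟩
  have hfin : IsFiniteMeasure (volume.restrict (Icc (0 : P2) 1)) :=
    ⟨by rw [Measure.restrict_apply_univ]; exact isCompact_Icc.measure_lt_top⟩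
  have key := hasDerivAt_integral_of_dominated_loc_of_deriv_le
    (μ := volume.restrict (Icc (0 : P2) 1)) (𝕜 := ℝ)
    (F := fun (ε : ℝ) (p : P2) => Q (y + ε • y', p))
    (F' := fun (ε : ℝ) (p : P2) => fderiv ℝ Q (y + ε • y', p) (y', 0))
    (x₀ := (0 : ℝ)) (s := ball 0 (δ / 2)) (bound := fun _ => C)
    (ball_mem_nhds _ (by positivity)) ?_ ?_ ?_ ?_ (integrable_const C) ?_
  · have := key.2
    simp only [zero_smul, add_zero] at this
    exact this
  · filter_upwards [ball_mem_nhds (0 : ℝ) (show 0 < δ / 2 by positivity)] with ε hε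
    exact (hQc ε (ball_subset_closedBall hε)).aestronglyMeasurable
  · have := (hQc 0 (mem_closedBall_self (by positivity))).continuousOn (s := Icc (0 : P2) 1)
    exact this.integrableOn_compact isCompact_Icc
  · have h1 : Continuous (fun p : P2 => fderiv ℝ Q (y + (0 : ℝ) • y', p) (y', 0)) := by
      rw [← continuousOn_univ]
      refine ContinuousOn.clm_apply ?_ continuousOn_const
      refine hcont'.comp (by fun_prop) ?_
      intro p _
      exact ⟨hseg _ (mem_closedBall_self (by positivity)), mem_univ _⟩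
    exact h1.aestronglyMeasurable
  · rw [ae_restrict_iff' measurableSet_Icc]
    refine Eventually.of_forall fun p hp ε hε => ?_
    exact hC (ε, p) ⟨ball_subset_closedBall hε, hp⟩
  · refine Eventually.of_forall fun p ε hε => ?_
    exact hder p ε (ball_subset_closedBall hε)

/-! ## The derivative of a family -/

def Gf (F : P2 → P2 → R4) (q : P2 × P2) : R4 := F q.1 q.2

def vf (F : P2 → P2 → R4) (y y' p : P2) : R4 := fderiv ℝ (Gf F) (y, p) (y', 0)

section fam

variable {D : Data} {U : Set P2} {F : P2 → P2 → R4} {T : P2 → ℂ}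

theorem Gf_diff (hU : IsOpen U) (h : Fam D U F T) {y : P2} (hy : y ∈ U) (p : P2) :
    ContDiffAt ℝ ∞ (Gf F) (y, p) :=
  h.smooth.contDiffAt ((hU.prod isOpen_univ).mem_nhds ⟨hy, mem_univ _⟩)

theorem Gf'_diff (hU : IsOpen U) (h : Fam D U F T) {y : P2} (hy : y ∈ U) (p : P2) :
    ContDiffAt ℝ ∞ (fderiv ℝ (Gf F)) (y, p) :=
  (Gf_diff hU h hy p).fderiv_right (by simp)

theorem slice_hasFDerivAt (y p : P2) :
    HasFDerivAt (fun p : P2 => (y, p)) (ContinuousLinearMap.inr ℝ P2 P2) p :=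
  (hasFDerivAt_const y p).prodMk (hasFDerivAt_id p)

theorem fderiv_F (hU : IsOpen U) (h : Fam D U F T) {y : P2} (hy : y ∈ U) (p w : P2) :
    fderiv ℝ (F y) p w = fderiv ℝ (Gf F) (y, p) (0, w) := by
  have h1 := ((Gf_diff hU h hy p).differentiableAt (by simp)).hasFDerivAt
  have h2 := h1.comp p (slice_hasFDerivAt y p)
  have h3 : HasFDerivAt (F y) ((fderiv ℝ (Gf F) (y, p)).comp (ContinuousLinearMap.inr ℝ P2 P2)) p :=
    h2
  rw [h3.fderiv]
  rfl

theorem vf_smooth (hU : IsOpen U) (h : Fam D U F T) {y : P2} (hy : y ∈ U) (y' : P2) :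
    ContDiff ℝ ∞ (vf F y y') := by
  rw [contDiff_iff_contDiffAt]
  intro p
  have h1 := Gf'_diff hU h hy p
  have h2 : ContDiffAt ℝ ∞ (fun p : P2 => (y, p)) p := contDiffAt_const.prodMk contDiffAt_id
  have h3 := ContDiffAt.comp p h1 h2
  exact h3.clm_apply contDiffAt_const

theorem fderiv_vf (hU : IsOpen U) (h : Fam D U F T) {y : P2} (hy : y ∈ U) (y' p w : P2) :
    fderiv ℝ (vf F y y') p w = fderiv ℝ (fderiv ℝ (Gf F)) (y, p) (y', 0) (0, w) := by
  have h1 := ((Gf'_diff hU h hy p).differentiableAt (by simp)).hasFDerivAt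
  have h2 := h1.comp p (slice_hasFDerivAt y p)
  have h3 := h2.clm_apply (hasFDerivAt_const ((y', 0) : P2 × P2) p)
  have h4 : fderiv ℝ (vf F y y') p w = fderiv ℝ (fderiv ℝ (Gf F)) (y, p) (0, w) (y', 0) := by
    have h5 : HasFDerivAt (vf F y y') _ p := h3
    rw [h5.fderiv]
    simp
  rw [h4]
  have h6 : IsSymmSndFDerivAt ℝ (Gf F) (y, p) :=
    (Gf_diff hU h hy p).isSymmSndFDerivAt (by
      rw [minSmoothness_of_isRCLikeNormedField]; exact WithTop.coe_le_coe.2 (le_top : (2 : ℕ∞) ≤ ⊤))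
  exact h6 _ _

theorem Per_vf (hU : IsOpen U) (h : Fam D U F T) {y : P2} (hy : y ∈ U) (y' : P2) :
    Per (vf F y y') := by
  intro m n p
  have hUo : IsOpen (U ×ˢ (univ : Set P2)) := hU.prod isOpen_univ
  have h1 : HasFDerivAt (Gf F) (fderiv ℝ (Gf F) (y, (p.1 + m, p.2 + n))) (y, (p.1 + m, p.2 + n)) :=
    ((Gf_diff hU h hy _).differentiableAt (by simp)).hasFDerivAt
  have h2 : HasFDerivAt (fun q : P2 × P2 => (q.1, ((q.2.1 + m, q.2.2 + n) : P2)))
      (ContinuousLinearMap.id ℝ (P2 × P2)) (y, p) := by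
    have h3 : HasFDerivAt (fun q : P2 × P2 => q + ((0 : P2), (((m : ℝ), (n : ℝ)) : P2)))
      (ContinuousLinearMap.id ℝ (P2 × P2)) (y, p) := (hasFDerivAt_id _).add_const _
    refine h3.congr_of_eventuallyEq (Eventually.of_forall fun q => ?_)
    ext <;> simp
  have h3 := h1.comp (y, p) h2
  have h4 : HasFDerivAt (Gf F) ((fderiv ℝ (Gf F) (y, (p.1 + m, p.2 + n))).comp
      (ContinuousLinearMap.id ℝ (P2 × P2))) (y, p) := by
    refine h3.congr_of_eventuallyEq ?_
    filter_upwards [hUo.mem_nhds (show ((y, p) : P2 × P2) ∈ U ×ˢ univ from ⟨hy, mem_univ _⟩)]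
      with q hq
    exact ((h.jt q.1 hq.1).per m n q.2).symm
  have h5 := h4.fderiv
  unfold vf
  rw [h5]
  rfl

/-! ## Derivatives along a segment of parameters -/

theorem eventually_mem (hU : IsOpen U) {y : P2} (hy : y ∈ U) (y' : P2) :
    ∀ᶠ ε : ℝ in 𝓝 0, y + ε • y' ∈ U := by
  have hc : Continuous (fun ε : ℝ => y + ε • y') := by fun_prop
  have := hc.tendsto 0
  rw [zero_smul, add_zero] at this
  exact this.eventually (hU.mem_nhds hy)

theorem seg_hasDerivAt (y y' p : P2) :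
    HasDerivAt (fun ε : ℝ => ((y + ε • y', p) : P2 × P2)) (y', (0 : P2)) 0 := by
  have h3 : HasDerivAt (fun ε : ℝ => y + ε • y') y' 0 := by
    have := ((hasDerivAt_id (0 : ℝ)).smul_const y').const_add y
    simpa using this
  exact h3.prodMk (hasDerivAt_const 0 p)

theorem G_hasDerivAt (hU : IsOpen U) (h : Fam D U F T) {y : P2} (hy : y ∈ U) (y' p : P2) :
    HasDerivAt (fun ε : ℝ => Gf F (y + ε • y', p)) (vf F y y' p) 0 := by
  have h1 : HasFDerivAt (Gf F) (fderiv ℝ (Gf F) (y + (0 : ℝ) • y', p)) (y + (0 : ℝ) • y', p) := by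
    rw [zero_smul, add_zero]
    exact ((Gf_diff hU h hy p).differentiableAt (by simp)).hasFDerivAt
  have h2 := h1.comp_hasDerivAt (0 : ℝ) (seg_hasDerivAt y y' p)
  rw [zero_smul, add_zero] at h2
  exact h2

theorem G'_hasDerivAt (hU : IsOpen U) (h : Fam D U F T) {y : P2} (hy : y ∈ U) (y' p w : P2) :
    HasDerivAt (fun ε : ℝ => fderiv ℝ (Gf F) (y + ε • y', p) (0, w))
      (fderiv ℝ (vf F y y') p w) 0 := by
  have h1 : HasFDerivAt (fderiv ℝ (Gf F)) (fderiv ℝ (fderiv ℝ (Gf F)) (y + (0 : ℝ) • y', p))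
      (y + (0 : ℝ) • y', p) := by
    rw [zero_smul, add_zero]
    exact ((Gf'_diff hU h hy p).differentiableAt (by simp)).hasFDerivAt
  have h2 := h1.comp_hasDerivAt (0 : ℝ) (seg_hasDerivAt y y' p)
  rw [zero_smul, add_zero] at h2
  have h3 := h2.clm_apply (hasDerivAt_const (0 : ℝ) ((0, w) : P2 × P2))
  rw [fderiv_vf hU h hy]
  simpa using h3

theorem F_diff (h : Fam D U F T) {y : P2} (hy : y ∈ U) : Differentiable ℝ (F y) :=
  (h.jt y hy).smooth.differentiable (by simp)

theorem ds_phiF (hU : IsOpen U) (h : Fam D U F T) {y : P2} (hy : y ∈ U) (p : P2) :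
    ds (phi (F y)) p = e 2 + fderiv ℝ (Gf F) (y, p) (0, (1, 0)) := by
  rw [K2A.ds_phi (F_diff h hy p), ds, fderiv_F hU h hy]

theorem dt_phiF (hU : IsOpen U) (h : Fam D U F T) {y : P2} (hy : y ∈ U) (p : P2) :
    dt (phi (F y)) p = e 3 + fderiv ℝ (Gf F) (y, p) (0, (0, 1)) := by
  rw [K2A.dt_phi (F_diff h hy p), dt, fderiv_F hU h hy]

/-- the linearised equation -/
theorem lin_eq (hU : IsOpen U) (h : Fam D U F T) {y : P2} (hy : y ∈ U) (y' : P2) (p : P2) :
    Lop D (F y) (T y) (vf F y y') (fderiv ℝ T y y') p = 0 := by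
  -- the derivative of `T`
  have hT : HasDerivAt (fun ε : ℝ => T (y + ε • y')) (fderiv ℝ T y y') 0 := by
    have h1 : HasFDerivAt T (fderiv ℝ T (y + (0 : ℝ) • y')) (y + (0 : ℝ) • y') := by
      rw [zero_smul, add_zero]
      exact ((h.smoothT.contDiffAt (hU.mem_nhds hy)).differentiableAt (by simp)).hasFDerivAt
    have h3 : HasDerivAt (fun ε : ℝ => y + ε • y') y' 0 := by
      have := ((hasDerivAt_id (0 : ℝ)).smul_const y').const_add y
      simpa using this
    have h2 := h1.comp_hasDerivAt (0 : ℝ) h3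
    rw [zero_smul, add_zero] at h2
    exact h2
  have hre : HasDerivAt (fun ε : ℝ => (T (y + ε • y')).re) (fderiv ℝ T y y').re 0 :=
    Complex.reCLM.hasFDerivAt.comp_hasDerivAt (0 : ℝ) hT
  have him : HasDerivAt (fun ε : ℝ => (T (y + ε • y')).im) (fderiv ℝ T y y').im 0 :=
    Complex.imCLM.hasFDerivAt.comp_hasDerivAt (0 : ℝ) hT
  have hG := G_hasDerivAt hU h hy y' p
  have hs := (G'_hasDerivAt hU h hy y' p (1, 0)).const_add (e 2)
  have ht := (G'_hasDerivAt hU h hy y' p (0, 1)).const_add (e 3)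
  have hx := hG.const_add (lin p)
  have hJ : HasDerivAt (fun ε : ℝ => D.J (lin p + Gf F (y + ε • y', p)))
      (fderiv ℝ D.J (phi (F y) p) (vf F y y' p)) 0 := by
    have h1 : HasFDerivAt D.J (fderiv ℝ D.J (lin p + Gf F (y + (0 : ℝ) • y', p)))
        (lin p + Gf F (y + (0 : ℝ) • y', p)) :=
      (D.J_smooth.differentiable (by simp) _).hasFDerivAt
    have h2 := h1.comp_hasDerivAt (0 : ℝ) hx
    rw [zero_smul, add_zero] at h2
    exact h2
  have htot := (ht.sub (hre.smul hs)).sub (him.smul (hJ.clm_apply hs))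
  have hzero : (fun ε : ℝ => (0 : R4)) =ᶠ[𝓝 0] (fun ε : ℝ =>
      (e 3 + fderiv ℝ (Gf F) (y + ε • y', p) (0, (0, 1)))
      - (T (y + ε • y')).re • (e 2 + fderiv ℝ (Gf F) (y + ε • y', p) (0, (1, 0)))
      - (T (y + ε • y')).im • (D.J (lin p + Gf F (y + ε • y', p)))
        (e 2 + fderiv ℝ (Gf F) (y + ε • y', p) (0, (1, 0)))) := by
    filter_upwards [eventually_mem hU hy y'] with ε hε
    have h1 := (h.jt _ hε).eq p
    rw [ds_phiF hU h hε, dt_phiF hU h hε] at h1
    rw [h1]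
    change 0 = _ + _ • (D.J (lin p + Gf F (y + ε • y', p))) _ - _ - _
    abel
  have h0 := (hasDerivAt_const (0 : ℝ) (0 : R4)).congr_of_eventuallyEq hzero.symm
  have huniq := htot.unique h0
  rw [← huniq, Lop, ds_phiF hU h hy]
  simp only [zero_smul, add_zero]
  change fderiv ℝ (vf F y y') p (0, 1) - (T y).re • fderiv ℝ (vf F y y') p (1, 0)
      - (T y).im • (D.J (phi (F y) p)) (fderiv ℝ (vf F y y') p (1, 0)) - _ - _ - _ =
    fderiv ℝ (vf F y y') p (0, 1) - _ - (_ • ((fderiv ℝ D.J (phi (F y) p) (vf F y y' p)) _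
      + (D.J (phi (F y) p)) _) + _ • (D.J (phi (F y) p)) _)
  module

/-! ## The flux along a segment -/

def Q1 (D : Data) (F : P2 → P2 → R4) (w a : P2) (q : P2 × P2) : ℝ :=
  (D.η 0).lam (lin q.2 + Gf F q) (lin w + fderiv ℝ (Gf F) q (0, w)) - (D.η 0).κ (lin a) (Gf F q)
    + (1 / 2) * (D.η 0).κ (Gf F q) (fderiv ℝ (Gf F) q (0, w))

theorem Q1_smooth (hU : IsOpen U) (h : Fam D U F T) (w a : P2) :
    ContDiffOn ℝ 1 (Q1 D F w a) (U ×ˢ univ) := by
  intro q hq
  have hG : ContDiffAt ℝ 1 (Gf F) q := (Gf_diff hU h hq.1 q.2).of_le (by simp)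
  have hG' : ContDiffAt ℝ 1 (fderiv ℝ (Gf F)) q := (Gf'_diff hU h hq.1 q.2).of_le (by simp)
  have h1 : ContDiffAt ℝ 1 (fun q => fderiv ℝ (Gf F) q (0, w)) q :=
    hG'.clm_apply contDiffAt_const
  have h2 : ContDiffAt ℝ 1 (fun q : P2 × P2 => lin q.2 + Gf F q) q := by
    have : ContDiffAt ℝ 1 (fun q : P2 × P2 => lin q.2) q :=
      (K2A.contDiff_lin.of_le (by simp)).contDiffAt.comp q contDiffAt_snd
    exact this.add hG
  have h3 : ContDiffAt ℝ 1 (fun q : P2 × P2 => (D.η 0).lam (lin q.2 + Gf F q)) q :=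
    ((D.η 0).lam_smooth.of_le (by simp)).contDiffAt.comp q h2
  have h4 : ContDiffAt ℝ 1 (fun q : P2 × P2 => (D.η 0).κ (Gf F q)) q :=
    (D.η 0).κ.contDiff.contDiffAt.comp q hG
  have h1' : ContDiffAt ℝ 1 (fun q => lin w + fderiv ℝ (Gf F) q (0, w)) q :=
    contDiffAt_const.add h1
  have h5 := ((h3.clm_apply h1').sub
    (((D.η 0).κ (lin a)).contDiff.contDiffAt.comp q hG)).add
    (contDiffAt_const.mul (h4.clm_apply h1) (f := fun _ => (1 / 2 : ℝ)))
  exact h5.contDiffWithinAt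

theorem Q1_deriv (hU : IsOpen U) (h : Fam D U F T) (w a : P2) {y : P2} (hy : y ∈ U)
    (y' p : P2) : fderiv ℝ (Q1 D F w a) (y, p) (y', 0) =
      (fderiv ℝ (D.η 0).lam (phi (F y) p) (vf F y y' p)) (lin w + fderiv ℝ (F y) p w)
      + (D.η 0).lam (phi (F y) p) (fderiv ℝ (vf F y y') p w) - (D.η 0).κ (lin a) (vf F y y' p)
      + (1 / 2) * ((D.η 0).κ (vf F y y' p) (fderiv ℝ (F y) p w)
        + (D.η 0).κ (F y p) (fderiv ℝ (vf F y y') p w)) := by
  have hG := G_hasDerivAt hU h hy y' p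
  have hs := G'_hasDerivAt hU h hy y' p w
  have hx := hG.const_add (lin p)
  have hlam : HasDerivAt (fun ε : ℝ => (D.η 0).lam (lin p + Gf F (y + ε • y', p)))
      (fderiv ℝ (D.η 0).lam (phi (F y) p) (vf F y y' p)) 0 := by
    have h1 : HasFDerivAt (D.η 0).lam (fderiv ℝ (D.η 0).lam (lin p + Gf F (y + (0 : ℝ) • y', p)))
        (lin p + Gf F (y + (0 : ℝ) • y', p)) :=
      ((D.η 0).lam_smooth.differentiable (by simp) _).hasFDerivAt
    have h2 := h1.comp_hasDerivAt (0 : ℝ) hx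
    rw [zero_smul, add_zero] at h2
    exact h2
  have hκ : HasDerivAt (fun ε : ℝ => (D.η 0).κ (Gf F (y + ε • y', p)))
      ((D.η 0).κ (vf F y y' p)) 0 :=
    (D.η 0).κ.hasFDerivAt.comp_hasDerivAt (0 : ℝ) hG
  have hκ' : HasDerivAt (fun ε : ℝ => (D.η 0).κ (lin a) (Gf F (y + ε • y', p)))
      ((D.η 0).κ (lin a) (vf F y y' p)) 0 :=
    ((D.η 0).κ (lin a)).hasFDerivAt.comp_hasDerivAt (0 : ℝ) hG
  have htot := ((hlam.clm_apply (hs.const_add (lin w))).sub hκ').add
    ((hκ.clm_apply hs).const_mul (1 / 2 : ℝ))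
  have hQ : HasFDerivAt (Q1 D F w a) (fderiv ℝ (Q1 D F w a) (y + (0 : ℝ) • y', p))
      (y + (0 : ℝ) • y', p) := by
    rw [zero_smul, add_zero]
    have := (Q1_smooth hU h w a (y, p) ⟨hy, mem_univ _⟩).contDiffAt
      ((hU.prod isOpen_univ).mem_nhds ⟨hy, mem_univ _⟩)
    exact (this.differentiableAt (by simp)).hasFDerivAt
  have h2 := hQ.comp_hasDerivAt (0 : ℝ) (seg_hasDerivAt y y' p)
  rw [zero_smul, add_zero] at h2
  have h3 := h2.unique htot
  rw [h3, fderiv_F hU h hy]
  simp only [zero_smul, add_zero]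
  rfl

/-- the derivative of the flux, one component -/
theorem flux_deriv (hU : IsOpen U) (h : Fam D U F T) (w a : P2) {y : P2} (hy : y ∈ U)
    (y' : P2) (L : P2 →L[ℝ] ℝ)
    (hL : ∀ y ∈ U, L y = mean (fun p => Q1 D F w a (y, p))) :
    L y' = mean (fun p =>
      (fderiv ℝ (D.η 0).lam (phi (F y) p) (vf F y y' p)) (lin w + fderiv ℝ (F y) p w)
      + (D.η 0).lam (phi (F y) p) (fderiv ℝ (vf F y y') p w) - (D.η 0).κ (lin a) (vf F y y' p)
      + (1 / 2) * ((D.η 0).κ (vf F y y' p) (fderiv ℝ (F y) p w)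
        + (D.η 0).κ (F y p) (fderiv ℝ (vf F y y') p w))) := by
  have h1 := hasDerivAt_mean hU (Q1_smooth hU h w a) hy y'
  simp only [Q1_deriv hU h w a hy y'] at h1
  have h3 : HasDerivAt (fun ε : ℝ => L (y + ε • y')) (L y') 0 := by
    have h4 : HasDerivAt (fun ε : ℝ => y + ε • y') y' 0 := by
      have := ((hasDerivAt_id (0 : ℝ)).smul_const y').const_add y
      simpa using this
    exact L.hasFDerivAt.comp_hasDerivAt (0 : ℝ) h4
  have h5 : (fun ε : ℝ => L (y + ε • y')) =ᶠ[𝓝 0]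
      (fun ε : ℝ => mean (fun p => Q1 D F w a (y + ε • y', p))) := by
    filter_upwards [eventually_mem hU hy y'] with ε hε
    exact hL _ hε
  exact (h3.congr_of_eventuallyEq h5.symm).unique h1

end fam

/-! ## The forms on a solution of the linearised equation -/

theorem val_dt (D : Data) {f : P2 → R4} {τ : ℂ} (hf : JT D f τ) (j : Fin 2) (p : P2) (v : R4) :
    (D.η j).val (phi f p) v (dt (phi f) p)
      = τ.re * (D.η j).val (phi f p) v (ds (phi f) p)
        + τ.im * ∑ k, D.c (phi f p) j k * (D.η k).val (phi f p) v (ds (phi f) p) := by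
  rw [hf.eq p, K2A.val_add_right, K2A.val_smul_right, K2A.val_smul_right, D.η_J]

/-- a solution of the linearised equation which is tangent at one point is tangent everywhere -/
theorem tangent_everywhere (h2 : LIN2_statement) (hN : N_statement) (D : Data) {f : P2 → R4}
    {τ : ℂ} (hf : JT D f τ) {v : P2 → R4} (hv : ContDiff ℝ ∞ v) (hvp : Per v) {σ : ℂ}
    (hL : ∀ p, Lop D f τ v σ p = 0)
    (h0 : ∃ p, ∀ j, (D.η j).val (phi f p) (v p) (ds (phi f) p) = 0) :
    ∀ p j, (D.η j).val (phi f p) (v p) (ds (phi f) p) = 0 := by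
  have hphi : ContDiff ℝ ∞ (phi f) := K2A.contDiff_phi le_rfl hf.smooth
  have hds : ContDiff ℝ ∞ (ds (phi f)) := K2A.contDiff_ds (n := ∞) (m := ∞) hphi (by simp)
  set h : Fin 2 → P2 → ℝ := fun j p => (D.η j).val (phi f p) (v p) (ds (phi f) p) with hh
  have hsm : ∀ j, ContDiff ℝ ∞ (h j) := by
    intro j
    have hl : ContDiff ℝ ∞ (fderiv ℝ (D.η j).lam) := smooth_fderiv (D.η j).lam_smooth
    have e1 : ContDiff ℝ ∞ (fun p => fderiv ℝ (D.η j).lam (phi f p)) := hl.comp hphi
    have e2 : ContDiff ℝ ∞ (fun p => (D.η j).κ (v p)) := (D.η j).κ.contDiff.comp hv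
    exact ((e2.clm_apply hds).add ((e1.clm_apply hv).clm_apply hds)).sub
      ((e1.clm_apply hds).clm_apply hv)
  have hper : ∀ j, Per (h j) := by
    intro j m n p
    simp only [hh]
    rw [K2A.phi_per hf.per, K2A.val_per, hvp m n p,
      K2A.per_ds_phi hf.per (hf.smooth.differentiable (by simp)) m n p]
  have hcs : ContDiff ℝ ∞ (fun p => D.c (phi f p)) := D.c_smooth.comp hphi
  have hcp : Per (fun p => D.c (phi f p)) := K2A.per_comp_phi hf.per D.c_per
  have key := hN (fun p => D.c (phi f p)) τ h hf.im_pos hcs hcp (fun p => D.c_sq _)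
    (fun j => (hsm j).of_le two_le_inf) hper ?_
  · rcases key with h3 | h3
    · intro p j; exact h3 j p
    · obtain ⟨p, hp⟩ := h0
      obtain ⟨j, hj⟩ := h3 p
      exact absurd (hp j) hj
  · intro j p
    have h4 := h2 D f τ v σ hf (hv.of_le two_le_inf) hvp j p
    rw [hL p] at h4
    have h5 : (D.η j).val (phi f p) (ds (phi f) p) 0 = 0 := by
      simp [CForm.val]
    rw [h5] at h4
    have h6 : (fun q => (D.η j).val (phi f q) (v q) (dt (phi f) q))
        = fun q => τ.re * h j q + τ.im * ∑ k, D.c (phi f q) j k * h k q := by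
      funext q
      exact val_dt D hf j q (v q)
    rw [h6] at h4
    change dt (h j) p = _
    change 0 = _ - dt (h j) p at h4
    linarith

/-- **DPSI** -/
theorem DPsi (h2 : LIN2_statement) (h3 : LIN3_statement) (hN : N_statement) :
    DPsi_statement := by
  intro D U F T hU h y hy p
  have hjt := h.jt y hy
  rw [injective_iff_map_eq_zero]
  rintro ⟨y', p'⟩ hker
  have hFd := F_diff h hy
  -- the equation
  have hd1 : HasFDerivAt (tot F)
      (K2A.linL.comp (ContinuousLinearMap.snd ℝ P2 P2) + fderiv ℝ (Gf F) (y, p)) (y, p) := by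
    have e1 : HasFDerivAt (fun q : P2 × P2 => lin q.2)
        (K2A.linL.comp (ContinuousLinearMap.snd ℝ P2 P2)) (y, p) := by
      rw [K2A.lin_eq]
      exact K2A.linL.hasFDerivAt.comp (y, p) hasFDerivAt_snd
    have e2 := ((Gf_diff hU h hy p).differentiableAt (by simp)).hasFDerivAt
    exact e1.add e2
  rw [hd1.fderiv] at hker
  have hsplit : fderiv ℝ (Gf F) (y, p) (y', p') = vf F y y' p + fderiv ℝ (F y) p p' := by
    rw [fderiv_F hU h hy, vf, ← map_add]
    simp
  have hw : p' = p'.1 • ((1, 0) : P2) + p'.2 • ((0, 1) : P2) := by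
    ext <;> simp
  have hphi' : K2A.linL p' + fderiv ℝ (F y) p p'
      = p'.1 • ds (phi (F y)) p + p'.2 • dt (phi (F y)) p := by
    have e1 : fderiv ℝ (phi (F y)) p p' = K2A.linL p' + fderiv ℝ (F y) p p' := by
      rw [K2A.fderiv_phi (hFd p)]; rfl
    rw [← e1]
    conv_lhs => rw [hw, map_add, map_smul, map_smul]
    rfl
  have hvp : vf F y y' p = -(p'.1 • ds (phi (F y)) p + p'.2 • dt (phi (F y)) p) := by
    have e1 : K2A.linL p' + (vf F y y' p + fderiv ℝ (F y) p p') = 0 := by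
      rw [← hsplit]; exact hker
    rw [← hphi']
    rw [eq_neg_iff_add_eq_zero, ← e1]
    abel
  -- tangent at `p`
  have htan : ∀ j, (D.η j).val (phi (F y) p) (vf F y y' p) (ds (phi (F y)) p) = 0 := by
    intro j
    rw [K2A.val_swap, hvp]
    have e1 : -(p'.1 • ds (phi (F y)) p + p'.2 • dt (phi (F y)) p)
        = (-p'.1) • ds (phi (F y)) p + (-p'.2) • dt (phi (F y)) p := by module
    rw [e1, K2A.val_add_right, K2A.val_smul_right, K2A.val_smul_right, val_dt D hjt,
      K2A.val_self]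
    simp [K2A.val_self]
  have hLin := lin_eq hU h hy y'
  have hall := tangent_everywhere h2 hN D hjt (vf_smooth hU h hy y') (Per_vf hU h hy y') hLin
    ⟨p, htan⟩
  have hallt : ∀ q, (D.η 0).val (phi (F y) q) (vf F y y' q) (dt (phi (F y)) q) = 0 := by
    intro q
    rw [val_dt D hjt]
    simp [hall q]
  -- the flux does not move
  have hl3 := h3 D (F y) (vf F y y') hjt.smooth hjt.per ((vf_smooth hU h hy y').of_le two_le_inf)
    (Per_vf hU h hy y')
  have hmean0 : mean (fun _ : P2 => (0 : ℝ)) = 0 := by simp [mean]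
  have hy1 : y'.1 = 0 := by
    have e1 := flux_deriv (D := D) hU h (1, 0) (1, 0) hy y' (ContinuousLinearMap.fst ℝ ℝ ℝ) ?_
    · have e2 := hl3.1
      simp only [hall, hmean0] at e2
      rw [ContinuousLinearMap.coe_fst'] at e1
      refine e1.trans (Eq.trans ?_ e2)
      congr 1
      funext q
      rw [K2A.ds_phi (hFd q), ← K2A.lin_e2]
      rfl
    · intro y₁ hy₁
      have e3 := congrArg Prod.fst (h.flux_eq y₁ hy₁)
      rw [ContinuousLinearMap.coe_fst', ← e3]
      simp only [flux]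
      congr 1
      funext q
      rw [K2A.ds_phi (F_diff h hy₁ q), ← K2A.lin_e2, ds, fderiv_F hU h hy₁]
      rfl
  have hy2 : y'.2 = 0 := by
    have e1 := flux_deriv (D := D) hU h (0, 1) (0, 1) hy y' (ContinuousLinearMap.snd ℝ ℝ ℝ) ?_
    · have e2 := hl3.2
      simp only [hallt, hmean0] at e2
      rw [ContinuousLinearMap.coe_snd'] at e1
      refine e1.trans (Eq.trans ?_ e2)
      congr 1
      funext q
      rw [K2A.dt_phi (hFd q), ← K2A.lin_e3]
      rfl
    · intro y₁ hy₁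
      have e3 := congrArg Prod.snd (h.flux_eq y₁ hy₁)
      rw [ContinuousLinearMap.coe_snd', ← e3]
      simp only [flux]
      congr 1
      funext q
      rw [K2A.dt_phi (F_diff h hy₁ q), ← K2A.lin_e3, dt, fderiv_F hU h hy₁]
      rfl
  have hy' : y' = 0 := Prod.ext hy1 hy2
  -- the torus is immersed
  have hv0 : vf F y y' p = 0 := by rw [hy', vf]; exact map_zero _
  rw [hv0, zero_eq_neg, hjt.eq p] at hvp
  have hcm : cm D (phi (F y) p) ((p'.1 : ℂ) + (p'.2 : ℂ) * T y) (ds (phi (F y)) p) = 0 := by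
    rw [← hvp]
    simp only [cm, Complex.add_re, Complex.add_im, Complex.mul_re, Complex.mul_im,
      Complex.ofReal_re, Complex.ofReal_im, zero_mul, sub_zero, add_zero, zero_add]
    module
  have hz := cm_eq_zero D _ _ _ (h.imm y hy p) hcm
  have him := congrArg Complex.im hz
  have hre := congrArg Complex.re hz
  simp only [Complex.add_re, Complex.add_im, Complex.mul_re, Complex.mul_im,
      Complex.ofReal_re, Complex.ofReal_im, zero_mul, sub_zero, add_zero, zero_add,
      Complex.zero_re, Complex.zero_im] at him hre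
  have hp2 : p'.2 = 0 := by
    rcases mul_eq_zero.1 him with h6 | h6
    · exact h6
    · exact absurd h6 hjt.im_pos.ne'
  have hp1 : p'.1 = 0 := by rw [hp2] at hre; simpa using hre
  rw [hy']
  exact Prod.ext rfl (Prod.ext hp1 hp2)

end Vale.Agent.P247.H94
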