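import Vale.Agent.P247.H574.Sta2

/-!
# Integration by parts for twisted sections over the four-torus
-/

open scoped ContDiff Topology
open Set MeasureTheory Filter Metric

noncomputable section

namespace Vale.Agent.P247.H94.IL

open Vale.Agent.P247.H74 Vale.Agent.P247.H574

/-- the integral over the unit cube -/
def ci {E : Type*} [NormedAddCommGroup E] [NormedSpace ℝ E] (f : R4 → E) : E :=
  ∫ x in Icc (0 : R4) 1, f x

/-- `ℤ⁴`-periodic functions -/
def Pe {E : Type*} (f : R4 → E) : Prop := ∀ (k : Fin 4 → ℤ) x, f (tr k x) = f x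

/-- twisted functions (sections) -/
def Tw (f : R4 → ℂ) : Prop := ∀ (k : Fin 4 → ℤ) x,
  f (tr k x) = Complex.exp (2 * Real.pi * Complex.I * k 0 * x 1) * f x

/-- connection forms -/
def Con (a : R4 → R4 →L[ℝ] ℝ) : Prop := ∀ (k : Fin 4 → ℤ) x,
  a (tr k x) = a x + (2 * Real.pi * k 0) • (ContinuousLinearMap.proj 1 : R4 →L[ℝ] ℝ)

theorem ci_add {E : Type*} [NormedAddCommGroup E] [NormedSpace ℝ E] {f g : R4 → E}
    (hf : Continuous f) (hg : Continuous g) : ci (fun x => f x + g x) = ci f + ci g :=
  integral_add hf.continuousOn.integrableOn_Icc hg.continuousOn.integrableOn_Icc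

theorem ci_sub {E : Type*} [NormedAddCommGroup E] [NormedSpace ℝ E] {f g : R4 → E}
    (hf : Continuous f) (hg : Continuous g) : ci (fun x => f x - g x) = ci f - ci g :=
  integral_sub hf.continuousOn.integrableOn_Icc hg.continuousOn.integrableOn_Icc

theorem ci_sum {E ι : Type*} [NormedAddCommGroup E] [NormedSpace ℝ E] (s : Finset ι)
    {f : ι → R4 → E} (hf : ∀ i ∈ s, Continuous (f i)) :
    ci (fun x => ∑ i ∈ s, f i x) = ∑ i ∈ s, ci (f i) :=
  integral_finsetSum s fun i hi => (hf i hi).continuousOn.integrableOn_Icc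

theorem ci_const_mul (c : ℂ) (f : R4 → ℂ) : ci (fun x => c * f x) = c * ci f :=
  integral_const_mul c f

theorem ci_mono {f g : R4 → ℝ} (hf : Continuous f) (hg : Continuous g) (h : ∀ x, f x ≤ g x) :
    ci f ≤ ci g :=
  setIntegral_mono hf.continuousOn.integrableOn_Icc hg.continuousOn.integrableOn_Icc h

theorem ci_nonneg {f : R4 → ℝ} (h : ∀ x, 0 ≤ f x) : 0 ≤ ci f :=
  setIntegral_nonneg measurableSet_Icc fun x _ => h x

/-- the integral of a derivative of a periodic function is zero -/
theorem ci_fderiv {E : Type*} [NormedAddCommGroup E] [NormedSpace ℝ E] [CompleteSpace E]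
    {f : R4 → E} (hf : ContDiff ℝ 1 f) (hp : Pe f) (k : Fin 4) :
    ci (fun x => fderiv ℝ f x (e k)) = 0 := by
  have hfd : Differentiable ℝ f := hf.differentiable one_ne_zero
  have hfc : Continuous fun x => fderiv ℝ f x (e k) :=
    (hf.continuous_fderiv one_ne_zero).clm_apply continuous_const
  have e1 : ∀ x : R4, ∑ i, (if i = k then fderiv ℝ f x else 0) (Pi.single i 1) =
      fderiv ℝ f x (e k) := by
    intro x
    rw [Finset.sum_eq_single k]
    · simp [e]
    · intro b _ hb
      simp [hb]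
    · simp
  have h := integral_divergence_of_hasFDerivAt_off_countable' (n := 3) (E := E) (0 : R4) 1
    zero_le_one (fun i x => if i = k then f x else 0)
    (fun i x => if i = k then fderiv ℝ f x else 0) ∅ countable_empty
    (fun i => by
      by_cases h : i = k
      · simpa only [Nat.reduceAdd, h, ↓reduceIte] using hf.continuous.continuousOn
      · simpa only [Nat.reduceAdd, h, ↓reduceIte] using continuousOn_const)
    (fun x _ i => by
      by_cases h : i = k
      · simpa [h] using (hfd x).hasFDerivAt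
      · simpa [h] using hasFDerivAt_const (0 : E) x)
    (by
      have : (fun x => ∑ i, (if i = k then fderiv ℝ f x else 0) (Pi.single i 1)) =
          fun x => fderiv ℝ f x (e k) := funext e1
      rw [this]
      exact hfc.continuousOn.integrableOn_Icc)
  simp only [e1] at h
  unfold ci
  rw [h]
  refine Finset.sum_eq_zero fun i _ => ?_
  by_cases hi : i = k
  · subst hi
    rw [sub_eq_zero]
    refine setIntegral_congr_fun measurableSet_Icc fun y _ => ?_
    simp only [if_true]
    have : (Fin.insertNth i ((1 : R4) i) y : R4) =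
        tr (Pi.single i 1) (Fin.insertNth i ((0 : R4) i) y : R4) := by
      funext j
      rcases Fin.eq_self_or_eq_succAbove i j with rfl | ⟨m, rfl⟩
      · simp [tr]
      · simp [tr]
    rw [this, hp]
  · simp only [Nat.reduceAdd, Pi.zero_comp, Pi.one_comp, hi, ↓reduceIte, integral_zero, sub_self]

/-! ## Twisted calculus -/

theorem contDiff_nab {a : R4 → R4 →L[ℝ] ℝ} {f : R4 → ℂ} (ha : ContDiff ℝ ∞ a)
    (hf : ContDiff ℝ ∞ f) (u : R4) : ContDiff ℝ ∞ fun x => nab a f x u := by
  unfold nab
  have h1 : ContDiff ℝ ∞ fun x => fderiv ℝ f x u := by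
    have := hf.fderiv_right (m := ∞) (by simp)
    exact this.clm_apply contDiff_const
  have h2 : ContDiff ℝ ∞ fun x => ((a x u : ℝ) : ℂ) :=
    Complex.ofRealCLM.contDiff.comp (ha.clm_apply contDiff_const)
  exact h1.sub ((contDiff_const.mul h2).mul hf)

theorem fderiv_tr {E : Type*} [NormedAddCommGroup E] [NormedSpace ℝ E] (f : R4 → E)
    (k : Fin 4 → ℤ) (x : R4) : fderiv ℝ (fun y => f (tr k y)) x = fderiv ℝ f (tr k x) := by
  have : (fun y => f (tr k y)) = fun y : R4 => f (y + (fun i => (k i : ℝ))) := rfl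
  rw [this, fderiv_comp_add_right]
  rfl

theorem Pe.fderiv {E : Type*} [NormedAddCommGroup E] [NormedSpace ℝ E] {f : R4 → E}
    (hf : Pe f) : Pe (_root_.fderiv ℝ f) := by
  intro k x
  rw [← fderiv_tr]
  congr 1
  funext y
  exact hf k y

theorem Tw.nab {a : R4 → R4 →L[ℝ] ℝ} {f : R4 → ℂ} (ha : Con a) (hf : Tw f)
    (hs : Differentiable ℝ f) (u : R4) : Tw fun x => nab a f x u := by
  intro k x
  unfold H574.nab
  have h1 : (fun y => f (tr k y)) =
      fun y => Complex.exp (2 * Real.pi * Complex.I * k 0 * y 1) * f y := funext (hf k)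
  have h2 : HasFDerivAt (fun y : R4 => Complex.exp (2 * Real.pi * Complex.I * k 0 * y 1))
      (Complex.exp (2 * Real.pi * Complex.I * k 0 * x 1) •
        ((2 * Real.pi * Complex.I * k 0 : ℂ) • (Complex.ofRealCLM.comp
          (ContinuousLinearMap.proj 1 : R4 →L[ℝ] ℝ)))) x := by
    have h3 : HasFDerivAt (fun y : R4 => (2 * Real.pi * Complex.I * k 0 * y 1 : ℂ))
        ((2 * Real.pi * Complex.I * k 0 : ℂ) • (Complex.ofRealCLM.comp
          (ContinuousLinearMap.proj 1 : R4 →L[ℝ] ℝ))) x :=
      (Complex.ofRealCLM.comp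
        (ContinuousLinearMap.proj 1 : R4 →L[ℝ] ℝ)).hasFDerivAt.const_mul _
    exact h3.cexp
  have h4 : fderiv ℝ f (tr k x) u = Complex.exp (2 * Real.pi * Complex.I * k 0 * x 1) *
      (fderiv ℝ f x u + 2 * Real.pi * Complex.I * k 0 * u 1 * f x) := by
    rw [← fderiv_tr f k x, h1, (h2.fun_mul (hs x).hasFDerivAt).fderiv]
    simp
    ring
  beta_reduce
  rw [h4, ha k x, hf k x]
  simp
  ring

/-- the product rule -/
theorem fderiv_conj_mul (a : R4 → R4 →L[ℝ] ℝ) {f g : R4 → ℂ} (hf : Differentiable ℝ f)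
    (hg : Differentiable ℝ g) (x u : R4) :
    fderiv ℝ (fun y => (starRingEnd ℂ) (f y) * g y) x u =
      (starRingEnd ℂ) (nab a f x u) * g x + (starRingEnd ℂ) (f x) * nab a g x u := by
  have h1 : HasFDerivAt (fun y => (starRingEnd ℂ) (f y))
      ((Complex.conjCLE : ℂ →L[ℝ] ℂ).comp (fderiv ℝ f x)) x :=
    (Complex.conjCLE : ℂ →L[ℝ] ℂ).hasFDerivAt.comp x (hf x).hasFDerivAt
  rw [(h1.fun_mul (hg x).hasFDerivAt).fderiv]
  unfold nab
  simp
  ring

theorem norm_tw (k : Fin 4 → ℤ) (x : R4) :
    ‖Complex.exp (2 * Real.pi * Complex.I * k 0 * x 1)‖ = 1 := by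
  have h : (2 * Real.pi * Complex.I * k 0 * x 1 : ℂ) =
    ((2 * Real.pi * k 0 * x 1 : ℝ) : ℂ) * Complex.I := by push_cast; ring
  rw [h, Complex.norm_exp_ofReal_mul_I]

theorem Tw.conj_mul {f g : R4 → ℂ} (hf : Tw f) (hg : Tw g) :
    Pe fun x => (starRingEnd ℂ) (f x) * g x := by
  intro k x
  have h1 : (starRingEnd ℂ) (Complex.exp (2 * Real.pi * Complex.I * k 0 * x 1)) *
      Complex.exp (2 * Real.pi * Complex.I * k 0 * x 1) = 1 := by
    rw [Complex.conj_mul', norm_tw]
    simp
  simp only [hf k x, hg k x, map_mul]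
  linear_combination ((starRingEnd ℂ) (f x) * g x) * h1

theorem Tw.norm {f : R4 → ℂ} (hf : Tw f) : Pe fun x => ‖f x‖ := by
  intro k x
  simp only [hf k x, norm_mul, norm_tw, one_mul]

/-- the commutator of covariant derivatives -/
theorem nab_comm {a : R4 → R4 →L[ℝ] ℝ} {g : R4 → ℂ} (ha : ContDiff ℝ ∞ a)
    (hg : ContDiff ℝ ∞ g) (x u v : R4) :
    nab a (fun y => nab a g y v) x u - nab a (fun y => nab a g y u) x v =
      -Complex.I * dd a x u v * g x := by
  have hgd : Differentiable ℝ g := hg.differentiable (by simp)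
  have had : Differentiable ℝ a := ha.differentiable (by simp)
  have hg1 : Differentiable ℝ (fderiv ℝ g) :=
    (hg.fderiv_right (m := ∞) (by simp)).differentiable (by simp)
  have key : ∀ u v : R4, fderiv ℝ (fun y => nab a g y v) x u =
      fderiv ℝ (fderiv ℝ g) x u v - (Complex.I * (fderiv ℝ a x u v : ℂ) * g x +
        Complex.I * (a x v : ℂ) * fderiv ℝ g x u) := by
    intro u v
    have h1 : HasFDerivAt (fun y => fderiv ℝ g y v)
        ((ContinuousLinearMap.apply ℝ ℂ v).comp (fderiv ℝ (fderiv ℝ g) x)) x :=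
      (ContinuousLinearMap.apply ℝ ℂ v).hasFDerivAt.comp x (hg1 x).hasFDerivAt
    have h2 : HasFDerivAt (fun y => ((a y v : ℝ) : ℂ))
        (Complex.ofRealCLM.comp ((ContinuousLinearMap.apply ℝ ℝ v).comp (fderiv ℝ a x))) x :=
      Complex.ofRealCLM.hasFDerivAt.comp x
        ((ContinuousLinearMap.apply ℝ ℝ v).hasFDerivAt.comp x (had x).hasFDerivAt)
    have h3 := h1.sub (((h2.const_mul Complex.I)).mul (hgd x).hasFDerivAt)
    have h4 : fderiv ℝ (fun y => nab a g y v) x = _ := h3.fderiv
    rw [h4]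
    simp
    ring
  have hsym : fderiv ℝ (fderiv ℝ g) x u v = fderiv ℝ (fderiv ℝ g) x v u := by
    have : IsSymmSndFDerivAt ℝ g x :=
      hg.contDiffAt.isSymmSndFDerivAt (by
        simp only [minSmoothness_of_isRCLikeNormedField]; norm_cast)
    exact this u v
  change fderiv ℝ (fun y => nab a g y v) x u - Complex.I * (a x u : ℂ) * nab a g x v -
    (fderiv ℝ (fun y => nab a g y u) x v - Complex.I * (a x v : ℂ) * nab a g x u) = _
  rw [key, key, hsym]
  unfold nab dd
  simp
  ring

/-! ## The integrated identity -/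

/-- Integration by parts for an antisymmetric coefficient. -/
theorem ci_antisymm {a : R4 → R4 →L[ℝ] ℝ} {f g : R4 → ℂ} {A : Fin 4 → Fin 4 → R4 → ℂ}
    (ha : ContDiff ℝ ∞ a) (hac : Con a) (hf : ContDiff ℝ ∞ f) (hft : Tw f)
    (hg : ContDiff ℝ ∞ g) (hgt : Tw g) (hA : ∀ j k, ContDiff ℝ 1 (A j k))
    (hAp : ∀ j k, Pe (A j k)) (hAa : ∀ j k x, A j k x = -A k j x) :
    ci (fun x => ∑ j, ∑ k, A j k x * ((starRingEnd ℂ) (nab a f x (e j)) * nab a g x (e k))) =
      -ci (fun x => ∑ j, ∑ k, fderiv ℝ (A j k) x (e j) *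
        ((starRingEnd ℂ) (f x) * nab a g x (e k))) +
      Complex.I / 2 * ci (fun x => (∑ j, ∑ k, A j k x * (dd a x (e j) (e k) : ℂ)) *
        ((starRingEnd ℂ) (f x) * g x)) := by
  have hfd : Differentiable ℝ f := hf.differentiable (by simp)
  have hgd : Differentiable ℝ g := hg.differentiable (by simp)
  have hN : ∀ u, ContDiff ℝ ∞ fun x => nab a g x u := fun u => contDiff_nab ha hg u
  have hNf : ∀ u, ContDiff ℝ ∞ fun x => nab a f x u := fun u => contDiff_nab ha hf u
  have hNd : ∀ u, Differentiable ℝ fun x => nab a g x u := fun u => (hN u).differentiable (by simp)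
  have hNt : ∀ u, Tw fun x => nab a g x u := fun u => hgt.nab hac hgd u
  have hcf : Continuous fun x => (starRingEnd ℂ) (f x) :=
    Complex.continuous_conj.comp hf.continuous
  have hddc : ∀ j k, Continuous fun x => (dd a x (e j) (e k) : ℂ) := by
    intro j k
    have h1 : Continuous (fderiv ℝ a) := ha.continuous_fderiv (by simp)
    unfold dd
    refine Complex.continuous_ofReal.comp ?_
    simp only [sub_apply, ContinuousLinearMap.flip_apply]
    exact ((h1.clm_apply continuous_const).clm_apply continuous_const).sub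
      ((h1.clm_apply continuous_const).clm_apply continuous_const)
  -- the function whose divergence is integrated
  let H : Fin 4 → Fin 4 → R4 → ℂ := fun j k x =>
    A j k x * ((starRingEnd ℂ) (f x) * nab a g x (e k))
  have hP : ∀ k, ContDiff ℝ 1 fun x => (starRingEnd ℂ) (f x) * nab a g x (e k) := by
    intro k
    have h1 : ContDiff ℝ ∞ fun x => (starRingEnd ℂ) (f x) :=
      (Complex.conjCLE : ℂ →L[ℝ] ℂ).contDiff.comp hf
    exact (h1.mul (hN (e k))).of_le (by exact_mod_cast le_top)
  have hH : ∀ j k, ContDiff ℝ 1 (H j k) := fun j k => (hA j k).mul (hP k)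
  have hHp : ∀ j k, Pe (H j k) := by
    intro j k n x
    simp only [H]
    rw [hAp j k n x]
    congr 1
    exact hft.conj_mul (hNt (e k)) n x
  have hder : ∀ j k x, fderiv ℝ (H j k) x (e j) =
      fderiv ℝ (A j k) x (e j) * ((starRingEnd ℂ) (f x) * nab a g x (e k)) +
      A j k x * ((starRingEnd ℂ) (nab a f x (e j)) * nab a g x (e k)) +
      A j k x * ((starRingEnd ℂ) (f x) * nab a (fun y => nab a g y (e k)) x (e j)) := by
    intro j k x
    have h1 := ((hA j k).differentiable one_ne_zero x).hasFDerivAt.fun_mul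
      ((hP k).differentiable one_ne_zero x).hasFDerivAt
    have h2 := fderiv_conj_mul a hfd (hNd (e k)) x (e j)
    have h3 : fderiv ℝ (H j k) x = _ := h1.fderiv
    rw [h3]
    simp only [add_apply, smul_apply, smul_eq_mul]
    rw [h2]
    ring
  have hzero : ci (fun x => ∑ j, ∑ k, fderiv ℝ (H j k) x (e j)) = 0 := by
    rw [ci_sum _ fun j _ => ?_]
    · refine Finset.sum_eq_zero fun j _ => ?_
      rw [ci_sum _ fun k _ => ?_]
      · exact Finset.sum_eq_zero fun k _ => ci_fderiv (hH j k) (hHp j k) j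
      · exact ((hH j k).continuous_fderiv one_ne_zero).clm_apply continuous_const
    · exact continuous_finsetSum _ fun k _ =>
        ((hH j k).continuous_fderiv one_ne_zero).clm_apply continuous_const
  -- the second derivative terms
  have hsec : ∀ x, ∑ j, ∑ k, A j k x * ((starRingEnd ℂ) (f x) *
      nab a (fun y => nab a g y (e k)) x (e j)) =
      -(Complex.I / 2) * ((∑ j, ∑ k, A j k x * (dd a x (e j) (e k) : ℂ)) *
        ((starRingEnd ℂ) (f x) * g x)) := by
    intro x
    set S := ∑ j, ∑ k, A j k x * ((starRingEnd ℂ) (f x) *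
      nab a (fun y => nab a g y (e k)) x (e j)) with hS
    have h1 : S = -∑ j, ∑ k, A j k x * ((starRingEnd ℂ) (f x) *
        nab a (fun y => nab a g y (e j)) x (e k)) := by
      rw [hS, Finset.sum_comm, ← Finset.sum_neg_distrib]
      refine Finset.sum_congr rfl fun j _ => ?_
      rw [← Finset.sum_neg_distrib]
      refine Finset.sum_congr rfl fun k _ => ?_
      rw [hAa k j x]
      ring
    have h2 : 2 * S = -Complex.I * ((∑ j, ∑ k, A j k x * (dd a x (e j) (e k) : ℂ)) *
        ((starRingEnd ℂ) (f x) * g x)) := by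
      have h3 : 2 * S = S + S := by ring
      rw [h3]
      nth_rw 2 [h1]
      rw [hS, ← sub_eq_add_neg, ← Finset.sum_sub_distrib, Finset.sum_mul, Finset.mul_sum]
      refine Finset.sum_congr rfl fun j _ => ?_
      rw [← Finset.sum_sub_distrib, Finset.sum_mul, Finset.mul_sum]
      refine Finset.sum_congr rfl fun k _ => ?_
      have h4 := nab_comm ha hg x (e j) (e k)
      linear_combination (A j k x * (starRingEnd ℂ) (f x)) * h4
    linear_combination (1 / 2 : ℂ) * h2
  have hsplit : ∀ x, ∑ j, ∑ k, fderiv ℝ (H j k) x (e j) =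
      (∑ j, ∑ k, fderiv ℝ (A j k) x (e j) * ((starRingEnd ℂ) (f x) * nab a g x (e k)) +
      ∑ j, ∑ k, A j k x * ((starRingEnd ℂ) (nab a f x (e j)) * nab a g x (e k))) +
      -(Complex.I / 2) * ((∑ j, ∑ k, A j k x * (dd a x (e j) (e k) : ℂ)) *
        ((starRingEnd ℂ) (f x) * g x)) := by
    intro x
    rw [← hsec x]
    simp only [← Finset.sum_add_distrib]
    exact Finset.sum_congr rfl fun j _ => Finset.sum_congr rfl fun k _ => hder j k x
  have hc1 : Continuous fun x => ∑ j, ∑ k, fderiv ℝ (A j k) x (e j) *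
      ((starRingEnd ℂ) (f x) * nab a g x (e k)) :=
    continuous_finsetSum _ fun j _ => continuous_finsetSum _ fun k _ =>
      (((hA j k).continuous_fderiv one_ne_zero).clm_apply continuous_const).mul
        (hcf.mul (hN (e k)).continuous)
  have hc2 : Continuous fun x => ∑ j, ∑ k, A j k x *
      ((starRingEnd ℂ) (nab a f x (e j)) * nab a g x (e k)) :=
    continuous_finsetSum _ fun j _ => continuous_finsetSum _ fun k _ =>
      (hA j k).continuous.mul ((Complex.continuous_conj.comp (hNf (e j)).continuous).mul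
        (hN (e k)).continuous)
  have hc3 : Continuous fun x => (∑ j, ∑ k, A j k x * (dd a x (e j) (e k) : ℂ)) *
        ((starRingEnd ℂ) (f x) * g x) :=
    (continuous_finsetSum _ fun j _ => continuous_finsetSum _ fun k _ =>
      (hA j k).continuous.mul (hddc j k)).mul (hcf.mul hg.continuous)
  simp only [hsplit] at hzero
  have hc4 : Continuous fun x => -(Complex.I / 2) *
      ((∑ j, ∑ k, A j k x * (dd a x (e j) (e k) : ℂ)) * ((starRingEnd ℂ) (f x) * g x)) :=
    continuous_const.mul hc3
  have hc5 : Continuous fun x => ∑ j, ∑ k, fderiv ℝ (A j k) x (e j) *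
      ((starRingEnd ℂ) (f x) * nab a g x (e k)) + ∑ j, ∑ k, A j k x *
      ((starRingEnd ℂ) (nab a f x (e j)) * nab a g x (e k)) := hc1.add hc2
  rw [ci_add hc5 hc4, ci_add hc1 hc2, ci_const_mul] at hzero
  linear_combination hzero

end Vale.Agent.P247.H94.IL
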