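import Vale.Agent.P247.H94.IL1

/-!
# The Gårding inequality for Dirac operators on twisted spinors over the four-torus
-/

open scoped ContDiff Topology
open Set MeasureTheory Filter Metric

noncomputable section

namespace Vale.Agent.P247.H94.IL

open Vale.Agent.P247.H74 Vale.Agent.P247.H574

/-- A continuous periodic function is bounded. -/
theorem Pe.bdd {E : Type*} [NormedAddCommGroup E] {f : R4 → E} (hf : Continuous f) (hp : Pe f) :
    ∃ M : ℝ, 0 ≤ M ∧ ∀ x, ‖f x‖ ≤ M := by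
  obtain ⟨M, hM⟩ := (isCompact_Icc (a := (0 : R4)) (b := 1)).exists_bound_of_continuousOn
    hf.continuousOn
  refine ⟨max M 0, le_max_right _ _, fun x => ?_⟩
  have h1 : tr (fun i => -⌊x i⌋) x ∈ Icc (0 : R4) 1 := by
    constructor
    · intro i
      simp only [tr, Pi.zero_apply, Int.cast_neg]
      linarith [Int.floor_le (x i)]
    · intro i
      simp only [tr, Pi.one_apply, Int.cast_neg]
      linarith [Int.lt_floor_add_one (x i)]
  rw [← hp (fun i => -⌊x i⌋) x]
  exact (hM _ h1).trans (le_max_left _ _)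

theorem Con.fderiv {a : R4 → R4 →L[ℝ] ℝ} (ha : Con a) : Pe (_root_.fderiv ℝ a) := by
  intro k x
  rw [← fderiv_tr]
  have : (fun y => a (tr k y)) =
      fun y => a y + (2 * Real.pi * k 0) • (ContinuousLinearMap.proj 1 : R4 →L[ℝ] ℝ) :=
    funext (ha k)
  rw [this, fderiv_add_const]

theorem Con.dd {a : R4 → R4 →L[ℝ] ℝ} (ha : Con a) : Pe (H574.dd a) := by
  intro k x
  unfold H574.dd
  rw [ha.fderiv k x]

theorem continuous_dd {a : R4 → R4 →L[ℝ] ℝ} (ha : ContDiff ℝ ∞ a) (u v : R4) :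
    Continuous fun x => dd a x u v := by
  have h1 : Continuous (_root_.fderiv ℝ a) := ha.continuous_fderiv (by simp)
  unfold dd
  simp only [sub_apply, ContinuousLinearMap.flip_apply]
  exact ((h1.clm_apply continuous_const).clm_apply continuous_const).sub
    ((h1.clm_apply continuous_const).clm_apply continuous_const)

/-- Clifford multiplication: the symbol of a Dirac operator -/
structure Cliff (γ : Fin 4 → R4 → Matrix (Fin 2) (Fin 2) ℂ) (g : Fin 4 → Fin 4 → R4 → ℝ)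
    (lam : ℝ) : Prop where
  smooth : ∀ j c d, ContDiff ℝ ∞ fun x => γ j x c d
  per : ∀ j, Pe (γ j)
  rel : ∀ x j k, (γ j x).conjTranspose * γ k x + (γ k x).conjTranspose * γ j x =
    (2 * g j k x : ℂ) • (1 : Matrix (Fin 2) (Fin 2) ℂ)
  pos : 0 < lam
  ell : ∀ x (ζ : Fin 4 → ℂ), lam * ∑ j, ‖ζ j‖ ^ 2 ≤
    (∑ j, ∑ k, (g j k x : ℂ) * ((starRingEnd ℂ) (ζ j) * ζ k)).re

/-- the antisymmetric part of the symbol -/
def anti (γ : Fin 4 → R4 → Matrix (Fin 2) (Fin 2) ℂ) (d d' : Fin 2) (j k : Fin 4) (x : R4) : ℂ :=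
  (1 / 2 : ℂ) * (∑ c, (starRingEnd ℂ) (γ j x c d) * γ k x c d' -
    ∑ c, (starRingEnd ℂ) (γ k x c d) * γ j x c d')

theorem anti_smooth {γ : Fin 4 → R4 → Matrix (Fin 2) (Fin 2) ℂ} {g : Fin 4 → Fin 4 → R4 → ℝ}
    {lam : ℝ} (h : Cliff γ g lam) (d d' : Fin 2) (j k : Fin 4) :
    ContDiff ℝ ∞ (anti γ d d' j k) := by
  have hc : ∀ j c d, ContDiff ℝ ∞ fun x => (starRingEnd ℂ) (γ j x c d) := fun j c d =>
    (Complex.conjCLE : ℂ →L[ℝ] ℂ).contDiff.comp (h.smooth j c d)
  unfold anti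
  exact contDiff_const.mul ((ContDiff.sum fun c _ => (hc j c d).mul (h.smooth k c d')).sub
    (ContDiff.sum fun c _ => (hc k c d).mul (h.smooth j c d')))

theorem anti_per {γ : Fin 4 → R4 → Matrix (Fin 2) (Fin 2) ℂ} {g : Fin 4 → Fin 4 → R4 → ℝ}
    {lam : ℝ} (h : Cliff γ g lam) (d d' : Fin 2) (j k : Fin 4) : Pe (anti γ d d' j k) := by
  intro n x
  unfold anti
  rw [h.per j n x, h.per k n x]

theorem anti_anti (γ : Fin 4 → R4 → Matrix (Fin 2) (Fin 2) ℂ) (d d' : Fin 2) (j k : Fin 4)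
    (x : R4) : anti γ d d' j k x = -anti γ d d' k j x := by
  unfold anti
  ring

/-- the square of the Dirac operator, pointwise -/
theorem sq_point {γ : Fin 4 → R4 → Matrix (Fin 2) (Fin 2) ℂ} {g : Fin 4 → Fin 4 → R4 → ℝ}
    {lam : ℝ} (h : Cliff γ g lam) (x : R4) (N : Fin 4 → Fin 2 → ℂ) :
    ∑ c, (starRingEnd ℂ) (∑ j, ∑ d, γ j x c d * N j d) * (∑ k, ∑ d', γ k x c d' * N k d') =
      ∑ d, (∑ j, ∑ k, (g j k x : ℂ) * ((starRingEnd ℂ) (N j d) * N k d)) +
      ∑ d, ∑ d', (∑ j, ∑ k, anti γ d d' j k x * ((starRingEnd ℂ) (N j d) * N k d')) := by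
  have hrel : ∀ j k d d', ∑ c, (starRingEnd ℂ) (γ j x c d) * γ k x c d' +
      ∑ c, (starRingEnd ℂ) (γ k x c d) * γ j x c d' =
      (2 * g j k x : ℂ) * (if d = d' then 1 else 0) := by
    intro j k d d'
    have h1 := congrFun (congrFun (h.rel x j k) d) d'
    simp only [Matrix.add_apply, Matrix.mul_apply, Matrix.conjTranspose_apply, Matrix.smul_apply,
      Matrix.one_apply, smul_eq_mul, RCLike.star_def] at h1
    exact h1
  have h2 : ∀ j k d d', ∑ c, (starRingEnd ℂ) (γ j x c d) * γ k x c d' =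
      (g j k x : ℂ) * (if d = d' then 1 else 0) + anti γ d d' j k x := by
    intro j k d d'
    unfold anti
    linear_combination (1 / 2 : ℂ) * hrel j k d d'
  have h3 : ∑ c, (starRingEnd ℂ) (∑ j, ∑ d, γ j x c d * N j d) *
      (∑ k, ∑ d', γ k x c d' * N k d') =
      ∑ d, ∑ d', ∑ j, ∑ k, (∑ c, (starRingEnd ℂ) (γ j x c d) * γ k x c d') *
        ((starRingEnd ℂ) (N j d) * N k d') := by
    simp only [Fin.sum_univ_two, Fin.sum_univ_four, map_add, map_mul]
    ring
  rw [h3]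
  simp only [h2]
  simp only [Fin.sum_univ_two, Fin.sum_univ_four]
  simp
  ring

theorem ci_norm_le {f : R4 → ℂ} {g : R4 → ℝ} (hf : Continuous f) (hg : Continuous g)
    (h : ∀ x, ‖f x‖ ≤ g x) : ‖ci f‖ ≤ ci g :=
  (norm_integral_le_integral_norm _).trans (ci_mono hf.norm hg h)

theorem ci_re {f : R4 → ℂ} (hf : Continuous f) : (ci f).re = ci fun x => (f x).re := by
  unfold ci
  exact (integral_re (𝕜 := ℂ) hf.continuousOn.integrableOn_Icc).symm

/-- The Gårding inequality. -/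
theorem garding {γ : Fin 4 → R4 → Matrix (Fin 2) (Fin 2) ℂ} {g : Fin 4 → Fin 4 → R4 → ℝ}
    {lam : ℝ} (h : Cliff γ g lam) (hg : ∀ j k, Continuous (g j k)) {a : R4 → R4 →L[ℝ] ℝ}
    (ha : ContDiff ℝ ∞ a) (hac : Con a) :
    ∃ C : ℝ, 0 < C ∧ ∀ φ : Fin 2 → R4 → ℂ, (∀ d, ContDiff ℝ ∞ (φ d)) → (∀ d, Tw (φ d)) →
      ci (fun x => ∑ d, ∑ j, ‖nab a (φ d) x (e j)‖ ^ 2) ≤
        C * (ci (fun x => ∑ c, ‖∑ j, ∑ d, γ j x c d * nab a (φ d) x (e j)‖ ^ 2) +
          ci (fun x => ∑ d, ‖φ d x‖ ^ 2)) := by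
  -- bounds of the coefficients
  have hM1 : ∃ M : ℝ, 0 ≤ M ∧ ∀ d d' j k x, ‖fderiv ℝ (anti γ d d' j k) x (e j)‖ ≤ M := by
    have h1 : ∀ d d' j k, ∃ M : ℝ, 0 ≤ M ∧ ∀ x, ‖fderiv ℝ (anti γ d d' j k) x (e j)‖ ≤ M := by
      intro d d' j k
      refine Pe.bdd ?_ ?_
      · exact ((anti_smooth h d d' j k).continuous_fderiv (by simp)).clm_apply continuous_const
      · intro n x
        beta_reduce
        rw [(anti_per h d d' j k).fderiv n x]
    choose M hM0 hM using h1
    refine ⟨∑ d, ∑ d', ∑ j, ∑ k, M d d' j k, ?_, ?_⟩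
    · exact Finset.sum_nonneg fun d _ => Finset.sum_nonneg fun d' _ =>
        Finset.sum_nonneg fun j _ => Finset.sum_nonneg fun k _ => hM0 d d' j k
    · intro d d' j k x
      refine (hM d d' j k x).trans ?_
      refine le_trans ?_ (Finset.single_le_sum (f := fun d => ∑ d', ∑ j, ∑ k, M d d' j k)
        (fun d _ => Finset.sum_nonneg fun d' _ => Finset.sum_nonneg fun j _ =>
          Finset.sum_nonneg fun k _ => hM0 d d' j k) (Finset.mem_univ d))
      refine le_trans ?_ (Finset.single_le_sum (f := fun d' => ∑ j, ∑ k, M d d' j k)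
        (fun d' _ => Finset.sum_nonneg fun j _ =>
          Finset.sum_nonneg fun k _ => hM0 d d' j k) (Finset.mem_univ d'))
      refine le_trans ?_ (Finset.single_le_sum (f := fun j => ∑ k, M d d' j k)
        (fun j _ => Finset.sum_nonneg fun k _ => hM0 d d' j k) (Finset.mem_univ j))
      exact Finset.single_le_sum (f := fun k => M d d' j k) (fun k _ => hM0 d d' j k)
        (Finset.mem_univ k)
  have hM2 : ∃ M : ℝ, 0 ≤ M ∧ ∀ d d' x,
      ‖∑ j, ∑ k, anti γ d d' j k x * (dd a x (e j) (e k) : ℂ)‖ ≤ M := by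
    have h1 : ∀ d d', ∃ M : ℝ, 0 ≤ M ∧ ∀ x,
        ‖∑ j, ∑ k, anti γ d d' j k x * (dd a x (e j) (e k) : ℂ)‖ ≤ M := by
      intro d d'
      refine Pe.bdd ?_ ?_
      · exact continuous_finsetSum _ fun j _ => continuous_finsetSum _ fun k _ =>
          (anti_smooth h d d' j k).continuous.mul
            (Complex.continuous_ofReal.comp (continuous_dd ha _ _))
      · intro n x
        refine Finset.sum_congr rfl fun j _ => Finset.sum_congr rfl fun k _ => ?_
        rw [anti_per h d d' j k n x, hac.dd n x]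
    choose M hM0 hM using h1
    refine ⟨∑ d, ∑ d', M d d', ?_, ?_⟩
    · exact Finset.sum_nonneg fun d _ => Finset.sum_nonneg fun d' _ => hM0 d d'
    · intro d d' x
      refine (hM d d' x).trans ?_
      refine le_trans ?_ (Finset.single_le_sum (f := fun d => ∑ d', M d d')
        (fun d _ => Finset.sum_nonneg fun d' _ => hM0 d d') (Finset.mem_univ d))
      exact Finset.single_le_sum (f := fun d' => M d d') (fun d' _ => hM0 d d')
        (Finset.mem_univ d')
  obtain ⟨M1, hM10, hM1⟩ := hM1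
  obtain ⟨M2, hM20, hM2⟩ := hM2
  set M : ℝ := M1 + M2 + 1 with hMdef
  have hMp : 0 < M := by positivity
  set ε : ℝ := lam / (16 * M) with hε
  have hlam := h.pos
  have hεp : 0 < ε := by positivity
  set C' : ℝ := M * (8 / ε + 2) with hC'
  have hC'p : 0 < C' := by positivity
  refine ⟨2 / lam * (1 + C'), by positivity, ?_⟩
  intro φ hφ hφt
  have hNs : ∀ d u, ContDiff ℝ ∞ fun x => nab a (φ d) x u := fun d u => contDiff_nab ha (hφ d) u
  have hNc : ∀ d u, Continuous fun x => nab a (φ d) x u := fun d u => (hNs d u).continuous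
  have hφc : ∀ d, Continuous (φ d) := fun d => (hφ d).continuous
  have hDc : ∀ c, Continuous fun x => ∑ j, ∑ d, γ j x c d * nab a (φ d) x (e j) := fun c =>
    continuous_finsetSum _ fun j _ => continuous_finsetSum _ fun d _ =>
      (h.smooth j c d).continuous.mul (hNc d _)
  have hac' : ∀ d d' j k, Continuous (anti γ d d' j k) := fun d d' j k =>
    (anti_smooth h d d' j k).continuous
  -- pointwise notation
  let n : R4 → ℝ := fun x => ∑ d, ∑ j, ‖nab a (φ d) x (e j)‖ ^ 2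
  let p : R4 → ℝ := fun x => ∑ d, ‖φ d x‖ ^ 2
  let q : R4 → ℝ := fun x => ∑ c, ‖∑ j, ∑ d, γ j x c d * nab a (φ d) x (e j)‖ ^ 2
  have hn : Continuous n := continuous_finsetSum _ fun d _ => continuous_finsetSum _ fun j _ =>
    (hNc d _).norm.pow 2
  have hp : Continuous p := continuous_finsetSum _ fun d _ => (hφc d).norm.pow 2
  have hq : Continuous q := continuous_finsetSum _ fun c _ => (hDc c).norm.pow 2
  let G : R4 → ℂ := fun x => ∑ d, (∑ j, ∑ k, (g j k x : ℂ) *
    ((starRingEnd ℂ) (nab a (φ d) x (e j)) * nab a (φ d) x (e k)))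
  let B : Fin 2 → Fin 2 → R4 → ℂ := fun d d' x => ∑ j, ∑ k, anti γ d d' j k x *
    ((starRingEnd ℂ) (nab a (φ d) x (e j)) * nab a (φ d') x (e k))
  let R1 : Fin 2 → Fin 2 → R4 → ℂ := fun d d' x => ∑ j, ∑ k,
    fderiv ℝ (anti γ d d' j k) x (e j) * ((starRingEnd ℂ) (φ d x) * nab a (φ d') x (e k))
  let R2 : Fin 2 → Fin 2 → R4 → ℂ := fun d d' x =>
    (∑ j, ∑ k, anti γ d d' j k x * (dd a x (e j) (e k) : ℂ)) * ((starRingEnd ℂ) (φ d x) * φ d' x)
  have hcc : ∀ d u, Continuous fun x => (starRingEnd ℂ) (nab a (φ d) x u) := fun d u =>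
    Complex.continuous_conj.comp (hNc d u)
  have hcφ : ∀ d, Continuous fun x => (starRingEnd ℂ) (φ d x) := fun d =>
    Complex.continuous_conj.comp (hφc d)
  have hGc : Continuous G := continuous_finsetSum _ fun d _ => continuous_finsetSum _ fun j _ =>
    continuous_finsetSum _ fun k _ => (Complex.continuous_ofReal.comp (hg j k)).mul
      ((hcc d _).mul (hNc d _))
  have hBc : ∀ d d', Continuous (B d d') := fun d d' => continuous_finsetSum _ fun j _ =>
    continuous_finsetSum _ fun k _ => (hac' d d' j k).mul ((hcc d _).mul (hNc d' _))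
  have hR1c : ∀ d d', Continuous (R1 d d') := fun d d' => continuous_finsetSum _ fun j _ =>
    continuous_finsetSum _ fun k _ =>
      (((anti_smooth h d d' j k).continuous_fderiv (by simp)).clm_apply continuous_const).mul
        ((hcφ d).mul (hNc d' _))
  have hR2c : ∀ d d', Continuous (R2 d d') := fun d d' =>
    (continuous_finsetSum _ fun j _ => continuous_finsetSum _ fun k _ =>
      (hac' d d' j k).mul (Complex.continuous_ofReal.comp (continuous_dd ha _ _))).mul
      ((hcφ d).mul (hφc d'))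
  -- the integral identity
  have hid : ((ci q : ℝ) : ℂ) = ci G + ∑ d, ∑ d', ci (B d d') := by
    have h1 : ∀ x, ((q x : ℝ) : ℂ) = G x + ∑ d, ∑ d', B d d' x := by
      intro x
      have h2 := sq_point h x (fun j d => nab a (φ d) x (e j))
      rw [← h2]
      simp only [q]
      push_cast
      refine Finset.sum_congr rfl fun c _ => ?_
      rw [Complex.conj_mul']
    have h2 : ((ci q : ℝ) : ℂ) = ci fun x => ((q x : ℝ) : ℂ) := by
      unfold ci
      exact (integral_ofReal (𝕜 := ℂ)).symm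
    rw [h2]
    simp only [h1]
    rw [ci_add hGc (continuous_finsetSum _ fun d _ => continuous_finsetSum _ fun d' _ => hBc d d'),
      ci_sum _ fun d _ => continuous_finsetSum _ fun d' _ => hBc d d']
    congr 1
    refine Finset.sum_congr rfl fun d _ => ?_
    rw [ci_sum _ fun d' _ => hBc d d']
  have hB : ∀ d d', ci (B d d') = -ci (R1 d d') + Complex.I / 2 * ci (R2 d d') := fun d d' =>
    ci_antisymm ha hac (hφ d) (hφt d) (hφ d') (hφt d')
      (fun j k => (anti_smooth h d d' j k).of_le (by exact_mod_cast le_top))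
      (fun j k => anti_per h d d' j k) (fun j k x => anti_anti γ d d' j k x)
  have hBn : ∀ d d', ‖ci (B d d')‖ ≤ ci (fun x => ‖R1 d d' x‖ + ‖R2 d d' x‖) := by
    intro d d'
    rw [hB, ci_add (hR1c d d').norm (hR2c d d').norm]
    refine (norm_add_le _ _).trans (add_le_add ?_ ?_)
    · rw [norm_neg]
      exact norm_integral_le_integral_norm _
    · rw [norm_mul]
      have h1 : ‖Complex.I / 2‖ ≤ 1 := by simp; norm_num
      calc ‖Complex.I / 2‖ * ‖ci (R2 d d')‖ ≤ 1 * ‖ci (R2 d d')‖ := by gcongr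
        _ ≤ ci fun x => ‖R2 d d' x‖ := by
          rw [one_mul]; exact norm_integral_le_integral_norm _
  have hpt : ∀ x, ∑ d, ∑ d', (‖R1 d d' x‖ + ‖R2 d d' x‖) ≤ lam / 2 * n x + C' * p x := by
    intro x
    have h1 : ∀ d d', ‖R1 d d' x‖ ≤ ∑ _j : Fin 4, ∑ k, M *
        (ε * ‖nab a (φ d') x (e k)‖ ^ 2 + 1 / (4 * ε) * ‖φ d x‖ ^ 2) := by
      intro d d'
      refine (norm_sum_le _ _).trans (Finset.sum_le_sum fun j _ => ?_)
      refine (norm_sum_le _ _).trans (Finset.sum_le_sum fun k _ => ?_)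
      rw [norm_mul, norm_mul, Complex.norm_conj]
      have h2 : ‖fderiv ℝ (anti γ d d' j k) x (e j)‖ ≤ M := (hM1 d d' j k x).trans (by linarith)
      have h3 : ‖φ d x‖ * ‖nab a (φ d') x (e k)‖ ≤
          ε * ‖nab a (φ d') x (e k)‖ ^ 2 + 1 / (4 * ε) * ‖φ d x‖ ^ 2 := by
        have h4 : 0 ≤ (ε * ‖nab a (φ d') x (e k)‖ - ‖φ d x‖ / 2) ^ 2 := sq_nonneg _
        have h5 : ε * ‖nab a (φ d') x (e k)‖ ^ 2 + 1 / (4 * ε) * ‖φ d x‖ ^ 2 -
            ‖φ d x‖ * ‖nab a (φ d') x (e k)‖ =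
            (1 / ε) * (ε * ‖nab a (φ d') x (e k)‖ - ‖φ d x‖ / 2) ^ 2 := by
          field_simp
          ring
        have h6 : 0 ≤ (1 / ε) * (ε * ‖nab a (φ d') x (e k)‖ - ‖φ d x‖ / 2) ^ 2 := by positivity
        linarith
      have h4 : 0 ≤ ‖φ d x‖ * ‖nab a (φ d') x (e k)‖ := by positivity
      calc _ ≤ M * (‖φ d x‖ * ‖nab a (φ d') x (e k)‖) := by gcongr
        _ ≤ _ := by gcongr
    have h2 : ∀ d d', ‖R2 d d' x‖ ≤ M * (1 / 2 * ‖φ d x‖ ^ 2 + 1 / 2 * ‖φ d' x‖ ^ 2) := by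
      intro d d'
      simp only [R2]
      rw [norm_mul, norm_mul, Complex.norm_conj]
      have h3 : ‖φ d x‖ * ‖φ d' x‖ ≤ 1 / 2 * ‖φ d x‖ ^ 2 + 1 / 2 * ‖φ d' x‖ ^ 2 := by
        nlinarith [sq_nonneg (‖φ d x‖ - ‖φ d' x‖)]
      have h4 : ‖∑ j, ∑ k, anti γ d d' j k x * (dd a x (e j) (e k) : ℂ)‖ ≤ M :=
        (hM2 d d' x).trans (by linarith)
      have h5 : 0 ≤ ‖φ d x‖ * ‖φ d' x‖ := by positivity
      calc _ ≤ M * (‖φ d x‖ * ‖φ d' x‖) := by gcongr
        _ ≤ _ := by gcongr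
    have h3 : ∑ d, ∑ d', (‖R1 d d' x‖ + ‖R2 d d' x‖) ≤ ∑ d, ∑ d', ((∑ _j : Fin 4, ∑ k, M *
        (ε * ‖nab a (φ d') x (e k)‖ ^ 2 + 1 / (4 * ε) * ‖φ d x‖ ^ 2)) +
        M * (1 / 2 * ‖φ d x‖ ^ 2 + 1 / 2 * ‖φ d' x‖ ^ 2)) :=
      Finset.sum_le_sum fun d _ => Finset.sum_le_sum fun d' _ => add_le_add (h1 d d') (h2 d d')
    refine h3.trans (le_of_eq ?_)
    have h4 : lam / 2 = 8 * M * ε := by rw [hε]; field_simp; ring
    rw [h4, hC']
    simp only [n, p, Fin.sum_univ_two, Fin.sum_univ_four]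
    field_simp
    ring
  -- real parts
  have hre : ci q = (ci G).re + (∑ d, ∑ d', ci (B d d')).re := by
    have := congrArg Complex.re hid
    rwa [Complex.ofReal_re, Complex.add_re] at this
  have hG : lam * ci n ≤ (ci G).re := by
    rw [ci_re hGc]
    have h1 : lam * ci n = ci fun x => lam * n x := (integral_const_mul lam n).symm
    rw [h1]
    refine ci_mono (continuous_const.mul hn) (Complex.continuous_re.comp hGc) fun x => ?_
    simp only [n, G]
    rw [Complex.re_sum, Finset.mul_sum]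
    exact Finset.sum_le_sum fun d _ => h.ell x fun j => nab a (φ d) x (e j)
  have hS : ∀ d d', Continuous fun x => ‖R1 d d' x‖ + ‖R2 d d' x‖ := fun d d' =>
    (hR1c d d').norm.add (hR2c d d').norm
  have hS2 : Continuous fun x => lam / 2 * n x := continuous_const.mul hn
  have hS3 : Continuous fun x => C' * p x := continuous_const.mul hp
  have hR : -(lam / 2 * ci n + C' * ci p) ≤ (∑ d, ∑ d', ci (B d d')).re := by
    have h1 : ‖∑ d, ∑ d', ci (B d d')‖ ≤ lam / 2 * ci n + C' * ci p := by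
      calc ‖∑ d, ∑ d', ci (B d d')‖ ≤ ∑ d, ∑ d', ci (fun x => ‖R1 d d' x‖ + ‖R2 d d' x‖) :=
            (norm_sum_le _ _).trans (Finset.sum_le_sum fun d _ =>
              (norm_sum_le _ _).trans (Finset.sum_le_sum fun d' _ => hBn d d'))
        _ = ci (fun x => ∑ d, ∑ d', (‖R1 d d' x‖ + ‖R2 d d' x‖)) := by
          rw [ci_sum _ fun d _ => continuous_finsetSum _ fun d' _ => hS d d']
          refine Finset.sum_congr rfl fun d _ => ?_
          rw [ci_sum _ fun d' _ => hS d d']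
        _ ≤ ci (fun x => lam / 2 * n x + C' * p x) :=
          ci_mono (continuous_finsetSum _ fun d _ => continuous_finsetSum _ fun d' _ => hS d d')
            (hS2.add hS3) hpt
        _ = lam / 2 * ci n + C' * ci p := by
          rw [ci_add hS2 hS3]
          congr 1
          · exact integral_const_mul _ n
          · exact integral_const_mul _ p
    have h2 := (abs_le.mp (Complex.abs_re_le_norm (∑ d, ∑ d', ci (B d d')))).1
    linarith
  have hq0 : 0 ≤ ci q := ci_nonneg fun x => Finset.sum_nonneg fun c _ => by positivity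
  have hp0 : 0 ≤ ci p := ci_nonneg fun x => Finset.sum_nonneg fun c _ => by positivity
  have hmain : lam / 2 * ci n ≤ ci q + C' * ci p := by linarith
  change ci n ≤ 2 / lam * (1 + C') * (ci q + ci p)
  have h1 : ci n ≤ 2 / lam * (ci q + C' * ci p) := by
    rw [div_mul_eq_mul_div, le_div_iff₀ hlam]
    linarith
  have h2 : 0 ≤ C' * ci q := mul_nonneg hC'p.le hq0
  have h3 : 0 ≤ 2 / lam := by positivity
  calc ci n ≤ 2 / lam * (ci q + C' * ci p) := h1
    _ ≤ 2 / lam * ((1 + C') * (ci q + ci p)) := by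
      refine mul_le_mul_of_nonneg_left ?_ h3
      nlinarith
    _ = 2 / lam * (1 + C') * (ci q + ci p) := by ring

end Vale.Agent.P247.H94.IL
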