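import Vale.Agent.P247.H94.IL2

/-!
# The Gårding inequality on `ℝ⁴` for compactly supported functions
-/

open scoped ContDiff Topology
open Set MeasureTheory Filter Metric

noncomputable section

namespace Vale.Agent.P247.H94.IL

open Vale.Agent.P247.H74 Vale.Agent.P247.H574

/-- the box -/
def bx (L : ℝ) : Set R4 := Icc (fun _ => -L) (fun _ => L)

/-- the integral over the box -/
def cb {E : Type*} [NormedAddCommGroup E] [NormedSpace ℝ E] (L : ℝ) (f : R4 → E) : E :=
  ∫ x in bx L, f x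

theorem cb_add {E : Type*} [NormedAddCommGroup E] [NormedSpace ℝ E] {L : ℝ} {f g : R4 → E}
    (hf : Continuous f) (hg : Continuous g) : cb L (fun x => f x + g x) = cb L f + cb L g :=
  integral_add hf.continuousOn.integrableOn_Icc hg.continuousOn.integrableOn_Icc

theorem cb_sum {E ι : Type*} [NormedAddCommGroup E] [NormedSpace ℝ E] {L : ℝ} (s : Finset ι)
    {f : ι → R4 → E} (hf : ∀ i ∈ s, Continuous (f i)) :
    cb L (fun x => ∑ i ∈ s, f i x) = ∑ i ∈ s, cb L (f i) :=
  integral_finsetSum s fun i hi => (hf i hi).continuousOn.integrableOn_Icc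

theorem cb_mono {L : ℝ} {f g : R4 → ℝ} (hf : Continuous f) (hg : Continuous g)
    (h : ∀ x, f x ≤ g x) : cb L f ≤ cb L g :=
  setIntegral_mono hf.continuousOn.integrableOn_Icc hg.continuousOn.integrableOn_Icc h

theorem cb_nonneg {L : ℝ} {f : R4 → ℝ} (h : ∀ x, 0 ≤ f x) : 0 ≤ cb L f :=
  setIntegral_nonneg measurableSet_Icc fun x _ => h x

theorem cb_re {L : ℝ} {f : R4 → ℂ} (hf : Continuous f) :
    (cb L f).re = cb L fun x => (f x).re := by
  unfold cb
  exact (integral_re (𝕜 := ℂ) hf.continuousOn.integrableOn_Icc).symm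

/-- a function with support inside the box has the same integral over the box and the space -/
theorem cb_eq {E : Type*} [NormedAddCommGroup E] [NormedSpace ℝ E] {L : ℝ} {f : R4 → E}
    (h : ∀ x, x ∉ bx L → f x = 0) : cb L f = ∫ x, f x :=
  setIntegral_eq_integral_of_forall_compl_eq_zero h

/-- the integral of a derivative of a function with support inside the box is zero -/
theorem cb_fderiv {E : Type*} [NormedAddCommGroup E] [NormedSpace ℝ E] [CompleteSpace E] {L : ℝ}
    {f : R4 → E} (hf : ContDiff ℝ 1 f) (hs : HasCompactSupport f) (h : ∀ x, x ∉ bx L → f x = 0)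
    (k : Fin 4) : cb L (fun x => fderiv ℝ f x (e k)) = 0 := by
  have hfd : Differentiable ℝ f := hf.differentiable one_ne_zero
  have hfc : Continuous fun x => fderiv ℝ f x (e k) :=
    (hf.continuous_fderiv one_ne_zero).clm_apply continuous_const
  have hcs : HasCompactSupport fun x => fderiv ℝ f x (e k) := by
    have h1 := hs.fderiv (𝕜 := ℝ)
    exact h1.comp_left (g := fun A : R4 →L[ℝ] E => A (e k)) (by simp)
  have hcl : IsClosed (bx L) := isClosed_Icc
  have h0 : ∀ x, x ∉ bx L → fderiv ℝ f x (e k) = 0 := by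
    intro x hx
    have h1 : f =ᶠ[𝓝 x] fun _ => 0 := by
      filter_upwards [hcl.isOpen_compl.mem_nhds hx] with y hy
      exact h y hy
    rw [h1.fderiv_eq]
    simp
  rw [cb_eq h0]
  have h1 : Integrable fun x => fderiv ℝ f x (e k) := hfc.integrable_of_hasCompactSupport hcs
  have h2 : Integrable f := hf.continuous.integrable_of_hasCompactSupport hs
  have h3 := integral_smul_fderiv_eq_neg_fderiv_smul_of_integrable (𝕜 := ℝ) (μ := volume)
    (f := fun _ : R4 => (1 : ℝ)) (g := f) (v := e k) (by simp) (by simpa using h1)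
    (by simpa using h2) (fun x _ => differentiableAt_const _) (fun x _ => hfd x)
  simpa using h3

theorem contDiff_fd {f : R4 → ℂ} (hf : ContDiff ℝ ∞ f) (u : R4) :
    ContDiff ℝ ∞ fun x => fderiv ℝ f x u :=
  (hf.fderiv_right (m := ∞) (by simp)).clm_apply contDiff_const

/-- Integration by parts for an antisymmetric coefficient, on `ℝ⁴`. -/
theorem cb_antisymm {L : ℝ} {f g : R4 → ℂ} {A : Fin 4 → Fin 4 → R4 → ℂ}
    (hf : ContDiff ℝ ∞ f) (hg : ContDiff ℝ ∞ g) (hfs : HasCompactSupport f)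
    (hfL : ∀ x, x ∉ bx L → f x = 0) (hA : ∀ j k, ContDiff ℝ 1 (A j k))
    (hAa : ∀ j k x, A j k x = -A k j x) :
    cb L (fun x => ∑ j, ∑ k, A j k x * ((starRingEnd ℂ) (fderiv ℝ f x (e j)) *
        fderiv ℝ g x (e k))) =
      -cb L (fun x => ∑ j, ∑ k, fderiv ℝ (A j k) x (e j) *
        ((starRingEnd ℂ) (f x) * fderiv ℝ g x (e k))) := by
  have hfd : Differentiable ℝ f := hf.differentiable (by simp)
  have hN : ∀ u, ContDiff ℝ ∞ fun x => fderiv ℝ g x u := fun u => contDiff_fd hg u
  have hNf : ∀ u, ContDiff ℝ ∞ fun x => fderiv ℝ f x u := fun u => contDiff_fd hf u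
  have hg1 : Differentiable ℝ (fderiv ℝ g) :=
    (hg.fderiv_right (m := ∞) (by simp)).differentiable (by simp)
  have hcf : Continuous fun x => (starRingEnd ℂ) (f x) :=
    Complex.continuous_conj.comp hf.continuous
  let H : Fin 4 → Fin 4 → R4 → ℂ := fun j k x =>
    A j k x * ((starRingEnd ℂ) (f x) * fderiv ℝ g x (e k))
  have hconj : ContDiff ℝ ∞ fun x => (starRingEnd ℂ) (f x) :=
    (Complex.conjCLE : ℂ →L[ℝ] ℂ).contDiff.comp hf
  have hP : ∀ k, ContDiff ℝ 1 fun x => (starRingEnd ℂ) (f x) * fderiv ℝ g x (e k) := by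
    intro k
    exact (hconj.mul (hN (e k))).of_le (by exact_mod_cast le_top)
  have hH : ∀ j k, ContDiff ℝ 1 (H j k) := fun j k => (hA j k).mul (hP k)
  have hHs : ∀ j k, HasCompactSupport (H j k) := by
    intro j k
    have h1 : HasCompactSupport fun x => (starRingEnd ℂ) (f x) :=
      hfs.comp_left (g := fun z : ℂ => (starRingEnd ℂ) z) (map_zero _)
    exact (h1.mul_right (f' := fun x => fderiv ℝ g x (e k))).mul_left
  have hHL : ∀ j k x, x ∉ bx L → H j k x = 0 := by
    intro j k x hx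
    simp only [H, hfL x hx, map_zero, zero_mul, mul_zero]
  have hder : ∀ j k x, fderiv ℝ (H j k) x (e j) =
      fderiv ℝ (A j k) x (e j) * ((starRingEnd ℂ) (f x) * fderiv ℝ g x (e k)) +
      A j k x * ((starRingEnd ℂ) (fderiv ℝ f x (e j)) * fderiv ℝ g x (e k)) +
      A j k x * ((starRingEnd ℂ) (f x) * fderiv ℝ (fderiv ℝ g) x (e j) (e k)) := by
    intro j k x
    have h1 : HasFDerivAt (fun y => (starRingEnd ℂ) (f y))
        ((Complex.conjCLE : ℂ →L[ℝ] ℂ).comp (fderiv ℝ f x)) x :=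
      (Complex.conjCLE : ℂ →L[ℝ] ℂ).hasFDerivAt.comp x (hfd x).hasFDerivAt
    have h2 : HasFDerivAt (fun y => fderiv ℝ g y (e k))
        ((ContinuousLinearMap.apply ℝ ℂ (e k)).comp (fderiv ℝ (fderiv ℝ g) x)) x :=
      (ContinuousLinearMap.apply ℝ ℂ (e k)).hasFDerivAt.comp x (hg1 x).hasFDerivAt
    have h3 := ((hA j k).differentiable one_ne_zero x).hasFDerivAt.fun_mul (h1.fun_mul h2)
    have h4 : fderiv ℝ (H j k) x = _ := h3.fderiv
    rw [h4]
    simp
    ring
  have hzero : cb L (fun x => ∑ j, ∑ k, fderiv ℝ (H j k) x (e j)) = 0 := by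
    rw [cb_sum _ fun j _ => ?_]
    · refine Finset.sum_eq_zero fun j _ => ?_
      rw [cb_sum _ fun k _ => ?_]
      · exact Finset.sum_eq_zero fun k _ => cb_fderiv (hH j k) (hHs j k) (hHL j k) j
      · exact ((hH j k).continuous_fderiv one_ne_zero).clm_apply continuous_const
    · exact continuous_finsetSum _ fun k _ =>
        ((hH j k).continuous_fderiv one_ne_zero).clm_apply continuous_const
  have hsec : ∀ x, ∑ j, ∑ k, A j k x * ((starRingEnd ℂ) (f x) *
      fderiv ℝ (fderiv ℝ g) x (e j) (e k)) = 0 := by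
    intro x
    set S := ∑ j, ∑ k, A j k x * ((starRingEnd ℂ) (f x) *
      fderiv ℝ (fderiv ℝ g) x (e j) (e k)) with hS
    have hsym : ∀ u v, fderiv ℝ (fderiv ℝ g) x u v = fderiv ℝ (fderiv ℝ g) x v u := by
      have : IsSymmSndFDerivAt ℝ g x :=
        hg.contDiffAt.isSymmSndFDerivAt (by
          simp only [minSmoothness_of_isRCLikeNormedField]; norm_cast)
      exact this
    have h1 : S = -S := by
      conv_lhs => rw [hS, Finset.sum_comm]
      rw [hS, ← Finset.sum_neg_distrib]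
      refine Finset.sum_congr rfl fun j _ => ?_
      rw [← Finset.sum_neg_distrib]
      refine Finset.sum_congr rfl fun k _ => ?_
      rw [hAa k j x, hsym (e k) (e j)]
      ring
    have h2 : S + S = 0 := by nth_rw 1 [h1]; ring
    have h3 : (2 : ℂ) * S = 0 := by rw [two_mul]; exact h2
    simpa using h3
  have hsplit : ∀ x, ∑ j, ∑ k, fderiv ℝ (H j k) x (e j) =
      ∑ j, ∑ k, fderiv ℝ (A j k) x (e j) * ((starRingEnd ℂ) (f x) * fderiv ℝ g x (e k)) +
      ∑ j, ∑ k, A j k x * ((starRingEnd ℂ) (fderiv ℝ f x (e j)) * fderiv ℝ g x (e k)) := by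
    intro x
    have h1 := hsec x
    have h2 : ∑ j, ∑ k, fderiv ℝ (H j k) x (e j) =
      (∑ j, ∑ k, fderiv ℝ (A j k) x (e j) * ((starRingEnd ℂ) (f x) * fderiv ℝ g x (e k)) +
      ∑ j, ∑ k, A j k x * ((starRingEnd ℂ) (fderiv ℝ f x (e j)) * fderiv ℝ g x (e k))) +
      ∑ j, ∑ k, A j k x * ((starRingEnd ℂ) (f x) * fderiv ℝ (fderiv ℝ g) x (e j) (e k)) := by
      simp only [← Finset.sum_add_distrib]
      exact Finset.sum_congr rfl fun j _ => Finset.sum_congr rfl fun k _ => hder j k x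
    rw [h2, h1, add_zero]
  have hc1 : Continuous fun x => ∑ j, ∑ k, fderiv ℝ (A j k) x (e j) *
      ((starRingEnd ℂ) (f x) * fderiv ℝ g x (e k)) :=
    continuous_finsetSum _ fun j _ => continuous_finsetSum _ fun k _ =>
      (((hA j k).continuous_fderiv one_ne_zero).clm_apply continuous_const).mul
        (hcf.mul (hN (e k)).continuous)
  have hc2 : Continuous fun x => ∑ j, ∑ k, A j k x *
      ((starRingEnd ℂ) (fderiv ℝ f x (e j)) * fderiv ℝ g x (e k)) :=
    continuous_finsetSum _ fun j _ => continuous_finsetSum _ fun k _ =>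
      (hA j k).continuous.mul ((Complex.continuous_conj.comp (hNf (e j)).continuous).mul
        (hN (e k)).continuous)
  simp only [hsplit] at hzero
  rw [cb_add hc1 hc2] at hzero
  linear_combination hzero

/-- The Gårding inequality on `ℝ⁴` for smooth functions with compact support. -/
theorem garding_c {γ : Fin 4 → R4 → Matrix (Fin 2) (Fin 2) ℂ} {g : Fin 4 → Fin 4 → R4 → ℝ}
    {lam : ℝ} (h : Cliff γ g lam) (hg : ∀ j k, Continuous (g j k)) :
    ∃ C : ℝ, 0 < C ∧ ∀ φ : Fin 2 → R4 → ℂ, (∀ d, ContDiff ℝ ∞ (φ d)) →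
      (∀ d, HasCompactSupport (φ d)) →
      ∫ x, ∑ d, ∑ j, ‖fderiv ℝ (φ d) x (e j)‖ ^ 2 ≤
        C * ((∫ x, ∑ c, ‖∑ j, ∑ d, γ j x c d * fderiv ℝ (φ d) x (e j)‖ ^ 2) +
          ∫ x, ∑ d, ‖φ d x‖ ^ 2) := by
  -- bounds of the coefficients
  have hM1 : ∃ M : ℝ, 0 ≤ M ∧ ∀ d d' j k x, ‖fderiv ℝ (anti γ d d' j k) x (e j)‖ ≤ M := by
    have h1 : ∀ d d' j k, ∃ M : ℝ, 0 ≤ M ∧ ∀ x, ‖fderiv ℝ (anti γ d d' j k) x (e j)‖ ≤ M := by
      intro d d' j k
      refine Pe.bdd ?_ ?_
      · exact ((anti_smooth h d d' j k).continuous_fderiv (by simp)).clm_apply continuous_const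
      · intro n x
        beta_reduce
        rw [(anti_per h d d' j k).fderiv n x]
    choose M hM0 hM using h1
    refine ⟨∑ d, ∑ d', ∑ j, ∑ k, M d d' j k, ?_, ?_⟩
    · exact Finset.sum_nonneg fun d _ => Finset.sum_nonneg fun d' _ =>
        Finset.sum_nonneg fun j _ => Finset.sum_nonneg fun k _ => hM0 d d' j k
    · intro d d' j k x
      refine (hM d d' j k x).trans ?_
      refine le_trans ?_ (Finset.single_le_sum (f := fun d => ∑ d', ∑ j, ∑ k, M d d' j k)
        (fun d _ => Finset.sum_nonneg fun d' _ => Finset.sum_nonneg fun j _ =>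
          Finset.sum_nonneg fun k _ => hM0 d d' j k) (Finset.mem_univ d))
      refine le_trans ?_ (Finset.single_le_sum (f := fun d' => ∑ j, ∑ k, M d d' j k)
        (fun d' _ => Finset.sum_nonneg fun j _ =>
          Finset.sum_nonneg fun k _ => hM0 d d' j k) (Finset.mem_univ d'))
      refine le_trans ?_ (Finset.single_le_sum (f := fun j => ∑ k, M d d' j k)
        (fun j _ => Finset.sum_nonneg fun k _ => hM0 d d' j k) (Finset.mem_univ j))
      exact Finset.single_le_sum (f := fun k => M d d' j k) (fun k _ => hM0 d d' j k)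
        (Finset.mem_univ k)
  obtain ⟨M1, hM10, hM1⟩ := hM1
  set M : ℝ := M1 + 1 with hMdef
  have hMp : 0 < M := by positivity
  set ε : ℝ := lam / (16 * M) with hε
  have hlam := h.pos
  have hεp : 0 < ε := by positivity
  set C' : ℝ := M * (8 / ε) with hC'
  have hC'p : 0 < C' := by positivity
  refine ⟨2 / lam * (1 + C'), by positivity, ?_⟩
  intro φ hφ hφs
  -- a box containing the supports
  obtain ⟨L, hL⟩ : ∃ L : ℝ, ∀ d x, x ∉ bx L → φ d x = 0 := by
    have h1 : ∀ d, ∃ L : ℝ, ∀ x, x ∉ bx L → φ d x = 0 := by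
      intro d
      obtain ⟨L, hL⟩ := (hφs d).isBounded.subset_closedBall (0 : R4)
      refine ⟨L, fun x hx => ?_⟩
      by_contra hne
      have h2 : x ∈ closedBall (0 : R4) L := hL (subset_tsupport _ hne)
      rw [mem_closedBall_zero_iff] at h2
      refine hx ⟨fun i => ?_, fun i => ?_⟩
      · have := (abs_le.mp ((norm_le_pi_norm x i).trans h2)).1
        exact this
      · exact (abs_le.mp ((norm_le_pi_norm x i).trans h2)).2
    choose L hL using h1
    refine ⟨max (L 0) (L 1), fun d x hx => hL d x fun hxd => hx ?_⟩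
    have h2 : L d ≤ max (L 0) (L 1) := by
      fin_cases d
      · exact le_max_left _ _
      · exact le_max_right _ _
    exact ⟨fun i => le_trans (neg_le_neg h2) (hxd.1 i), fun i => (hxd.2 i).trans h2⟩
  have hNs : ∀ d u, ContDiff ℝ ∞ fun x => fderiv ℝ (φ d) x u := fun d u => contDiff_fd (hφ d) u
  have hNc : ∀ d u, Continuous fun x => fderiv ℝ (φ d) x u := fun d u => (hNs d u).continuous
  have hφc : ∀ d, Continuous (φ d) := fun d => (hφ d).continuous
  have hDc : ∀ c, Continuous fun x => ∑ j, ∑ d, γ j x c d * fderiv ℝ (φ d) x (e j) := fun c =>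
    continuous_finsetSum _ fun j _ => continuous_finsetSum _ fun d _ =>
      (h.smooth j c d).continuous.mul (hNc d _)
  have hac' : ∀ d d' j k, Continuous (anti γ d d' j k) := fun d d' j k =>
    (anti_smooth h d d' j k).continuous
  -- pointwise notation
  let n : R4 → ℝ := fun x => ∑ d, ∑ j, ‖fderiv ℝ (φ d) x (e j)‖ ^ 2
  let p : R4 → ℝ := fun x => ∑ d, ‖φ d x‖ ^ 2
  let q : R4 → ℝ := fun x => ∑ c, ‖∑ j, ∑ d, γ j x c d * fderiv ℝ (φ d) x (e j)‖ ^ 2
  have hn : Continuous n := continuous_finsetSum _ fun d _ => continuous_finsetSum _ fun j _ =>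
    (hNc d _).norm.pow 2
  have hp : Continuous p := continuous_finsetSum _ fun d _ => (hφc d).norm.pow 2
  have hq : Continuous q := continuous_finsetSum _ fun c _ => (hDc c).norm.pow 2
  let G : R4 → ℂ := fun x => ∑ d, (∑ j, ∑ k, (g j k x : ℂ) *
    ((starRingEnd ℂ) (fderiv ℝ (φ d) x (e j)) * fderiv ℝ (φ d) x (e k)))
  let B : Fin 2 → Fin 2 → R4 → ℂ := fun d d' x => ∑ j, ∑ k, anti γ d d' j k x *
    ((starRingEnd ℂ) (fderiv ℝ (φ d) x (e j)) * fderiv ℝ (φ d') x (e k))
  let R1 : Fin 2 → Fin 2 → R4 → ℂ := fun d d' x => ∑ j, ∑ k,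
    fderiv ℝ (anti γ d d' j k) x (e j) * ((starRingEnd ℂ) (φ d x) * fderiv ℝ (φ d') x (e k))
  have hcc : ∀ d u, Continuous fun x => (starRingEnd ℂ) (fderiv ℝ (φ d) x u) := fun d u =>
    Complex.continuous_conj.comp (hNc d u)
  have hcφ : ∀ d, Continuous fun x => (starRingEnd ℂ) (φ d x) := fun d =>
    Complex.continuous_conj.comp (hφc d)
  have hGc : Continuous G := continuous_finsetSum _ fun d _ => continuous_finsetSum _ fun j _ =>
    continuous_finsetSum _ fun k _ => (Complex.continuous_ofReal.comp (hg j k)).mul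
      ((hcc d _).mul (hNc d _))
  have hBc : ∀ d d', Continuous (B d d') := fun d d' => continuous_finsetSum _ fun j _ =>
    continuous_finsetSum _ fun k _ => (hac' d d' j k).mul ((hcc d _).mul (hNc d' _))
  have hR1c : ∀ d d', Continuous (R1 d d') := fun d d' => continuous_finsetSum _ fun j _ =>
    continuous_finsetSum _ fun k _ =>
      (((anti_smooth h d d' j k).continuous_fderiv (by simp)).clm_apply continuous_const).mul
        ((hcφ d).mul (hNc d' _))
  -- the integral identity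
  have hid : ((cb L q : ℝ) : ℂ) = cb L G + ∑ d, ∑ d', cb L (B d d') := by
    have h1 : ∀ x, ((q x : ℝ) : ℂ) = G x + ∑ d, ∑ d', B d d' x := by
      intro x
      have h2 := sq_point h x (fun j d => fderiv ℝ (φ d) x (e j))
      rw [← h2]
      simp only [q]
      push_cast
      refine Finset.sum_congr rfl fun c _ => ?_
      rw [Complex.conj_mul']
    have h2 : ((cb L q : ℝ) : ℂ) = cb L fun x => ((q x : ℝ) : ℂ) := by
      unfold cb
      exact (integral_ofReal (𝕜 := ℂ)).symm
    rw [h2]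
    simp only [h1]
    rw [cb_add hGc (continuous_finsetSum _ fun d _ => continuous_finsetSum _ fun d' _ => hBc d d'),
      cb_sum _ fun d _ => continuous_finsetSum _ fun d' _ => hBc d d']
    congr 1
    refine Finset.sum_congr rfl fun d _ => ?_
    rw [cb_sum _ fun d' _ => hBc d d']
  have hB : ∀ d d', cb L (B d d') = -cb L (R1 d d') := fun d d' =>
    cb_antisymm (hφ d) (hφ d') (hφs d) (hL d)
      (fun j k => (anti_smooth h d d' j k).of_le (by exact_mod_cast le_top))
      (fun j k x => anti_anti γ d d' j k x)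
  have hBn : ∀ d d', ‖cb L (B d d')‖ ≤ cb L (fun x => ‖R1 d d' x‖) := by
    intro d d'
    rw [hB, norm_neg]
    exact norm_integral_le_integral_norm _
  have hpt : ∀ x, ∑ d, ∑ d', ‖R1 d d' x‖ ≤ lam / 2 * n x + C' * p x := by
    intro x
    have h1 : ∀ d d', ‖R1 d d' x‖ ≤ ∑ _j : Fin 4, ∑ k, M *
        (ε * ‖fderiv ℝ (φ d') x (e k)‖ ^ 2 + 1 / (4 * ε) * ‖φ d x‖ ^ 2) := by
      intro d d'
      refine (norm_sum_le _ _).trans (Finset.sum_le_sum fun j _ => ?_)
      refine (norm_sum_le _ _).trans (Finset.sum_le_sum fun k _ => ?_)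
      rw [norm_mul, norm_mul, Complex.norm_conj]
      have h2 : ‖fderiv ℝ (anti γ d d' j k) x (e j)‖ ≤ M := (hM1 d d' j k x).trans (by linarith)
      have h3 : ‖φ d x‖ * ‖fderiv ℝ (φ d') x (e k)‖ ≤
          ε * ‖fderiv ℝ (φ d') x (e k)‖ ^ 2 + 1 / (4 * ε) * ‖φ d x‖ ^ 2 := by
        have h4 : 0 ≤ (ε * ‖fderiv ℝ (φ d') x (e k)‖ - ‖φ d x‖ / 2) ^ 2 := sq_nonneg _
        have h5 : ε * ‖fderiv ℝ (φ d') x (e k)‖ ^ 2 + 1 / (4 * ε) * ‖φ d x‖ ^ 2 -
            ‖φ d x‖ * ‖fderiv ℝ (φ d') x (e k)‖ =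
            (1 / ε) * (ε * ‖fderiv ℝ (φ d') x (e k)‖ - ‖φ d x‖ / 2) ^ 2 := by
          field_simp
          ring
        have h6 : 0 ≤ (1 / ε) * (ε * ‖fderiv ℝ (φ d') x (e k)‖ - ‖φ d x‖ / 2) ^ 2 := by positivity
        linarith
      have h4 : 0 ≤ ‖φ d x‖ * ‖fderiv ℝ (φ d') x (e k)‖ := by positivity
      calc _ ≤ M * (‖φ d x‖ * ‖fderiv ℝ (φ d') x (e k)‖) := by gcongr
        _ ≤ _ := by gcongr
    have h3 : ∑ d, ∑ d', ‖R1 d d' x‖ ≤ ∑ d, ∑ d', ∑ _j : Fin 4, ∑ k, M *
        (ε * ‖fderiv ℝ (φ d') x (e k)‖ ^ 2 + 1 / (4 * ε) * ‖φ d x‖ ^ 2) :=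
      Finset.sum_le_sum fun d _ => Finset.sum_le_sum fun d' _ => h1 d d'
    refine h3.trans (le_of_eq ?_)
    have h4 : lam / 2 = 8 * M * ε := by rw [hε]; field_simp; ring
    rw [h4, hC']
    simp only [n, p, Fin.sum_univ_two, Fin.sum_univ_four]
    field_simp
    ring
  -- real parts
  have hre : cb L q = (cb L G).re + (∑ d, ∑ d', cb L (B d d')).re := by
    have := congrArg Complex.re hid
    rwa [Complex.ofReal_re, Complex.add_re] at this
  have hG : lam * cb L n ≤ (cb L G).re := by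
    rw [cb_re hGc]
    have h1 : lam * cb L n = cb L fun x => lam * n x := (integral_const_mul lam n).symm
    rw [h1]
    refine cb_mono (continuous_const.mul hn) (Complex.continuous_re.comp hGc) fun x => ?_
    simp only [n, G]
    rw [Complex.re_sum, Finset.mul_sum]
    exact Finset.sum_le_sum fun d _ => h.ell x fun j => fderiv ℝ (φ d) x (e j)
  have hS : ∀ d d', Continuous fun x => ‖R1 d d' x‖ := fun d d' => (hR1c d d').norm
  have hS2 : Continuous fun x => lam / 2 * n x := continuous_const.mul hn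
  have hS3 : Continuous fun x => C' * p x := continuous_const.mul hp
  have hR : -(lam / 2 * cb L n + C' * cb L p) ≤ (∑ d, ∑ d', cb L (B d d')).re := by
    have h1 : ‖∑ d, ∑ d', cb L (B d d')‖ ≤ lam / 2 * cb L n + C' * cb L p := by
      calc ‖∑ d, ∑ d', cb L (B d d')‖ ≤ ∑ d, ∑ d', cb L (fun x => ‖R1 d d' x‖) :=
            (norm_sum_le _ _).trans (Finset.sum_le_sum fun d _ =>
              (norm_sum_le _ _).trans (Finset.sum_le_sum fun d' _ => hBn d d'))
        _ = cb L (fun x => ∑ d, ∑ d', ‖R1 d d' x‖) := by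
          rw [cb_sum _ fun d _ => continuous_finsetSum _ fun d' _ => hS d d']
          refine Finset.sum_congr rfl fun d _ => ?_
          rw [cb_sum _ fun d' _ => hS d d']
        _ ≤ cb L (fun x => lam / 2 * n x + C' * p x) :=
          cb_mono (continuous_finsetSum _ fun d _ => continuous_finsetSum _ fun d' _ => hS d d')
            (hS2.add hS3) hpt
        _ = lam / 2 * cb L n + C' * cb L p := by
          rw [cb_add hS2 hS3]
          congr 1
          · exact integral_const_mul _ n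
          · exact integral_const_mul _ p
    have h2 := (abs_le.mp (Complex.abs_re_le_norm (∑ d, ∑ d', cb L (B d d')))).1
    linarith
  have hq0 : 0 ≤ cb L q := cb_nonneg fun x => Finset.sum_nonneg fun c _ => by positivity
  have hp0 : 0 ≤ cb L p := cb_nonneg fun x => Finset.sum_nonneg fun c _ => by positivity
  have hmain : lam / 2 * cb L n ≤ cb L q + C' * cb L p := by linarith
  -- everything vanishes outside the box
  have hL' : ∀ d x u, x ∉ bx L → fderiv ℝ (φ d) x u = 0 := by
    intro d x u hx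
    have hcl : IsClosed (bx L) := isClosed_Icc
    have h1 : φ d =ᶠ[𝓝 x] fun _ => 0 := by
      filter_upwards [hcl.isOpen_compl.mem_nhds hx] with y hy
      exact hL d y hy
    rw [h1.fderiv_eq]
    simp
  have hnI : ∫ x, n x = cb L n := (cb_eq fun x hx => by simp [n, hL' _ x _ hx]).symm
  have hqI : ∫ x, q x = cb L q := (cb_eq fun x hx => by simp [q, hL' _ x _ hx]).symm
  have hpI : ∫ x, p x = cb L p := (cb_eq fun x hx => by simp [p, hL _ x hx]).symm
  change ∫ x, n x ≤ 2 / lam * (1 + C') * ((∫ x, q x) + ∫ x, p x)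
  rw [hnI, hqI, hpI]
  have h1 : cb L n ≤ 2 / lam * (cb L q + C' * cb L p) := by
    rw [div_mul_eq_mul_div, le_div_iff₀ hlam]
    linarith
  have h2 : 0 ≤ C' * cb L q := mul_nonneg hC'p.le hq0
  have h3 : 0 ≤ 2 / lam := by positivity
  calc cb L n ≤ 2 / lam * (cb L q + C' * cb L p) := h1
    _ ≤ 2 / lam * ((1 + C') * (cb L q + cb L p)) := by
      refine mul_le_mul_of_nonneg_left ?_ h3
      nlinarith
    _ = 2 / lam * (1 + C') * (cb L q + cb L p) := by ring


end Vale.Agent.P247.H94.IL
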