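import Vale.Agent.P247.H74.Sta

/-! # P247, package P4: smooth functions which are small to high order -/

open scoped ContDiff Topology
open Set Filter Metric Asymptotics

noncomputable section

namespace Vale.Agent.P247.H94

universe u v

variable {E : Type u} [NormedAddCommGroup E] [NormedSpace ℝ E]

theorem iter_succ_eq_zero {F : Type v} [NormedAddCommGroup F] [NormedSpace ℝ F] {f : E → F}
    {i : ℕ} {x : E} : iteratedFDeriv ℝ (i + 1) f x = 0 ↔ iteratedFDeriv ℝ i (fderiv ℝ f) x = 0 := by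
  rw [← norm_eq_zero, ← norm_iteratedFDeriv_fderiv, norm_eq_zero]

theorem iter_zero_eq_zero {F : Type v} [NormedAddCommGroup F] [NormedSpace ℝ F] {f : E → F}
    {x : E} : iteratedFDeriv ℝ 0 f x = 0 ↔ f x = 0 := by
  rw [← norm_eq_zero, norm_iteratedFDeriv_zero, norm_eq_zero]

theorem smooth_fderiv {F : Type v} [NormedAddCommGroup F] [NormedSpace ℝ F] {f : E → F}
    (hf : ContDiff ℝ ∞ f) : ContDiff ℝ ∞ (fderiv ℝ f) :=
  hf.fderiv_right (by simp)

theorem smooth_diff {F : Type v} [NormedAddCommGroup F] [NormedSpace ℝ F] {f : E → F}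
    (hf : ContDiff ℝ ∞ f) : Differentiable ℝ f :=
  hf.differentiable (by simp)

theorem bigO_of_jet (x0 : E) : ∀ (m : ℕ) (F : Type (max u v)) [NormedAddCommGroup F]
    [NormedSpace ℝ F] (f : E → F),
    ContDiff ℝ ∞ f → (∀ i < m, iteratedFDeriv ℝ i f x0 = 0) →
    f =O[𝓝 x0] (fun x => ‖x - x0‖ ^ m) := by
  intro m
  induction m with
  | zero =>
    intro F _ _ f hf _
    simp only [pow_zero]
    exact (hf.continuous.tendsto x0).isBigO_one ℝ
  | succ m ih =>
    intro F _ _ f hf h
    have hf' : ContDiff ℝ ∞ (fderiv ℝ f) := smooth_fderiv hf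
    have h1 : (fderiv ℝ f) =O[𝓝 x0] (fun x => ‖x - x0‖ ^ m) := by
      apply ih _ _ hf'
      intro i hi
      exact iter_succ_eq_zero.1 (h (i + 1) (by omega))
    have h0 : f x0 = 0 := iter_zero_eq_zero.1 (h 0 (by omega))
    obtain ⟨C, hC⟩ := h1.bound
    obtain ⟨ε, hε, hb⟩ := Metric.eventually_nhds_iff_ball.1 hC
    refine IsBigO.of_bound C ?_
    filter_upwards [Metric.ball_mem_nhds x0 hε] with x hx
    have hx' : ‖x - x0‖ < ε := by rwa [mem_ball, dist_eq_norm] at hx
    have hC0 : 0 ≤ C ∨ x = x0 := by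
      by_cases hxx : x = x0
      · exact Or.inr hxx
      · left
        have := hb x hx
        have h2 : 0 < ‖‖x - x0‖ ^ m‖ := by
          rw [norm_pos_iff]
          exact pow_ne_zero _ (norm_ne_zero_iff.2 (sub_ne_zero.2 hxx))
        by_contra hneg
        push Not at hneg
        have h3 := mul_neg_of_neg_of_pos hneg h2
        linarith [norm_nonneg (fderiv ℝ f x)]
    rcases hC0 with hC0 | rfl
    · have key := Convex.norm_image_sub_le_of_norm_fderiv_le (𝕜 := ℝ) (f := f)
        (s := closedBall x0 ‖x - x0‖) (C := C * ‖x - x0‖ ^ m) (x := x0) (y := x)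
        (fun y _ => (smooth_diff hf) y) ?_ (convex_closedBall _ _) ?_ ?_
      · rw [h0, sub_zero] at key
        calc ‖f x‖ ≤ C * ‖x - x0‖ ^ m * ‖x - x0‖ := key
          _ = C * ‖‖x - x0‖ ^ (m + 1)‖ := by
            rw [norm_pow, norm_norm, pow_succ, mul_assoc]
      · intro y hy
        rw [mem_closedBall, dist_eq_norm] at hy
        have hy2 : y ∈ ball x0 ε := by
          rw [mem_ball, dist_eq_norm]; linarith
        have := hb y hy2
        rw [norm_pow, norm_norm] at this
        refine this.trans ?_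
        gcongr
      · exact mem_closedBall_self (norm_nonneg _)
      · rw [mem_closedBall, dist_eq_norm]
    · simp [h0]

/-- the jet estimates for the derivatives -/
theorem bigO_iter (x0 : E) : ∀ (j m : ℕ) (F : Type (max u v)) [NormedAddCommGroup F]
    [NormedSpace ℝ F] (f : E → F), j ≤ m →
    ContDiff ℝ ∞ f → (∀ i < m, iteratedFDeriv ℝ i f x0 = 0) →
    (fun x => iteratedFDeriv ℝ j f x) =O[𝓝 x0] (fun x => ‖x - x0‖ ^ (m - j)) := by
  intro j
  induction j with
  | zero =>
    intro m F _ _ f _ hf h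
    have := bigO_of_jet.{u, v} x0 m F f hf h
    rw [Nat.sub_zero]
    rw [← isBigO_norm_left] at this ⊢
    simpa only [norm_iteratedFDeriv_zero] using this
  | succ j ih =>
    intro m F _ _ f hjm hf h
    obtain ⟨m', rfl⟩ : ∃ m', m = m' + 1 := ⟨m - 1, by omega⟩
    have := ih m' (E →L[ℝ] F) (fderiv ℝ f) (by omega) (smooth_fderiv hf)
      (fun i hi => iter_succ_eq_zero.1 (h (i + 1) (by omega)))
    rw [Nat.add_sub_add_right]
    rw [← isBigO_norm_left] at this ⊢
    simpa only [norm_iteratedFDeriv_fderiv] using this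

/-- interpolation: if `f = o(|x|^(k+1))` and `D²f = O(|x|^(k-1))` then `Df = o(|x|^k)` -/
theorem littleO_fderiv (x0 : E) {F : Type v} [NormedAddCommGroup F] [NormedSpace ℝ F] (f : E → F)
    (hf : ContDiff ℝ ∞ f) (k : ℕ)
    (h1 : f =o[𝓝 x0] (fun x => ‖x - x0‖ ^ (k + 2)))
    (h2 : (fderiv ℝ (fderiv ℝ f)) =O[𝓝 x0] (fun x => ‖x - x0‖ ^ k))
    (h3 : fderiv ℝ f x0 = 0) :
    (fderiv ℝ f) =o[𝓝 x0] (fun x => ‖x - x0‖ ^ (k + 1)) := by
  rw [isLittleO_iff]
  intro c hc
  obtain ⟨C, hC0, hC⟩ := h2.exists_pos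
  rw [isBigOWith_iff] at hC
  obtain ⟨ε₁, hε₁, hb₁⟩ := Metric.eventually_nhds_iff_ball.1 hC
  -- the step
  obtain ⟨ε, hε0, hε1, hε2⟩ : ∃ ε : ℝ, 0 < ε ∧ ε ≤ 1 ∧ C * 2 ^ k * ε ≤ c / 2 := by
    refine ⟨min 1 (c / (2 * (C * 2 ^ k))), ?_, min_le_left _ _, ?_⟩
    · positivity
    · calc C * 2 ^ k * min 1 (c / (2 * (C * 2 ^ k)))
          ≤ C * 2 ^ k * (c / (2 * (C * 2 ^ k))) := by
            gcongr; exact min_le_right _ _
        _ = c / 2 := by field_simp
  obtain ⟨δ, hδ0, hδ⟩ : ∃ δ : ℝ, 0 < δ ∧ δ * (2 ^ (k + 2) + 1) / ε ≤ c / 2 := by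
    refine ⟨c / 2 * ε / (2 ^ (k + 2) + 1), by positivity, ?_⟩
    have : c / 2 * ε / (2 ^ (k + 2) + 1) * (2 ^ (k + 2) + 1) / ε = c / 2 := by
      field_simp
    exact this.le
  obtain ⟨ε₂, hε₂, hb₂⟩ := Metric.eventually_nhds_iff_ball.1 ((isLittleO_iff.1 h1) hδ0)
  filter_upwards [Metric.ball_mem_nhds x0 (show 0 < min ε₁ ε₂ / 2 by positivity)] with x hx
  rw [mem_ball, dist_eq_norm] at hx
  set R := ‖x - x0‖ with hR
  by_cases hR0 : R = 0
  · have : x = x0 := by rwa [hR, norm_eq_zero, sub_eq_zero] at hR0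
    rw [this, h3, norm_zero]
    positivity
  have hRpos : 0 < R := lt_of_le_of_ne (norm_nonneg _) (Ne.symm hR0)
  have hR1 : 2 * R < ε₁ := by have := min_le_left ε₁ ε₂; linarith
  have hR2 : 2 * R < ε₂ := by have := min_le_right ε₁ ε₂; linarith
  rw [norm_pow, Real.norm_eq_abs, abs_of_pos hRpos]
  refine ContinuousLinearMap.opNorm_le_of_unit_norm (by positivity) ?_
  intro v hv
  set t := ε * R with ht
  have htpos : 0 < t := by positivity
  have htR : t ≤ R := by
    calc ε * R ≤ 1 * R := by gcongr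
      _ = R := one_mul _
  have hsub : ∀ y ∈ closedBall x t, ‖y - x0‖ ≤ 2 * R := by
    intro y hy
    rw [mem_closedBall, dist_eq_norm] at hy
    calc ‖y - x0‖ = ‖(y - x) + (x - x0)‖ := by congr 1; abel
      _ ≤ ‖y - x‖ + ‖x - x0‖ := norm_add_le _ _
      _ ≤ 2 * R := by rw [← hR]; linarith
  have hf' : ContDiff ℝ ∞ (fderiv ℝ f) := smooth_fderiv hf
  -- Lipschitz bound of the derivative
  have hL : ∀ y ∈ closedBall x t, ‖fderiv ℝ f y - fderiv ℝ f x‖ ≤ C * (2 * R) ^ k * t := by
    intro y hy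
    have := Convex.norm_image_sub_le_of_norm_fderiv_le (𝕜 := ℝ) (f := fderiv ℝ f)
      (s := closedBall x t) (C := C * (2 * R) ^ k) (x := x) (y := y)
      (fun y _ => (smooth_diff hf') y) ?_ (convex_closedBall _ _)
      (mem_closedBall_self htpos.le) hy
    · refine this.trans ?_
      rw [mem_closedBall, dist_eq_norm] at hy
      gcongr
    · intro z hz
      have hz1 := hsub z hz
      have := hb₁ z (by rw [mem_ball, dist_eq_norm]; linarith)
      rw [norm_pow, norm_norm] at this
      refine this.trans ?_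
      gcongr
  have hy : x + t • v ∈ closedBall x t := by
    rw [mem_closedBall, dist_eq_norm, add_sub_cancel_left, norm_smul, hv, mul_one,
      Real.norm_eq_abs, abs_of_pos htpos]
  have key := Convex.norm_image_sub_le_of_norm_fderiv_le' (𝕜 := ℝ) (f := f)
      (s := closedBall x t) (C := C * (2 * R) ^ k * t) (φ := fderiv ℝ f x) (x := x) (y := x + t • v)
      (fun y _ => (smooth_diff hf) y) hL (convex_closedBall _ _)
      (mem_closedBall_self htpos.le) hy
  rw [add_sub_cancel_left, norm_smul, hv, mul_one, Real.norm_eq_abs, abs_of_pos htpos,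
    map_smul] at key
  have e1 : ‖f (x + t • v)‖ ≤ δ * (2 * R) ^ (k + 2) := by
    have h5 := hsub _ hy
    have := hb₂ (x + t • v) (by rw [mem_ball, dist_eq_norm]; linarith)
    rw [norm_pow, norm_norm] at this
    refine this.trans ?_
    gcongr
  have e2 : ‖f x‖ ≤ δ * R ^ (k + 2) := by
    have := hb₂ x (by rw [mem_ball, dist_eq_norm]; linarith)
    rw [norm_pow, norm_norm] at this
    exact this
  have e3 : ‖t • (fderiv ℝ f x) v‖ ≤ C * (2 * R) ^ k * t * t + (δ * (2 * R) ^ (k + 2) + δ * R ^ (k + 2)) := by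
    have : t • (fderiv ℝ f x) v = -(f (x + t • v) - f x - t • (fderiv ℝ f x) v)
        + (f (x + t • v) - f x) := by abel
    rw [this]
    refine (norm_add_le _ _).trans ?_
    rw [norm_neg]
    have := norm_sub_le (f (x + t • v)) (f x)
    linarith
  rw [norm_smul, Real.norm_eq_abs, abs_of_pos htpos] at e3
  have e4 : t * ‖(fderiv ℝ f x) v‖ ≤ t * (c * R ^ (k + 1)) := by
    refine e3.trans ?_
    have i1 : C * (2 * R) ^ k * t * t = t * (C * 2 ^ k * ε * R ^ (k + 1)) := by
      rw [ht]; ring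
    have i2 : δ * (2 * R) ^ (k + 2) + δ * R ^ (k + 2)
        = t * (δ * (2 ^ (k + 2) + 1) / ε * R ^ (k + 1)) := by
      rw [ht]; field_simp; ring
    rw [i1, i2, ← mul_add]
    gcongr
    have := mul_le_mul_of_nonneg_right hε2 (pow_nonneg hRpos.le (k + 1))
    have := mul_le_mul_of_nonneg_right hδ (pow_nonneg hRpos.le (k + 1))
    linarith
  exact le_of_mul_le_mul_left e4 htpos

theorem apply_eq_zero_of_littleO {x0 : E} {F : Type v} [NormedAddCommGroup F] {f : E → F} {k : ℕ}
    (h : f =o[𝓝 x0] (fun x => ‖x - x0‖ ^ k)) : f x0 = 0 := by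
  rw [← norm_le_zero_iff]
  refine le_of_forall_pos_le_add fun c hc => ?_
  have := ((isLittleO_iff.1 h) hc).self_of_nhds
  rw [sub_self, norm_zero, norm_pow, norm_zero] at this
  have h1 : (0 : ℝ) ^ k ≤ 1 := pow_le_one₀ le_rfl zero_le_one
  nlinarith

/-- a smooth function which is `o(|x - x0|^k)` has vanishing `k`-jet at `x0` -/
theorem jet_of_littleO (x0 : E) : ∀ (k : ℕ) (F : Type (max u v)) [NormedAddCommGroup F]
    [NormedSpace ℝ F] (f : E → F), ContDiff ℝ ∞ f →
    f =o[𝓝 x0] (fun x => ‖x - x0‖ ^ k) → ∀ j ≤ k, iteratedFDeriv ℝ j f x0 = 0 := by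
  intro k
  induction k with
  | zero =>
    intro F _ _ f hf h j hj
    obtain rfl : j = 0 := by omega
    exact iter_zero_eq_zero.2 (apply_eq_zero_of_littleO h)
  | succ k ih =>
    intro F _ _ f hf h j hj
    have hk : f =o[𝓝 x0] (fun x => ‖x - x0‖ ^ k) := by
      refine h.trans_isBigO ?_
      have : Tendsto (fun x : E => ‖x - x0‖) (𝓝 x0) (𝓝 0) := by
        have : Continuous (fun x : E => ‖x - x0‖) := by fun_prop
        simpa using this.tendsto x0
      refine IsBigO.of_bound 1 ?_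
      filter_upwards [this.eventually (gt_mem_nhds one_pos)] with x hx
      rw [one_mul, norm_pow, norm_pow, norm_norm, pow_succ]
      exact mul_le_of_le_one_right (by positivity) hx.le
    rcases Nat.lt_or_ge j (k + 1) with hj' | hj'
    · exact ih F f hf hk j (by omega)
    obtain rfl : j = k + 1 := by omega
    rw [iter_succ_eq_zero]
    refine ih _ _ (smooth_fderiv hf) ?_ k le_rfl
    -- the derivative is `o(|x - x0|^k)`
    have hd0 : fderiv ℝ f x0 = 0 := by
      have h1 : f =o[𝓝 x0] (fun x => ‖x - x0‖) := by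
        refine h.trans_isBigO ?_
        have : Tendsto (fun x : E => ‖x - x0‖) (𝓝 x0) (𝓝 0) := by
          have : Continuous (fun x : E => ‖x - x0‖) := by fun_prop
          simpa using this.tendsto x0
        refine IsBigO.of_bound 1 ?_
        filter_upwards [this.eventually (gt_mem_nhds one_pos)] with x hx
        rw [one_mul, norm_pow, norm_norm, pow_succ]
        exact mul_le_of_le_one_left (by positivity) (pow_le_one₀ (norm_nonneg _) hx.le)
      have h2 : HasFDerivAt f (0 : E →L[ℝ] F) x0 := by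
        rw [hasFDerivAt_iff_isLittleO]
        have h0 : f x0 = 0 := apply_eq_zero_of_littleO h
        simpa [h0] using h1.norm_right |>.of_norm_right
      exact h2.fderiv
    rcases k with _ | k
    · simp only [pow_zero]
      rw [isLittleO_one_iff]
      have := (smooth_fderiv hf).continuous.tendsto x0
      rwa [hd0] at this
    · refine littleO_fderiv x0 f hf k h ?_ hd0
      apply bigO_of_jet.{u, v} x0 k _ _ (smooth_fderiv (smooth_fderiv hf))
      intro i hi
      rw [← iter_succ_eq_zero, ← iter_succ_eq_zero]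
      exact ih F f hf hk (i + 1 + 1) (by omega)

end Vale.Agent.P247.H94
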