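import Vale.Agent.P247.H447.E5.Sta

/-!
# Gårding's inequality for functions with weak derivatives, general coefficients
-/

open scoped ContDiff Topology ENNReal NNReal
open Set MeasureTheory Filter Metric
open Vale.Agent.P247.H74 (R4 e)
open Vale.Agent.P363.R.Sob
open Vale.Agent.P247.H306

noncomputable section

namespace Vale.Agent.P247.H94.LR

open Vale.Agent.P247.H447.E5 (Gar LRC_statement LRk_statement GNS_statement)

variable {V W : Type} [NormedAddCommGroup V] [NormedSpace ℝ V] [FiniteDimensional ℝ V]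
  [NormedAddCommGroup W] [NormedSpace ℝ W] [FiniteDimensional ℝ W]

/-- the norm of a function which vanishes off a set and is bounded there by another function -/
theorem eLpNorm_le_restrict {F G : Type*} [NormedAddCommGroup F] [NormedAddCommGroup G]
    {p : ℝ≥0∞} {f : R4 → F} {g : R4 → G} {K : Set R4} (hK : MeasurableSet K) {c : ℝ≥0}
    (h0 : ∀ x, x ∉ K → g x = 0) (h1 : ∀ x ∈ K, ‖g x‖ ≤ c * ‖f x‖) :
    eLpNorm g p volume ≤ c * eLpNorm f p (volume.restrict K) := by
  have e1 : g = K.indicator g := by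
    ext x
    by_cases hx : x ∈ K
    · rw [indicator_of_mem hx]
    · rw [indicator_of_notMem hx, h0 x hx]
  rw [e1, eLpNorm_indicator_eq_eLpNorm_restrict hK]
  have h2 : eLpNorm g p (volume.restrict K) ≤ ENNReal.ofReal c * eLpNorm f p (volume.restrict K) :=
    eLpNorm_le_mul_eLpNorm_of_ae_le_mul
      ((ae_restrict_mem hK).mono fun x hx => h1 x hx) p
  rwa [ENNReal.ofReal_coe_nnreal] at h2

/-- a continuous function is bounded on a compact set -/
theorem bdd_on {F : Type*} [NormedAddCommGroup F] {f : R4 → F} (hf : Continuous f) {K : Set R4}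
    (hK : IsCompact K) : ∃ c : ℝ≥0, ∀ x ∈ K, ‖f x‖ ≤ c := by
  obtain ⟨c, hc⟩ := hK.exists_bound_of_continuousOn hf.continuousOn
  exact ⟨c.toNNReal, fun x hx => (hc x hx).trans (Real.le_coe_toNNReal c)⟩

/-- mollification is zero away from the support -/
theorem moll_zero {F : Type*} [NormedAddCommGroup F] [NormedSpace ℝ F] [CompleteSpace F]
    {x₀ : R4} {r : ℝ} (n : ℕ) {f : R4 → F} (h : ∀ x, x ∉ closedBall x₀ r → f x = 0) (x : R4)
    (hx : x ∉ closedBall x₀ (r + 1 / ((n : ℝ) + 1))) :
    moll volume (stdBump n) f x = 0 := by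
  have h1 : moll volume (stdBump n) f x = moll volume (stdBump n) (fun _ => (0 : F)) x := by
    refine moll_congr_on _ fun y hy => ?_
    refine h y fun hy2 => hx ?_
    have h3 : dist y x < 1 / ((n : ℝ) + 1) := hy
    have h4 : dist y x₀ ≤ r := hy2
    have h5 := dist_triangle x y x₀
    rw [dist_comm x y] at h5
    exact mem_closedBall.2 (by linarith)
  rw [h1, moll_apply]
  simp

/-- Gårding's inequality near a point for functions with weak derivatives in `L²`. -/
theorem garding_w {M : Fin 4 → R4 → (V →L[ℝ] W)} (hM : ∀ i, ContDiff ℝ ∞ (M i)) {x₀ : R4} {r : ℝ}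
    (hr : 0 < r) {C : ℝ≥0}
    (hG : ∀ φ : R4 → V, ContDiff ℝ ∞ φ → HasCompactSupport φ →
      tsupport φ ⊆ ball x₀ r → ∀ i, eLpNorm (fun x => fderiv ℝ φ x (e i)) 2 volume ≤
      C * (eLpNorm (fun x => ∑ j, M j x (fderiv ℝ φ x (e j))) 2 volume + eLpNorm φ 2 volume))
    {v : R4 → V} {dv : Fin 4 → R4 → V} (hv : MemLp v 2 volume) (hdv : ∀ j, MemLp (dv j) 2 volume)
    (hw : ∀ j, IsWD volume (e j) v (dv j)) (h0 : ∀ x, x ∉ closedBall x₀ (r / 2) → v x = 0)
    (h1 : ∀ j x, x ∉ closedBall x₀ (r / 2) → dv j x = 0) (i : Fin 4) :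
    eLpNorm (dv i) 2 volume ≤
      C * (eLpNorm (fun x => ∑ j, M j x (dv j x)) 2 volume + eLpNorm v 2 volume) := by
  have hKc : IsCompact (closedBall x₀ r) := isCompact_closedBall _ _
  choose c hc using fun j => bdd_on (hM j).continuous hKc
  have hvl : LocallyIntegrable v volume := hv.locallyIntegrable (by norm_num)
  set φ : ℕ → R4 → V := fun n => moll volume (stdBump n) v with hφ
  have hφs : ∀ n, ContDiff ℝ ∞ (φ n) := fun n => moll_contDiff _ hvl
  have hφd : ∀ n j, (fun x => fderiv ℝ (φ n) x (e j)) = moll volume (stdBump n) (dv j) := by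
    intro n j
    ext x
    exact fderiv_moll _ (hw j) hvl x
  have t0 : Tendsto (fun n => eLpNorm (φ n - v) 2 volume) atTop (𝓝 0) :=
    tendsto_moll_std (by norm_num) hv
  have t1 : ∀ j, Tendsto (fun n => eLpNorm (moll volume (stdBump n) (dv j) - dv j) 2 volume)
      atTop (𝓝 0) := fun j => tendsto_moll_std (by norm_num) (hdv j)
  obtain ⟨N, hN⟩ : ∃ N : ℕ, ∀ n ≥ N, 1 / ((n : ℝ) + 1) < r / 4 := by
    have h2 := tendsto_one_div_add_atTop_nhds_zero_nat (𝕜 := ℝ)
    exact eventually_atTop.1 (h2.eventually (gt_mem_nhds (by positivity)))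
  -- supports
  have hs : ∀ n ≥ N, ∀ x, x ∉ closedBall x₀ (3 * r / 4) → φ n x = 0 := by
    intro n hn x hx
    refine moll_zero n h0 x fun hx2 => hx ?_
    refine closedBall_subset_closedBall ?_ hx2
    have := hN n hn
    linarith
  have hsd : ∀ n ≥ N, ∀ j x, x ∉ closedBall x₀ (3 * r / 4) →
      moll volume (stdBump n) (dv j) x = 0 := by
    intro n hn j x hx
    refine moll_zero n (h1 j) x fun hx2 => hx ?_
    refine closedBall_subset_closedBall ?_ hx2
    have := hN n hn
    linarith
  have hcs : ∀ n ≥ N, HasCompactSupport (φ n) := fun n hn =>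
    HasCompactSupport.intro (isCompact_closedBall x₀ (3 * r / 4)) (hs n hn)
  have hts : ∀ n ≥ N, tsupport (φ n) ⊆ ball x₀ r := by
    intro n hn
    refine Subset.trans ?_ (closedBall_subset_ball (show 3 * r / 4 < r by linarith))
    refine closure_minimal ?_ isClosed_closedBall
    intro x hx
    by_contra h2
    exact hx (hs n hn x h2)
  have hsub : closedBall x₀ (3 * r / 4) ⊆ closedBall x₀ r :=
    closedBall_subset_closedBall (by linarith)
  have hsub2 : closedBall x₀ (r / 2) ⊆ closedBall x₀ r :=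
    closedBall_subset_closedBall (by linarith)
  have mφ : ∀ n ≥ N, MemLp (φ n) 2 volume := fun n hn =>
    (hφs n).continuous.memLp_of_hasCompactSupport (hcs n hn)
  have mm : ∀ n ≥ N, ∀ j, MemLp (moll volume (stdBump n) (dv j)) 2 volume := by
    intro n hn j
    refine (moll_contDiff _ ((hdv j).locallyIntegrable
      (by norm_num))).continuous.memLp_of_hasCompactSupport ?_
    exact HasCompactSupport.intro (isCompact_closedBall x₀ (3 * r / 4)) (hsd n hn j)
  -- the principal part
  have hMm : ∀ {w : R4 → V} (j), AEStronglyMeasurable w volume →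
      AEStronglyMeasurable (fun x => M j x (w x)) volume := fun j hw =>
    (ContinuousLinearMap.id ℝ (V →L[ℝ] W)).aestronglyMeasurable_comp₂
      (hM j).continuous.aestronglyMeasurable hw
  have hMn : ∀ {w : R4 → V} (j), (∀ x, x ∉ closedBall x₀ r → w x = 0) →
      eLpNorm (fun x => M j x (w x)) 2 volume ≤ c j * eLpNorm w 2 volume := by
    intro w j hw
    refine (eLpNorm_le_restrict (f := w) (K := closedBall x₀ r) measurableSet_closedBall
      (c := c j) (fun x hx => ?_) (fun x hx => ?_)).trans ?_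
    · rw [hw x hx, map_zero]
    · exact ((M j x).le_opNorm _).trans (mul_le_mul_of_nonneg_right (hc j x hx) (norm_nonneg _))
    · gcongr
      exact Measure.restrict_le_self
  have hA : ∀ n ≥ N, eLpNorm (fun x => ∑ j, M j x (moll volume (stdBump n) (dv j) x)) 2 volume ≤
      eLpNorm (fun x => ∑ j, M j x (dv j x)) 2 volume +
      ∑ j, c j * eLpNorm (moll volume (stdBump n) (dv j) - dv j) 2 volume := by
    intro n hn
    have e1 : (fun x => ∑ j, M j x (moll volume (stdBump n) (dv j) x)) =
        (fun x => ∑ j, M j x (dv j x)) + ∑ j,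
          fun x => M j x ((moll volume (stdBump n) (dv j) - dv j) x) := by
      ext x
      simp only [Pi.add_apply, Finset.sum_apply, Pi.sub_apply, map_sub, Finset.sum_sub_distrib]
      abel
    rw [e1]
    have m3 : AEStronglyMeasurable (fun x => ∑ j, M j x (dv j x)) volume :=
      Finset.aestronglyMeasurable_fun_sum _ fun j _ => hMm j (hdv j).1
    have m4 : ∀ j, AEStronglyMeasurable
        (fun x => M j x ((moll volume (stdBump n) (dv j) - dv j) x)) volume := fun j =>
      hMm j ((mm n hn j).1.sub (hdv j).1)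
    refine (eLpNorm_add_le m3 (Finset.aestronglyMeasurable_sum _ fun j _ => m4 j)
      (by norm_num)).trans ?_
    refine add_le_add_right ?_ _
    refine (eLpNorm_sum_le (fun j _ => m4 j) (by norm_num)).trans ?_
    refine Finset.sum_le_sum fun j _ => hMn j fun x hx => ?_
    rw [Pi.sub_apply, hsd n hn j x fun h => hx (hsub h), h1 j x fun h => hx (hsub2 h), sub_zero]
  have hB : ∀ n ≥ N, eLpNorm (φ n) 2 volume ≤ eLpNorm v 2 volume + eLpNorm (φ n - v) 2 volume := by
    intro n hn
    have e1 : φ n = v + (φ n - v) := by abel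
    calc eLpNorm (φ n) 2 volume = eLpNorm (v + (φ n - v)) 2 volume := by rw [← e1]
      _ ≤ _ := eLpNorm_add_le hv.1 ((mφ n hn).sub hv).1 (by norm_num)
  have hD : ∀ n ≥ N, eLpNorm (dv i) 2 volume ≤
      eLpNorm (moll volume (stdBump n) (dv i)) 2 volume +
        eLpNorm (moll volume (stdBump n) (dv i) - dv i) 2 volume := by
    intro n hn
    have e1 : dv i = moll volume (stdBump n) (dv i) - (moll volume (stdBump n) (dv i) - dv i) := by
      abel
    calc eLpNorm (dv i) 2 volume = eLpNorm (moll volume (stdBump n) (dv i) -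
        (moll volume (stdBump n) (dv i) - dv i)) 2 volume := by rw [← e1]
      _ ≤ _ := eLpNorm_sub_le (mm n hn i).1 ((mm n hn i).sub (hdv i)).1 (by norm_num)
  have hfin : ∀ n ≥ N, eLpNorm (dv i) 2 volume ≤
      C * ((eLpNorm (fun x => ∑ j, M j x (dv j x)) 2 volume +
      ∑ j, c j * eLpNorm (moll volume (stdBump n) (dv j) - dv j) 2 volume) +
      (eLpNorm v 2 volume + eLpNorm (φ n - v) 2 volume)) +
        eLpNorm (moll volume (stdBump n) (dv i) - dv i) 2 volume := by
    intro n hn
    refine (hD n hn).trans (add_le_add_left ?_ _)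
    have h3 := hG (φ n) (hφs n) (hcs n hn) (hts n hn) i
    have e1 : ∀ j x, fderiv ℝ (φ n) x (e j) = moll volume (stdBump n) (dv j) x := fun j x =>
      congrFun (hφd n j) x
    simp only [e1] at h3
    refine h3.trans ?_
    gcongr
    · exact hA n hn
    · exact hB n hn
  have hlim : Tendsto (fun n => C * ((eLpNorm (fun x => ∑ j, M j x (dv j x)) 2 volume +
      ∑ j, c j * eLpNorm (moll volume (stdBump n) (dv j) - dv j) 2 volume) +
      (eLpNorm v 2 volume + eLpNorm (φ n - v) 2 volume)) +
        eLpNorm (moll volume (stdBump n) (dv i) - dv i) 2 volume) atTop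
      (𝓝 (C * ((eLpNorm (fun x => ∑ j, M j x (dv j x)) 2 volume +
      ∑ j, (c j : ℝ≥0∞) * 0) + (eLpNorm v 2 volume + 0)) + 0)) := by
    refine Tendsto.add ?_ (t1 i)
    refine ENNReal.Tendsto.const_mul ?_ (Or.inr (by simp))
    refine Tendsto.add (tendsto_const_nhds.add (tendsto_finsetSum _ fun j _ => ?_))
      (tendsto_const_nhds.add t0)
    exact ENNReal.Tendsto.const_mul (t1 j) (Or.inr (by simp))
  have hres := ge_of_tendsto hlim (eventually_atTop.2 ⟨N, fun n hn => hfin n hn⟩)
  simpa using hres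

end Vale.Agent.P247.H94.LR
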