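import Vale.Agent.P247.H94.LRC1
import Vale.Agent.P247.H399.GNS
import Vale.Agent.P247.H109.DQF

/-!
# Difference quotients: elementary facts
-/

open scoped ContDiff Topology ENNReal NNReal
open Set MeasureTheory Filter Metric
open Vale.Agent.P247.H74 (R4 e)
open Vale.Agent.P363.R.Sob
open Vale.Agent.P247.H306

set_option linter.unusedSectionVars false

noncomputable section

namespace Vale.Agent.P247.H94.LR

variable {F G H : Type*} [NormedAddCommGroup F] [NormedSpace ℝ F]
  [NormedAddCommGroup G] [NormedSpace ℝ G] [NormedAddCommGroup H] [NormedSpace ℝ H]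

open Vale.Agent.P247.H109 (dq)

theorem mp_restrict (c : R4) {s : Set R4} (hs : MeasurableSet s) :
    MeasurePreserving (fun x => x + c) ((volume : Measure R4).restrict ((fun x => x + c) ⁻¹' s))
      (volume.restrict s) :=
  (measurePreserving_add_right volume c).restrict_preimage hs

theorem sub_preimage {K : Set R4} {c : R4} (hc : ‖c‖ ≤ 1) :
    K ⊆ (fun x => x + c) ⁻¹' (cthickening 1 K) := by
  intro x hx
  refine mem_cthickening_of_dist_le _ x 1 K hx ?_
  simpa [dist_eq_norm] using hc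

theorem norm_trans_le {p : ℝ≥0∞} {f : R4 → F} (hf : LL p f) {K : Set R4} (hK : IsCompact K) {c : R4}
    (hc : ‖c‖ ≤ 1) : eLpNorm (fun x => f (x + c)) p (volume.restrict K) ≤
      eLpNorm f p (volume.restrict (cthickening 1 K)) := by
  have hK1 : IsCompact (cthickening 1 K) := hK.cthickening
  calc eLpNorm (fun x => f (x + c)) p (volume.restrict K) ≤
      eLpNorm (fun x => f (x + c)) p
        (volume.restrict ((fun x => x + c) ⁻¹' (cthickening 1 K))) :=
        eLpNorm_mono_measure _ (Measure.restrict_mono (sub_preimage hc) le_rfl)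
    _ = eLpNorm f p (volume.restrict (cthickening 1 K)) :=
        eLpNorm_comp_measurePreserving (hf _ hK1).1 (mp_restrict c hK1.measurableSet)

theorem LL.trans {p : ℝ≥0∞} {f : R4 → F} (hf : LL p f) (c : R4) : LL p fun x => f (x + c) := by
  intro K hK
  have hs : IsCompact ((fun x => x + c) '' K) := hK.image (by fun_prop)
  have h1 := (hf _ hs).comp_measurePreserving (mp_restrict c hs.measurableSet)
  exact h1.mono_measure (Measure.restrict_mono (subset_preimage_image _ K) le_rfl)

theorem LL.dq {p : ℝ≥0∞} {f : R4 → F} (hf : LL p f) (v : R4) (h : ℝ) : LL p (dq h v f) := by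
  intro K hK
  exact ((LL.trans hf (h • v) K hK).sub (hf K hK)).const_smul h⁻¹

theorem LL.locInt {p : ℝ≥0∞} (hp : 1 ≤ p) {f : R4 → F} (hf : LL p f) :
    LocallyIntegrable f volume := by
  rw [locallyIntegrable_iff]
  intro K hK
  have : IsFiniteMeasure ((volume : Measure R4).restrict K) := ⟨by
    rw [Measure.restrict_apply_univ]; exact hK.measure_lt_top⟩
  exact (hf K hK).integrable hp

theorem LL.aesm {p : ℝ≥0∞} (hp : 1 ≤ p) {f : R4 → F} (hf : LL p f) :
    AEStronglyMeasurable f volume := (LL.locInt hp hf).aestronglyMeasurable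

/-- a function in `L^p_loc` times a smooth cut off is in `L^p` -/
theorem LL.smul_cut {p : ℝ≥0∞} (hp : 1 ≤ p) {f : R4 → F} (hf : LL p f) {η : R4 → ℝ}
    (hη : Continuous η) {K : Set R4} (hK : IsCompact K) (h0 : ∀ x, x ∉ K → η x = 0) :
    MemLp (fun x => η x • f x) p volume := by
  obtain ⟨c, hc⟩ := bdd_on hη hK
  refine ⟨hη.aestronglyMeasurable.smul (LL.aesm hp hf), ?_⟩
  refine lt_of_le_of_lt (eLpNorm_le_restrict (f := f) hK.measurableSet (c := c)
    (fun x hx => by rw [h0 x hx, zero_smul]) fun x hx => ?_) ?_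
  · rw [norm_smul]
    exact mul_le_mul_of_nonneg_right (hc x hx) (norm_nonneg _)
  · exact ENNReal.mul_lt_top (by simp) (hf K hK).2

/-- the difference quotient of a `C¹` map is bounded on compact sets -/
theorem dq_smooth_bdd {f : R4 → F} (hf : ContDiff ℝ 1 f) {v : R4} (hv : ‖v‖ ≤ 1) {K : Set R4}
    (hK : IsCompact K) : ∃ c : ℝ≥0, ∀ h : ℝ, h ≠ 0 → |h| ≤ 1 → ∀ x ∈ K, ‖dq h v f x‖ ≤ c := by
  obtain ⟨c, hc⟩ := bdd_on (hf.continuous_fderiv one_ne_zero) (hK.cthickening (r := 1))
  refine ⟨c, fun h h0 h1 x hx => ?_⟩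
  have hb : ‖h • v‖ ≤ |h| := by
    rw [norm_smul, Real.norm_eq_abs]
    exact mul_le_of_le_one_right (abs_nonneg h) hv
  have hsub : closedBall x 1 ⊆ cthickening 1 K := fun y hy =>
    mem_cthickening_of_dist_le y x 1 K hx hy
  have h3 := (convex_closedBall x 1).norm_image_sub_le_of_norm_fderiv_le (𝕜 := ℝ) (f := f)
    (C := c) (x := x) (y := x + h • v)
    (fun y _ => hf.differentiable one_ne_zero y) (fun y hy => hc y (hsub hy))
    (mem_closedBall_self zero_le_one)
    (by rw [mem_closedBall, dist_eq_norm, add_sub_cancel_left]; exact hb.trans h1)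
  rw [add_sub_cancel_left] at h3
  unfold dq
  rw [norm_smul, norm_inv, Real.norm_eq_abs]
  have hpos : 0 < |h| := abs_pos.2 h0
  rw [inv_mul_le_iff₀ hpos, mul_comm]
  calc ‖f (x + h • v) - f x‖ ≤ c * ‖h • v‖ := h3
    _ ≤ c * |h| := by gcongr

theorem dq_clm (v : R4) (h : ℝ) (A : R4 → (F →L[ℝ] G)) (u : R4 → F) (x : R4) :
    dq h v (fun y => A y (u y)) x = A x (dq h v u x) + (dq h v A x) (u (x + h • v)) := by
  simp only [dq, map_smul, map_sub, smul_apply,
    sub_apply]
  rw [← smul_add]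
  congr 1
  abel

theorem dq_add (v : R4) (h : ℝ) (f g : R4 → F) (x : R4) :
    dq h v (fun y => f y + g y) x = dq h v f x + dq h v g x := by
  simp only [dq, ← smul_add]
  congr 1
  abel

theorem dq_sum {ι : Type*} (s : Finset ι) (v : R4) (h : ℝ) (f : ι → R4 → F) (x : R4) :
    dq h v (fun y => ∑ i ∈ s, f i y) x = ∑ i ∈ s, dq h v (f i) x := by
  simp only [dq, ← Finset.smul_sum, Finset.sum_sub_distrib]

theorem ae_trans {P : R4 → Prop} (h : ∀ᵐ x, P x) (c : R4) : ∀ᵐ x : R4, P (x + c) :=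
  (measurePreserving_add_right volume c).quasiMeasurePreserving.ae h

theorem dq_congr {f g : R4 → F} (h : f =ᵐ[volume] g) (v : R4) (t : ℝ) :
    dq t v f =ᵐ[volume] dq t v g := by
  filter_upwards [h, ae_trans h (t • v)] with x h1 h2
  simp only [dq, h1, h2]

instance holder442 : ENNReal.HolderTriple 4 4 2 := ⟨by
  rw [← ENNReal.coe_ofNat (n := 4), ← ENNReal.coe_ofNat (n := 2), ← ENNReal.coe_inv (by norm_num),
    ← ENNReal.coe_inv (by norm_num), ← ENNReal.coe_add, ENNReal.coe_inj]
  norm_num⟩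

/-- Hölder for a linear map valued function -/
theorem holder_clm {μ : Measure R4} {A : R4 → (F →L[ℝ] G)} {u : R4 → F}
    (hA : AEStronglyMeasurable A μ) (hu : AEStronglyMeasurable u μ) :
    eLpNorm (fun x => A x (u x)) 2 μ ≤ eLpNorm A 4 μ * eLpNorm u 4 μ := by
  have := eLpNorm_le_eLpNorm_mul_eLpNorm'_of_norm (p := 4) (q := 4) (r := 2) hA hu
    (fun (L : F →L[ℝ] G) (y : F) => L y) 1
    (Eventually.of_forall fun x => by simpa using (A x).le_opNorm (u x))
  simpa using this

/-- the norm on small balls is small -/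
theorem small_ball {p : ℝ≥0∞} (hp : 1 ≤ p) (hpt : p ≠ ⊤) {f : R4 → F} (hf : LL p f) (x₀ : R4)
    {δ : ℝ} (hδ : 0 < δ) : ∃ r : ℝ, 0 < r ∧ ∀ s, s ≤ r →
      eLpNorm f p (volume.restrict (closedBall x₀ s)) ≤ ENNReal.ofReal δ := by
  have hK : IsCompact (closedBall x₀ 1) := isCompact_closedBall _ _
  obtain ⟨t, ht, h⟩ := (hf _ hK).eLpNorm_indicator_le hp hpt hδ
  have h1 : Tendsto (fun s : ℝ => volume (closedBall x₀ s)) (𝓝[>] 0) (𝓝 0) := by
    have h2 : ∀ s : ℝ, 0 < s → volume (closedBall x₀ s) = ENNReal.ofReal ((2 * s) ^ 4) := by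
      intro s hs
      rw [Real.volume_pi_closedBall _ hs.le]
      simp
    have h3 : Tendsto (fun s : ℝ => ENNReal.ofReal ((2 * s) ^ 4)) (𝓝[>] 0) (𝓝 0) := by
      have h4 : Tendsto (fun s : ℝ => ENNReal.ofReal ((2 * s) ^ 4)) (𝓝 0)
          (𝓝 (ENNReal.ofReal ((2 * (0 : ℝ)) ^ 4))) :=
        (ENNReal.continuous_ofReal.tendsto _).comp
          (Continuous.tendsto (by fun_prop) 0)
      simp only [mul_zero, ne_eq, OfNat.ofNat_ne_zero, not_false_eq_true, zero_pow,
        ENNReal.ofReal_zero] at h4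
      exact h4.mono_left nhdsWithin_le_nhds
    exact h3.congr' (eventually_nhdsWithin_of_forall fun s hs => (h2 s hs).symm)
  have h5 : ∀ᶠ s in 𝓝[>] (0 : ℝ), volume (closedBall x₀ s) ≤ ENNReal.ofReal t ∧ s ≤ 1 := by
    refine (ENNReal.tendsto_nhds_zero.1 h1 _ (by simpa using ht)).and ?_
    exact (eventually_nhdsWithin_of_eventually_nhds (ge_mem_nhds one_pos))
  obtain ⟨r, hr, hr2⟩ := (h5.and self_mem_nhdsWithin).exists
  refine ⟨r, hr2, fun s hs => ?_⟩
  have hsub : closedBall x₀ s ⊆ closedBall x₀ 1 := closedBall_subset_closedBall (hs.trans hr.2)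
  have h6 := h (closedBall x₀ s) measurableSet_closedBall (by
    rw [Measure.restrict_apply measurableSet_closedBall]
    exact (measure_mono inter_subset_left).trans
      ((measure_mono (closedBall_subset_closedBall hs)).trans hr.1))
  rw [eLpNorm_indicator_eq_eLpNorm_restrict measurableSet_closedBall,
    Measure.restrict_restrict measurableSet_closedBall, inter_eq_left.2 hsub] at h6
  exact h6

end Vale.Agent.P247.H94.LR
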