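import Vale.Agent.P247.H94.LRC2

/-!
# The main estimate for difference quotients
-/

open scoped ContDiff Topology ENNReal NNReal
open Set MeasureTheory Filter Metric
open Vale.Agent.P247.H74 (R4 e)
open Vale.Agent.P363.R.Sob
open Vale.Agent.P247.H306

set_option linter.unusedSectionVars false

noncomputable section

namespace Vale.Agent.P247.H94.LR

open Vale.Agent.P247.H447.E5 (Gar LRC_statement LRk_statement GNS_statement)
open Vale.Agent.P247.H109 (dq)

variable {V W : Type} [NormedAddCommGroup V] [NormedSpace ℝ V] [FiniteDimensional ℝ V]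
  [NormedAddCommGroup W] [NormedSpace ℝ W] [FiniteDimensional ℝ W]

theorem absorb {X B a : ℝ≥0∞} (hX : X ≠ ⊤) (ha : a ≤ 2⁻¹) (h : X ≤ B + a * X) : X ≤ 2 * B := by
  by_cases hB : B = ⊤
  · rw [hB, ENNReal.mul_top (by norm_num)]
    exact le_top
  have h1 : X ≤ B + 2⁻¹ * X := h.trans (by gcongr)
  have h2 : 2⁻¹ * X ≠ ⊤ := ENNReal.mul_ne_top (by simp) hX
  have h3 : 2⁻¹ * X + 2⁻¹ * X = X := by
    rw [← add_mul, ENNReal.inv_two_add_inv_two, one_mul]
  have h4 : 2⁻¹ * X ≤ B := by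
    rw [← ENNReal.add_le_add_iff_right h2, h3]
    exact h1
  calc X = 2 * (2⁻¹ * X) := by
        rw [← mul_assoc, ENNReal.mul_inv_cancel (by norm_num) (by norm_num), one_mul]
    _ ≤ 2 * B := by gcongr

theorem basis_e (i : Fin 4) : (Pi.basisFun ℝ (Fin 4)) i = (e i : R4) := by
  rw [Pi.basisFun_apply]
  rfl

theorem norm_e (i : Fin 4) : ‖(e i : R4)‖ ≤ 1 := by
  have h : ‖(e i : R4)‖ = 1 := by
    unfold Vale.Agent.P247.H74.e
    rw [Pi.norm_single]
    simp
  exact h.le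

/-- Sobolev's inequality on `ℝ⁴` -/
theorem sobolev (V : Type) [NormedAddCommGroup V] [NormedSpace ℝ V] [FiniteDimensional ℝ V] :
    ∃ C : ℝ≥0, ∀ (f : R4 → V) (g : Fin 4 → R4 → V), LocallyIntegrable f volume →
      HasCompactSupport f → (∀ i, MemLp (g i) 2 volume) → (∀ i, IsWD volume (e i) f (g i)) →
      eLpNorm f 4 volume ≤ C * ∑ i, eLpNorm (g i) 2 volume := by
  obtain ⟨C, hC⟩ := Vale.Agent.P247.H399.Emb.gns (F := V) (μ := (volume : Measure R4))
    (Pi.basisFun ℝ (Fin 4)) (p := 2) (p' := 4) (by norm_num) (by simp) (by simp; norm_num)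
  refine ⟨C, fun f g h1 h2 h3 h4 => ?_⟩
  have := (hC f g h1 h2 (by exact_mod_cast h3) (fun i => by rw [basis_e]; exact h4 i)).2
  exact_mod_cast this

theorem sob_LL4 {u : R4 → V} {P : Fin 4 → R4 → V} (hu : LL 2 u) (hP : ∀ i, LL 2 (P i))
    (w : ∀ i, IsWD volume (e i) u (P i)) : LL 4 u := by
  have := Vale.Agent.P247.H399.Emb.gns_loc (F := V) (μ := (volume : Measure R4))
    (Pi.basisFun ℝ (Fin 4)) (p := 2) (p' := 4) (by norm_num) (by simp) (by simp; norm_num)
    (f := u) (g := P) (by exact_mod_cast hu) (by exact_mod_cast hP)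
    (fun i => by rw [basis_e]; exact w i)
  exact_mod_cast this

/-- the cut off -/
theorem exists_eta (x₀ : R4) {r : ℝ} (hr : 0 < r) : ∃ η : R4 → ℝ, ContDiff ℝ ∞ η ∧
    (∀ x, ‖η x‖ ≤ 1) ∧ (∀ x ∈ closedBall x₀ (r / 2), η x = 1) ∧
    (∀ x, x ∉ closedBall x₀ r → η x = 0) ∧
    (∀ x, x ∉ closedBall x₀ r → fderiv ℝ η x = 0) := by
  let η : ContDiffBump x₀ := ⟨r / 2, r, by positivity, by linarith⟩
  have h0 : ∀ x, x ∉ closedBall x₀ r → (η : R4 → ℝ) x = 0 := by
    intro x hx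
    refine η.zero_of_le_dist ?_
    rw [mem_closedBall, not_le] at hx
    exact hx.le
  refine ⟨η, η.contDiff, fun x => ?_, fun x hx => η.one_of_mem_closedBall hx, h0, fun x hx => ?_⟩
  · rw [Real.norm_eq_abs, abs_of_nonneg η.nonneg]
    exact η.le_one
  · have h1 : (η : R4 → ℝ) =ᶠ[𝓝 x] fun _ => 0 := by
      filter_upwards [isClosed_closedBall.isOpen_compl.mem_nhds hx] with y hy
      exact h0 y hy
    rw [h1.fderiv_eq]
    simp

/-- the equation for the cut off difference quotient -/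
theorem ident {M : Fin 4 → R4 → (V →L[ℝ] W)} {A : R4 → (V →L[ℝ] W)} {f : R4 → W} {u : R4 → V}
    {P : Fin 4 → R4 → V} (heq : ∀ᵐ x, ∑ j, M j x (P j x) + A x (u x) = f x) (η : R4 → ℝ)
    (dη : Fin 4 → R4 → ℝ) (v : R4) (h : ℝ) :
    ∀ᵐ x, ∑ j, M j x (dη j x • dq h v u x + η x • dq h v (P j) x) =
      (∑ j, dη j x • M j x) (dq h v u x) + η x • dq h v f x -
      (∑ j, η x • (dq h v (M j) x) (P j (x + h • v))) -
      η x • (dq h v A x) (u (x + h • v)) - A x (η x • dq h v u x) := by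
  have h1 : dq h v (fun x => ∑ j, M j x (P j x) + A x (u x)) =ᵐ[volume] dq h v f :=
    dq_congr heq v h
  filter_upwards [h1] with x hx
  rw [dq_add, dq_sum, dq_clm] at hx
  simp only [dq_clm] at hx
  rw [← hx]
  simp only [map_add, map_smul, Finset.sum_add_distrib, sum_apply,
    smul_apply, smul_add, Finset.smul_sum]
  abel

end Vale.Agent.P247.H94.LR
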