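import Vale.Agent.P247.H94.LRC3

/-!
# `LRC`: the critical step of the regularity theory
-/

open scoped ContDiff Topology ENNReal NNReal
open Set MeasureTheory Filter Metric
open Vale.Agent.P247.H74 (R4 e)
open Vale.Agent.P363.R.Sob
open Vale.Agent.P247.H306

set_option linter.unusedSectionVars false

noncomputable section

namespace Vale.Agent.P247.H94.LR

open Vale.Agent.P247.H447.E5 (Gar LRC_statement LRk_statement GNS_statement)
open Vale.Agent.P247.H109 (dq)

variable {V W : Type} [NormedAddCommGroup V] [NormedSpace ℝ V] [FiniteDimensional ℝ V]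
  [NormedAddCommGroup W] [NormedSpace ℝ W] [FiniteDimensional ℝ W]

/-- triangle inequality for the five terms -/
theorem five {T T1 T2 T3 T4 T5 : R4 → W} (h : ∀ᵐ x, T x = T1 x + T2 x - T3 x - T4 x - T5 x)
    (h1 : AEStronglyMeasurable T1 volume) (h2 : AEStronglyMeasurable T2 volume)
    (h3 : AEStronglyMeasurable T3 volume) (h4 : AEStronglyMeasurable T4 volume)
    (h5 : AEStronglyMeasurable T5 volume) :
    eLpNorm T 2 volume ≤ eLpNorm T1 2 volume + eLpNorm T2 2 volume + eLpNorm T3 2 volume +
      eLpNorm T4 2 volume + eLpNorm T5 2 volume := by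
  have e1 : eLpNorm T 2 volume = eLpNorm (T1 + T2 - T3 - T4 - T5) 2 volume :=
    eLpNorm_congr_ae h
  rw [e1]
  have one : (1 : ℝ≥0∞) ≤ 2 := by norm_num
  calc eLpNorm (T1 + T2 - T3 - T4 - T5) 2 volume ≤
        eLpNorm (T1 + T2 - T3 - T4) 2 volume + eLpNorm T5 2 volume :=
          eLpNorm_sub_le (((h1.add h2).sub h3).sub h4) h5 one
    _ ≤ (eLpNorm (T1 + T2 - T3) 2 volume + eLpNorm T4 2 volume) + eLpNorm T5 2 volume := by
          gcongr
          exact eLpNorm_sub_le ((h1.add h2).sub h3) h4 one
    _ ≤ ((eLpNorm (T1 + T2) 2 volume + eLpNorm T3 2 volume) + eLpNorm T4 2 volume) +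
          eLpNorm T5 2 volume := by
          gcongr
          exact eLpNorm_sub_le (h1.add h2) h3 one
    _ ≤ _ := by
          gcongr
          exact eLpNorm_add_le h1 h2 one

theorem aesm_clm {A : R4 → (V →L[ℝ] W)} {u : R4 → V} {μ : Measure R4}
    (hA : AEStronglyMeasurable A μ) (hu : AEStronglyMeasurable u μ) :
    AEStronglyMeasurable (fun x => A x (u x)) μ :=
  (ContinuousLinearMap.id ℝ (V →L[ℝ] W)).aestronglyMeasurable_comp₂ hA hu

/-- The bound of the principal part of the cut off difference quotient. -/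
theorem principal {M : Fin 4 → R4 → (V →L[ℝ] W)} (hM : ∀ i, ContDiff ℝ ∞ (M i))
    {A : R4 → (V →L[ℝ] W)} {A' : Fin 4 → R4 → (V →L[ℝ] W)} {f : R4 → W} {f' : Fin 4 → R4 → W}
    {u : R4 → V} {P : Fin 4 → R4 → V} (hA : LL 4 A) (hA' : ∀ i, LL 4 (A' i))
    (wA : ∀ i, IsWD volume (e i) A (A' i)) (hf : LL 2 f) (hf' : ∀ i, LL 2 (f' i))
    (wf : ∀ i, IsWD volume (e i) f (f' i)) (hu : LL 2 u) (hP : ∀ i, LL 2 (P i))
    (wu : ∀ i, IsWD volume (e i) u (P i)) (heq : ∀ᵐ x, ∑ j, M j x (P j x) + A x (u x) = f x)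
    {η : R4 → ℝ} (hη : ContDiff ℝ ∞ η) (hη1 : ∀ x, ‖η x‖ ≤ 1) {K : Set R4} (hK : IsCompact K)
    (h0 : ∀ x, x ∉ K → η x = 0) (h0' : ∀ x, x ∉ K → fderiv ℝ η x = 0) (i : Fin 4) :
    ∃ B : ℝ≥0∞, B ≠ ⊤ ∧ ∀ h : ℝ, h ≠ 0 → |h| ≤ 1 →
      eLpNorm (fun x => ∑ j, M j x (fderiv ℝ η x (e j) • dq h (e i) u x +
        η x • dq h (e i) (P j) x)) 2 volume ≤
      B + eLpNorm A 4 (volume.restrict K) *
        eLpNorm (fun x => η x • dq h (e i) u x) 4 volume := by
  have one2 : (1 : ℝ≥0∞) ≤ 2 := by norm_num
  have one4 : (1 : ℝ≥0∞) ≤ 4 := by norm_num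
  have hK1 : IsCompact (cthickening 1 K) := hK.cthickening
  have hu4 : LL 4 u := sob_LL4 hu hP wu
  have hdη : ∀ j, Continuous fun x => fderiv ℝ η x (e j) := fun j =>
    (hη.continuous_fderiv (by simp)).clm_apply continuous_const
  obtain ⟨c1, hc1⟩ := bdd_on (f := fun x => ∑ j, fderiv ℝ η x (e j) • M j x)
    (continuous_finsetSum _ fun j _ => (hdη j).smul (hM j).continuous) hK
  choose c3 hc3 using fun j => dq_smooth_bdd ((hM j).of_le (by exact_mod_cast le_top)) (norm_e i) hK
  set B : ℝ≥0∞ := c1 * eLpNorm (P i) 2 (volume.restrict (cthickening 1 K)) +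
    eLpNorm (f' i) 2 (volume.restrict (cthickening 1 K)) +
    ∑ j, c3 j * eLpNorm (P j) 2 (volume.restrict (cthickening 1 K)) +
    eLpNorm (A' i) 4 (volume.restrict (cthickening 1 K)) *
      eLpNorm u 4 (volume.restrict (cthickening 1 K)) with hB
  refine ⟨B, ?_, fun h hh hh1 => ?_⟩
  · have t1 : c1 * eLpNorm (P i) 2 (volume.restrict (cthickening 1 K)) ≠ ⊤ :=
      ENNReal.mul_ne_top (by simp) (hP i _ hK1).2.ne
    have t2 : eLpNorm (f' i) 2 (volume.restrict (cthickening 1 K)) ≠ ⊤ := (hf' i _ hK1).2.ne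
    have t3 : ∑ j, c3 j * eLpNorm (P j) 2 (volume.restrict (cthickening 1 K)) ≠ ⊤ := by
      refine ENNReal.sum_ne_top.2 fun j _ => ?_
      exact ENNReal.mul_ne_top (by simp) (hP j _ hK1).2.ne
    have t4 : eLpNorm (A' i) 4 (volume.restrict (cthickening 1 K)) *
      eLpNorm u 4 (volume.restrict (cthickening 1 K)) ≠ ⊤ :=
      ENNReal.mul_ne_top (hA' i _ hK1).2.ne (hu4 _ hK1).2.ne
    exact ENNReal.add_ne_top.2 ⟨ENNReal.add_ne_top.2 ⟨ENNReal.add_ne_top.2 ⟨t1, t2⟩, t3⟩, t4⟩
  · have hn1 : ‖h • (e i : R4)‖ ≤ 1 := by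
      rw [norm_smul, Real.norm_eq_abs]
      calc |h| * ‖(e i : R4)‖ ≤ 1 * 1 := by
            gcongr
            exact norm_e i
        _ = 1 := one_mul 1
    have hid := ident heq η (fun j x => fderiv ℝ η x (e j)) (e i) h
    have au : AEStronglyMeasurable (dq h (e i) u) volume := LL.aesm one2 (LL.dq hu _ _)
    have aM : ∀ j, AEStronglyMeasurable (dq h (e i) (M j)) volume := by
      intro j
      have : Continuous (dq h (e i) (M j)) := by
        unfold Vale.Agent.P247.H109.dq
        have h1 : Continuous fun x : R4 => M j (x + h • (e i : R4)) :=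
          (hM j).continuous.comp (by fun_prop)
        exact (h1.sub (hM j).continuous).const_smul h⁻¹
      exact this.aestronglyMeasurable
    have ash : ∀ {F : Type} [NormedAddCommGroup F] [NormedSpace ℝ F] {w : R4 → F}, LL 2 w →
        AEStronglyMeasurable (fun x => w (x + h • (e i : R4))) volume := fun hw =>
      LL.aesm one2 (LL.trans hw _)
    have m1 : AEStronglyMeasurable
        (fun x => (∑ j, fderiv ℝ η x (e j) • M j x) (dq h (e i) u x)) volume :=
      aesm_clm (continuous_finsetSum _ fun j _ =>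
        (hdη j).smul (hM j).continuous).aestronglyMeasurable au
    have m2 : AEStronglyMeasurable (fun x => η x • dq h (e i) f x) volume :=
      hη.continuous.aestronglyMeasurable.smul (LL.aesm one2 (LL.dq hf _ _))
    have m3' : ∀ j, AEStronglyMeasurable
        (fun x => η x • (dq h (e i) (M j) x) (P j (x + h • (e i : R4)))) volume := fun j =>
      hη.continuous.aestronglyMeasurable.smul (aesm_clm (aM j) (ash (hP j)))
    have m3 : AEStronglyMeasurable
        (fun x => ∑ j, η x • (dq h (e i) (M j) x) (P j (x + h • (e i : R4)))) volume :=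
      Finset.aestronglyMeasurable_fun_sum _ fun j _ => m3' j
    have m4 : AEStronglyMeasurable
        (fun x => η x • (dq h (e i) A x) (u (x + h • (e i : R4)))) volume :=
      hη.continuous.aestronglyMeasurable.smul
        (aesm_clm (LL.aesm one4 (LL.dq hA _ _)) (ash hu))
    have m5 : AEStronglyMeasurable (fun x => A x (η x • dq h (e i) u x)) volume :=
      aesm_clm (LL.aesm one4 hA) (hη.continuous.aestronglyMeasurable.smul au)
    refine (five hid m1 m2 m3 m4 m5).trans ?_
    rw [hB]
    have n1 : eLpNorm (fun x => (∑ j, fderiv ℝ η x (e j) • M j x) (dq h (e i) u x)) 2 volume ≤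
        c1 * eLpNorm (P i) 2 (volume.restrict (cthickening 1 K)) := by
      refine (eLpNorm_le_restrict (f := dq h (e i) u) hK.measurableSet (c := c1)
        (fun x hx => ?_) fun x hx => ?_).trans ?_
      · simp [h0' x hx]
      · exact (ContinuousLinearMap.le_opNorm _ _).trans
          (mul_le_mul_of_nonneg_right (hc1 x hx) (norm_nonneg _))
      · gcongr
        exact Vale.Agent.P247.H109.dq_le' (wu i) one2 (by simp) hu (hP i) (norm_e i) hh hh1 hK
    have n2 : eLpNorm (fun x => η x • dq h (e i) f x) 2 volume ≤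
        eLpNorm (f' i) 2 (volume.restrict (cthickening 1 K)) := by
      have h5 := eLpNorm_le_restrict (p := 2) (f := dq h (e i) f)
        (g := fun x => η x • dq h (e i) f x) hK.measurableSet (c := 1)
        (fun x hx => by rw [h0 x hx, zero_smul]) fun x hx => by
          rw [norm_smul, NNReal.coe_one]
          exact mul_le_mul_of_nonneg_right (hη1 x) (norm_nonneg _)
      rw [ENNReal.coe_one, one_mul] at h5
      exact h5.trans
        (Vale.Agent.P247.H109.dq_le' (wf i) one2 (by simp) hf (hf' i) (norm_e i) hh hh1 hK)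
    have n3 : eLpNorm (fun x => ∑ j, η x • (dq h (e i) (M j) x) (P j (x + h • (e i : R4)))) 2
        volume ≤ ∑ j, c3 j * eLpNorm (P j) 2 (volume.restrict (cthickening 1 K)) := by
      have e2 : (fun x => ∑ j, η x • (dq h (e i) (M j) x) (P j (x + h • (e i : R4)))) =
          ∑ j, fun x => η x • (dq h (e i) (M j) x) (P j (x + h • (e i : R4))) := by
        ext x
        simp only [Finset.sum_apply]
      rw [e2]
      refine (eLpNorm_sum_le (fun j _ => m3' j) one2).trans (Finset.sum_le_sum fun j _ => ?_)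
      refine (eLpNorm_le_restrict (f := fun x => P j (x + h • (e i : R4))) hK.measurableSet
        (c := c3 j) (fun x hx => by rw [h0 x hx, zero_smul]) fun x hx => ?_).trans ?_
      · rw [norm_smul]
        calc ‖η x‖ * ‖(dq h (e i) (M j) x) (P j (x + h • (e i : R4)))‖ ≤
            1 * (c3 j * ‖P j (x + h • (e i : R4))‖) := by
              refine mul_le_mul (hη1 x) ?_ (norm_nonneg _) zero_le_one
              exact (ContinuousLinearMap.le_opNorm _ _).trans
                (mul_le_mul_of_nonneg_right (hc3 j h hh hh1 x hx) (norm_nonneg _))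
          _ = _ := one_mul _
      · gcongr
        exact norm_trans_le (hP j) hK hn1
    have n4 : eLpNorm (fun x => η x • (dq h (e i) A x) (u (x + h • (e i : R4)))) 2 volume ≤
        eLpNorm (A' i) 4 (volume.restrict (cthickening 1 K)) *
          eLpNorm u 4 (volume.restrict (cthickening 1 K)) := by
      have h5 := eLpNorm_le_restrict (p := 2)
        (f := fun x => (dq h (e i) A x) (u (x + h • (e i : R4))))
        (g := fun x => η x • (dq h (e i) A x) (u (x + h • (e i : R4)))) hK.measurableSet (c := 1)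
        (fun x hx => by rw [h0 x hx, zero_smul]) fun x hx => by
          rw [norm_smul, NNReal.coe_one]
          exact mul_le_mul_of_nonneg_right (hη1 x) (norm_nonneg _)
      rw [ENNReal.coe_one, one_mul] at h5
      refine h5.trans ((holder_clm (LL.dq hA _ _ K hK).1 (LL.trans hu4 _ K hK).1).trans ?_)
      gcongr
      · exact Vale.Agent.P247.H109.dq_le' (wA i) one4 (by simp) hA (hA' i) (norm_e i) hh hh1 hK
      · exact norm_trans_le hu4 hK hn1
    have n5 : eLpNorm (fun x => A x (η x • dq h (e i) u x)) 2 volume ≤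
        eLpNorm A 4 (volume.restrict K) *
        eLpNorm (fun x => η x • dq h (e i) u x) 4 volume := by
      have h5 := eLpNorm_le_restrict (p := 2)
        (f := fun x => A x (η x • dq h (e i) u x))
        (g := fun x => A x (η x • dq h (e i) u x)) hK.measurableSet (c := 1)
        (fun x hx => by rw [h0 x hx, zero_smul, map_zero]) fun x hx => by
          rw [NNReal.coe_one, one_mul]
      rw [ENNReal.coe_one, one_mul] at h5
      refine h5.trans ((holder_clm (hA K hK).1
        (hη.continuous.aestronglyMeasurable.smul au).restrict).trans ?_)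
      gcongr
      exact eLpNorm_mono_measure _ Measure.restrict_le_self
    gcongr

end Vale.Agent.P247.H94.LR
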