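import Vale.Agent.P247.H94.Red5

/-!
# Package RED: the Fredholm version of the Borsuk-Ulam theorem over the two-torus follows from
its finite dimensional core
-/

open Set Filter Topology Asymptotics

namespace Vale.Agent.P247.H94

open Vale.Agent.P247.H931 Red

theorem RED : RED_statement := by
  intro hTOP X Y _ _ _ _ _ _ D hD hD1 hD2 hE c hbij ψ₀ φ₀ κ hκ hker hcok hlin hO K hK hK1 hK2
    hKh hKc
  by_contra hcon
  push Not at hcon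
  have I0 : (0 : ℝ) ∈ Icc (0 : ℝ) 1 := ⟨le_rfl, zero_le_one⟩
  have I1 : (1 : ℝ) ∈ Icc (0 : ℝ) 1 := ⟨zero_le_one, le_rfl⟩
  obtain ⟨hψ, hφ⟩ := data_ne (A := D 1) hκ hlin
  have hDs : ∀ s ∈ Icc (0 : ℝ) 1, Continuous (D s) := by
    intro s hs
    rw [← continuousOn_univ]
    have h3 : ContinuousOn (fun ξ : ℝ × ℝ => (s, ξ)) univ :=
      (continuous_const.prodMk continuous_id).continuousOn
    exact ContinuousOn.comp (g := fun p : ℝ × (ℝ × ℝ) => D p.1 p.2) hD h3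
      (fun ξ _ => ⟨hs, mem_univ _⟩)
  -- uniform lower bound
  have hcomp : IsCompact (Icc (0 : ℝ) 1 ×ˢ Q : Set (ℝ × (ℝ × ℝ))) := isCompact_Icc.prod isCompact_Q
  have hDQ : ContinuousOn (fun p : ℝ × (ℝ × ℝ) => D p.1 p.2) (Icc 0 1 ×ˢ Q) :=
    hD.mono (prod_mono Subset.rfl (subset_univ _))
  obtain ⟨F, hFf, δ, hδ, hF⟩ := unif_lower hcomp (fun p : ℝ × (ℝ × ℝ) => D p.1 p.2) hDQ
    (fun p hp => hE p.1 hp.1 p.2)
  have hFall : ∀ s ∈ Icc (0 : ℝ) 1, ∀ ξ, ∀ ψ ∈ Fᗮ, δ * ‖ψ‖ ≤ ‖D s ξ ψ‖ := by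
    intro s hs ξ ψ hψ
    have := hF (s, (Int.fract ξ.1, Int.fract ξ.2)) ⟨hs, fract_mem ξ⟩ ψ hψ
    rwa [per_fract (D s) (hD1 s hs) (hD2 s hs) ξ] at this
  -- uniform finite dimensional complement
  obtain ⟨ξ₁, hξ₁, hξ₁'⟩ := exists_off c
  have hpre : IsPreconnected (Icc (0 : ℝ) 1 ×ˢ Q : Set (ℝ × (ℝ × ℝ))) :=
    ((convex_Icc 0 1).prod ((convex_Icc 0 1).prod (convex_Icc 0 1))).isPreconnected
  obtain ⟨W₁, hW₁f, hW₁⟩ := unif_fin hcomp hpre (fun p : ℝ × (ℝ × ℝ) => D p.1 p.2) hDQ F hδ hF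
    (t₁ := (1, ξ₁)) ⟨I1, hξ₁⟩ ⟨F.map (D 1 ξ₁ : X →ₗ[ℂ] Y), inferInstance, by
      rw [← Submodule.map_sup, sup_comm, Submodule.sup_orthogonal_of_hasOrthogonalProjection,
        Submodule.map_top, LinearMap.range_eq_top]
      exact (hbij ξ₁ hξ₁').2⟩
  have hW₁all : ∀ s ∈ Icc (0 : ℝ) 1, ∀ ξ, (Fᗮ).map (D s ξ : X →ₗ[ℂ] Y) ⊔ W₁ = ⊤ := by
    intro s hs ξ
    have := hW₁ (s, (Int.fract ξ.1, Int.fract ξ.2)) ⟨hs, fract_mem ξ⟩
    rwa [per_fract (D s) (hD1 s hs) (hD2 s hs) ξ] at this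
  -- nonlinear lower bound
  obtain ⟨S₁, hS₁, hKS⟩ := hKc 1
  obtain ⟨ε, hε, hlow⟩ := nonlin_lower (D 0) (hDs 0 I0) (hD1 0 I0) (hD2 0 I0) F hδ
    (hFall 0 I0) K hK hK1 hK2 hKh S₁ hS₁ hKS hcon
  -- finite dimensional approximation
  obtain ⟨W₂, hW₂f, hW₂⟩ := finite_approx K hKh S₁ hS₁ hKS (half_pos hε)
  let W : Submodule ℂ Y := (W₁ ⊔ W₂) ⊔ Submodule.span ℂ {φ₀}
  have hWf : FiniteDimensional ℂ W := by
    have : FiniteDimensional ℂ (Submodule.span ℂ {φ₀}) :=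
      FiniteDimensional.span_of_finite ℂ (finite_singleton _)
    infer_instance
  have hφW : φ₀ ∈ W := (le_sup_right : Submodule.span ℂ {φ₀} ≤ W)
    (Submodule.mem_span_singleton_self φ₀)
  have hW2le : W₂ ≤ W := le_sup_right.trans le_sup_left
  have hW1le : W₁ ≤ W := le_sup_left.trans le_sup_left
  have hWtop : ∀ s ∈ Icc (0 : ℝ) 1, ∀ ξ,
      (⊤ : Submodule ℂ X).map (D s ξ : X →ₗ[ℂ] Y) ⊔ W = ⊤ := by
    intro s hs ξ
    rw [eq_top_iff, ← hW₁all s hs ξ]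
    exact sup_le_sup (Submodule.map_mono le_top) hW1le
  obtain ⟨Tr, hTr, hTr1, hTr2, hTrV⟩ := transport D hD hD1 hD2 W hWtop
  let g : ℝ × ℝ → X → W := fun ξ ψ => W.orthogonalProjectionOnto (D 0 ξ (Tr ξ ψ) + K ξ (Tr ξ ψ))
  have hTrc : Continuous (fun p : (ℝ × ℝ) × X => Tr p.1 p.2) :=
    (hTr.comp continuous_fst).clm_apply continuous_snd
  -- the degenerate operator
  have hcl : IsClosed (((D 1 c).range : Submodule ℂ Y) : Set Y) := by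
    have h1 : (D 1 c).range = (Fᗮ).map (D 1 c : X →ₗ[ℂ] Y) ⊔ F.map (D 1 c : X →ₗ[ℂ] Y) := by
      rw [← Submodule.map_sup, sup_comm, Submodule.sup_orthogonal_of_hasOrthogonalProjection,
        Submodule.map_top]
    rw [h1]
    exact Submodule.isClosed_sup_finiteDimensional _ _
      (closed_image (D 1 c) Fᗮ (Submodule.isClosed_orthogonal F) hδ (hFall 1 I1 c))
  refine assemble hTOP (D 1) (hDs 1 I1) (hD1 1 I1) (hD2 1 I1) c hbij ψ₀ φ₀ κ hκ hψ hφ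
    ((hker ψ₀).mpr ⟨1, by simp⟩) ((hcok φ₀).mpr ⟨1, by simp⟩)
    (M_bijective (D 1 c) hcl ψ₀ φ₀ hψ hφ hker hcok) hlin hO W hφW g ?_ ?_ ?_ ?_ ?_
  · have h1 : Continuous (fun p : (ℝ × ℝ) × X => D 0 p.1 (Tr p.1 p.2)) :=
      ((hDs 0 I0).comp continuous_fst).clm_apply hTrc
    have h2 : Continuous (fun p : (ℝ × ℝ) × X => K p.1 (Tr p.1 p.2)) :=
      hK.comp (continuous_fst.prodMk hTrc)
    exact (W.orthogonalProjectionOnto).continuous.comp (h1.add h2)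
  · intro ξ ψ
    simp only [g]
    rw [hTr1, hK1, hD1 0 I0]
  · intro ξ ψ
    simp only [g]
    rw [hTr2, hK2, hD2 0 I0]
  · intro ξ a ψ
    simp only [g]
    rw [map_smul, map_smul, hKh, ← smul_add, map_smul]
  · intro ξ ψ hV hne h0
    obtain ⟨t1, t2⟩ := hTrV ξ ψ hV hne
    have h1 : W.starProjection (D 0 ξ (Tr ξ ψ) + K ξ (Tr ξ ψ)) = 0 := by
      rw [Submodule.starProjection_apply]
      exact congrArg Subtype.val h0
    rw [map_add, Submodule.starProjection_eq_self_iff.mpr t2] at h1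
    have h2 : D 0 ξ (Tr ξ ψ) + K ξ (Tr ξ ψ) =
        K ξ (Tr ξ ψ) - W.starProjection (K ξ (Tr ξ ψ)) := by
      rw [eq_neg_of_add_eq_zero_left h1]
      abel
    have h3 := hlow ξ (Tr ξ ψ)
    have h4 := hW₂ W hW2le ξ (Tr ξ ψ)
    rw [← h2] at h4
    have h5 : 0 < ‖Tr ξ ψ‖ := norm_pos_iff.mpr t1
    nlinarith

end Vale.Agent.P247.H94
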