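import Mathlib

/-!
# Package RED, part 1: uniform lower bounds and uniform finite cokernels
-/

open Set Filter Topology

namespace Vale.Agent.P247.H94.Red

variable {X Y : Type*} [NormedAddCommGroup X] [InnerProductSpace ℂ X] [CompleteSpace X]
  [NormedAddCommGroup Y] [InnerProductSpace ℂ Y] [CompleteSpace Y]

/-- A compact operator is small on the orthogonal complement of a finite dimensional space. -/
theorem compact_small (j : X →L[ℂ] Y) (hj : IsCompactOperator j) {ε : ℝ} (hε : 0 < ε) :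
    ∃ F : Submodule ℂ X, FiniteDimensional ℂ F ∧ ∀ ψ ∈ Fᗮ, ‖j ψ‖ ≤ ε * ‖ψ‖ := by
  have hK : IsCompact (closure (j '' Metric.closedBall 0 1)) :=
    IsCompactOperator.isCompact_closure_image_closedBall (f := (j : X →ₗ[ℂ] Y)) hj 1
  have htb : TotallyBounded (j '' Metric.closedBall 0 1) :=
    hK.totallyBounded.subset subset_closure
  obtain ⟨t, htf, ht⟩ := Metric.totallyBounded_iff.mp htb ε hε
  refine ⟨Submodule.span ℂ ((ContinuousLinearMap.adjoint j) '' t), ?_, ?_⟩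
  · exact FiniteDimensional.span_of_finite ℂ (htf.image _)
  · have key : ∀ ψ ∈ (Submodule.span ℂ ((ContinuousLinearMap.adjoint j) '' t))ᗮ, ‖ψ‖ ≤ 1 →
        ‖j ψ‖ ≤ ε := by
      intro ψ hψ hn
      have h1 : j ψ ∈ j '' Metric.closedBall 0 1 := ⟨ψ, by simpa using hn, rfl⟩
      obtain ⟨y, hy, hd⟩ := mem_iUnion₂.mp (ht h1)
      have h2 : inner ℂ y (j ψ) = 0 := by
        have h3 := (Submodule.mem_orthogonal _ ψ).mp hψ (ContinuousLinearMap.adjoint j y)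
          (Submodule.subset_span ⟨y, hy, rfl⟩)
        rwa [ContinuousLinearMap.adjoint_inner_left] at h3
      have h4 : ‖j ψ - y‖ * ‖j ψ - y‖ = ‖j ψ‖ * ‖j ψ‖ + ‖y‖ * ‖y‖ := by
        have := norm_sub_sq_real (0:ℝ) 0
        have h5 := @norm_sub_sq ℂ Y _ _ _ (j ψ) y
        have h6 : inner ℂ (j ψ) y = 0 := by rw [← inner_conj_symm, h2, map_zero]
        rw [h6] at h5
        simp only [map_zero, mul_zero, sub_zero] at h5
        nlinarith [h5]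
      have h5 : ‖j ψ - y‖ < ε := by rwa [Metric.mem_ball, dist_eq_norm] at hd
      nlinarith [norm_nonneg (j ψ), norm_nonneg y, norm_nonneg (j ψ - y)]
    intro ψ hψ
    rcases eq_or_ne ψ 0 with rfl | h0
    · simp
    · have hn : 0 < ‖ψ‖ := norm_pos_iff.mpr h0
      have h1 := key (((‖ψ‖⁻¹ : ℝ) : ℂ) • ψ) (Submodule.smul_mem _ _ hψ) (by
        rw [norm_smul, Complex.norm_real, norm_inv, norm_norm, inv_mul_cancel₀ hn.ne'])
      rw [map_smul, norm_smul, Complex.norm_real, norm_inv, norm_norm] at h1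
      rw [inv_mul_le_iff₀ hn] at h1
      linarith [mul_comm ε ‖ψ‖]

/-- Uniform lower bound on the complement of a finite dimensional space, over a compact set. -/
theorem unif_lower {T : Type*} [TopologicalSpace T] {S : Set T} (hS : IsCompact S)
    (D : T → X →L[ℂ] Y) (hD : ContinuousOn D S)
    (hE : ∀ t ∈ S, ∃ C > 0, ∃ j : X →L[ℂ] Y, IsCompactOperator j ∧
      ∀ ψ, ‖ψ‖ ≤ C * (‖D t ψ‖ + ‖j ψ‖)) :
    ∃ F : Submodule ℂ X, FiniteDimensional ℂ F ∧ ∃ δ > 0, ∀ t ∈ S, ∀ ψ ∈ Fᗮ,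
      δ * ‖ψ‖ ≤ ‖D t ψ‖ := by
  refine hS.induction_on (p := fun S => ∃ F : Submodule ℂ X, FiniteDimensional ℂ F ∧
    ∃ δ > 0, ∀ t ∈ S, ∀ ψ ∈ Fᗮ, δ * ‖ψ‖ ≤ ‖D t ψ‖) ?_ ?_ ?_ ?_
  · exact ⟨⊥, inferInstance, 1, one_pos, fun t ht => absurd ht (Set.notMem_empty t)⟩
  · rintro s t hst ⟨F, hF, δ, hδ, h⟩
    exact ⟨F, hF, δ, hδ, fun x hx => h x (hst hx)⟩
  · rintro s t ⟨F, hF, δ, hδ, h⟩ ⟨F', hF', δ', hδ', h'⟩
    refine ⟨F ⊔ F', inferInstance, min δ δ', lt_min hδ hδ', ?_⟩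
    rintro x (hx | hx) ψ hψ
    · have h1 : ψ ∈ Fᗮ := Submodule.orthogonal_le le_sup_left hψ
      exact (mul_le_mul_of_nonneg_right (min_le_left _ _) (norm_nonneg _)).trans (h x hx ψ h1)
    · have h1 : ψ ∈ F'ᗮ := Submodule.orthogonal_le le_sup_right hψ
      exact (mul_le_mul_of_nonneg_right (min_le_right _ _) (norm_nonneg _)).trans (h' x hx ψ h1)
  · intro x hx
    obtain ⟨C, hC, j, hj, hb⟩ := hE x hx
    obtain ⟨F, hF, hFj⟩ := compact_small j hj (ε := (2 * C)⁻¹) (by positivity)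
    have h1 : ∀ ψ ∈ Fᗮ, (2 * C)⁻¹ * ‖ψ‖ ≤ ‖D x ψ‖ := by
      intro ψ hψ
      have h2 := hb ψ
      have h3 := hFj ψ hψ
      have h4 : ‖ψ‖ ≤ C * ‖D x ψ‖ + 1 / 2 * ‖ψ‖ := by
        calc ‖ψ‖ ≤ C * (‖D x ψ‖ + ‖j ψ‖) := h2
          _ ≤ C * (‖D x ψ‖ + (2 * C)⁻¹ * ‖ψ‖) := by gcongr
          _ = C * ‖D x ψ‖ + 1 / 2 * ‖ψ‖ := by field_simp
      rw [inv_mul_le_iff₀ (by positivity)]
      linarith
    have h2 : Tendsto (fun t => ‖D t - D x‖) (𝓝[S] x) (𝓝 0) := by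
      have := (hD x hx).tendsto.sub_const (D x)
      rw [sub_self] at this
      simpa using this.norm
    have h3 : ∀ᶠ t in 𝓝[S] x, ‖D t - D x‖ < (4 * C)⁻¹ :=
      h2.eventually_lt_const (by positivity)
    refine ⟨{t | ‖D t - D x‖ < (4 * C)⁻¹}, h3, F, hF, (4 * C)⁻¹, by positivity, ?_⟩
    intro t ht ψ hψ
    have h4 : ‖D x ψ‖ ≤ ‖D t ψ‖ + (4 * C)⁻¹ * ‖ψ‖ := by
      calc ‖D x ψ‖ = ‖D t ψ - (D t - D x) ψ‖ := by simp
        _ ≤ ‖D t ψ‖ + ‖(D t - D x) ψ‖ := norm_sub_le _ _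
        _ ≤ ‖D t ψ‖ + ‖D t - D x‖ * ‖ψ‖ := by gcongr; exact (D t - D x).le_opNorm ψ
        _ ≤ ‖D t ψ‖ + (4 * C)⁻¹ * ‖ψ‖ := by gcongr; exact le_of_lt ht
    have h5 := h1 ψ hψ
    have h6 : (2 * C)⁻¹ = (4 * C)⁻¹ + (4 * C)⁻¹ := by field_simp; norm_num
    rw [h6] at h5
    linarith

omit [CompleteSpace Y] in
/-- The image of a closed subspace under a bounded below operator is closed. -/
theorem closed_image (A : X →L[ℂ] Y) (V : Submodule ℂ X) (hV : IsClosed (V : Set X)) {δ : ℝ}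
    (hδ : 0 < δ) (h : ∀ ψ ∈ V, δ * ‖ψ‖ ≤ ‖A ψ‖) :
    IsClosed ((V.map (A : X →ₗ[ℂ] Y) : Submodule ℂ Y) : Set Y) := by
  have : CompleteSpace V := hV.completeSpace_coe
  have h1 : ∀ v : V, ‖v‖ ≤ δ⁻¹ * ‖(A.comp V.subtypeL) v‖ := by
    intro v
    have := h v v.2
    rw [← div_eq_inv_mul, le_div_iff₀ hδ, mul_comm]
    exact this
  have h2 : AntilipschitzWith (Real.toNNReal δ⁻¹) (A.comp V.subtypeL) := by
    refine AddMonoidHomClass.antilipschitz_of_bound _ ?_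
    intro v
    rw [Real.coe_toNNReal _ (by positivity)]
    exact h1 v
  have h3 := h2.isClosed_range (A.comp V.subtypeL).uniformContinuous
  convert h3 using 1
  ext y
  constructor
  · rintro ⟨x, hx, rfl⟩
    exact ⟨⟨x, hx⟩, rfl⟩
  · rintro ⟨x, rfl⟩
    exact ⟨x, x.2, rfl⟩

/-- Local step: near `x` the cokernels of the restricted operators are compared with the
orthogonal complement of the range at `x`. -/
theorem local_fin {T : Type*} [TopologicalSpace T] {S : Set T}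
    (D : T → X →L[ℂ] Y) (hD : ContinuousOn D S) (F : Submodule ℂ X) {δ : ℝ} (hδ : 0 < δ)
    (h : ∀ t ∈ S, ∀ ψ ∈ Fᗮ, δ * ‖ψ‖ ≤ ‖D t ψ‖) {x : T} (hx : x ∈ S) :
    ∀ᶠ t in 𝓝[S] x,
      (∀ W : Submodule ℂ Y, FiniteDimensional ℂ W →
        (Fᗮ).map (D t : X →ₗ[ℂ] Y) ⊔ W = ⊤ →
        FiniteDimensional ℂ ((Fᗮ).map (D x : X →ₗ[ℂ] Y))ᗮ) ∧
      (Fᗮ).map (D t : X →ₗ[ℂ] Y) ⊔ ((Fᗮ).map (D x : X →ₗ[ℂ] Y))ᗮ = ⊤ := by
  set R : Submodule ℂ Y := (Fᗮ).map (D x : X →ₗ[ℂ] Y) with hR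
  have hRc : IsClosed (R : Set Y) :=
    closed_image (D x) Fᗮ (Submodule.isClosed_orthogonal F) hδ (h x hx)
  have : CompleteSpace R := hRc.completeSpace_coe
  set N : Submodule ℂ Y := Rᗮ with hN
  let Φ : T → ((Fᗮ : Submodule ℂ X) × N →L[ℂ] Y) := fun t =>
    ((D t).comp (Fᗮ).subtypeL).coprod N.subtypeL
  have hΦ : ∀ t z n, Φ t (z, n) = D t (z : X) + (n : Y) := fun t z n => by
    simp [Φ]
  have hΦc : ContinuousOn Φ S := by
    have h1 : Φ = fun t => ((D t).comp (Fᗮ).subtypeL).comp (ContinuousLinearMap.fst ℂ _ _)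
        + (N.subtypeL).comp (ContinuousLinearMap.snd ℂ _ _) := by
      funext t
      ext p <;> simp [Φ]
    rw [h1]
    exact ((hD.clm_comp continuousOn_const).clm_comp continuousOn_const).add continuousOn_const
  have hinj : Function.Injective (Φ x) := by
    rw [injective_iff_map_eq_zero]
    rintro ⟨z, n⟩ hz
    rw [hΦ] at hz
    have h1 : D x (z : X) ∈ R := ⟨z, z.2, rfl⟩
    have h2 : (n : Y) = 0 := by
      have h3 : (n : Y) ∈ R := by
        have : (n : Y) = -(D x (z : X)) := by rw [← add_eq_zero_iff_eq_neg']; exact hz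
        rw [this]; exact neg_mem h1
      have h4 : (n : Y) ∈ Rᗮ := n.2
      have h5 := (Submodule.mem_orthogonal R (n : Y)).mp h4 _ h3
      exact inner_self_eq_zero.mp h5
    have h3 : D x (z : X) = 0 := by rw [h2, add_zero] at hz; exact hz
    have h4 := h x hx z z.2
    rw [h3, norm_zero] at h4
    have h5 : ‖(z : X)‖ ≤ 0 := by
      by_contra hc
      push Not at hc
      nlinarith
    have h6 : (z : X) = 0 := norm_le_zero_iff.mp h5
    ext <;> simp [h6, h2]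
  have hsurj : Function.Surjective (Φ x) := by
    intro y
    have h1 : y - (R.starProjection y) ∈ N := R.sub_starProjection_mem_orthogonal y
    have h2 : R.starProjection y ∈ R := R.starProjection_apply_mem y
    obtain ⟨z, hz, hzy⟩ := h2
    refine ⟨(⟨z, hz⟩, ⟨_, h1⟩), ?_⟩
    rw [hΦ]
    have : D x z = R.starProjection y := hzy
    simp [this]
  let e : ((Fᗮ : Submodule ℂ X) × N) ≃L[ℂ] Y :=
    ContinuousLinearEquiv.ofBijective (Φ x) (LinearMap.ker_eq_bot.mpr hinj)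
      (LinearMap.range_eq_top.mpr hsurj)
  have hopen : IsOpen (range ((↑) : (((Fᗮ : Submodule ℂ X) × N) ≃L[ℂ] Y) →
    (((Fᗮ : Submodule ℂ X) × N) →L[ℂ] Y))) := ContinuousLinearEquiv.isOpen
  have hmem : Φ x ∈ range ((↑) : (((Fᗮ : Submodule ℂ X) × N) ≃L[ℂ] Y) →
    (((Fᗮ : Submodule ℂ X) × N) →L[ℂ] Y)) :=
    ⟨e, ContinuousLinearEquiv.coe_ofBijective _ _ _⟩
  have hev := (hΦc x hx).tendsto.eventually (hopen.mem_nhds hmem)
  filter_upwards [hev] with t ht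
  obtain ⟨e', he'⟩ := ht
  have he'' : ∀ p, e' p = Φ t p := fun p => by rw [← he']; rfl
  refine ⟨?_, ?_⟩
  · intro W hW htop
    let f : W →ₗ[ℂ] N := (LinearMap.snd ℂ (Fᗮ : Submodule ℂ X) N) ∘ₗ
      (e'.symm.toLinearEquiv : Y →ₗ[ℂ] _) ∘ₗ W.subtype
    have hf : Function.Surjective f := by
      intro n
      have h1 : (n : Y) ∈ (Fᗮ).map (D t : X →ₗ[ℂ] Y) ⊔ W := by rw [htop]; trivial
      obtain ⟨a, ⟨z, hz, rfl⟩, w, hw, haw⟩ := Submodule.mem_sup.mp h1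
      refine ⟨⟨w, hw⟩, ?_⟩
      have h2 : e'.symm w = (-⟨z, hz⟩, n) := by
        rw [ContinuousLinearEquiv.symm_apply_eq, he'', hΦ]
        rw [← haw]
        simp
      change (e'.symm w).2 = n
      rw [h2]
    exact Module.Finite.of_surjective f hf
  · rw [eq_top_iff]
    intro y _
    obtain ⟨⟨z, n⟩, hzn⟩ := e'.surjective y
    rw [he'', hΦ] at hzn
    rw [← hzn]
    exact Submodule.add_mem_sup ⟨z, z.2, rfl⟩ n.2

/-- One finite dimensional complement for all parameters of a compact connected set. -/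
theorem unif_fin {T : Type*} [TopologicalSpace T] {S : Set T} (hS : IsCompact S)
    (hc : IsPreconnected S)
    (D : T → X →L[ℂ] Y) (hD : ContinuousOn D S) (F : Submodule ℂ X) {δ : ℝ} (hδ : 0 < δ)
    (h : ∀ t ∈ S, ∀ ψ ∈ Fᗮ, δ * ‖ψ‖ ≤ ‖D t ψ‖) {t₁ : T} (ht₁ : t₁ ∈ S)
    (h₁ : ∃ W : Submodule ℂ Y, FiniteDimensional ℂ W ∧
      (Fᗮ).map (D t₁ : X →ₗ[ℂ] Y) ⊔ W = ⊤) :
    ∃ W : Submodule ℂ Y, FiniteDimensional ℂ W ∧ ∀ t ∈ S,
      (Fᗮ).map (D t : X →ₗ[ℂ] Y) ⊔ W = ⊤ := by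
  have hps : PreconnectedSpace S := Subtype.preconnectedSpace hc
  let f : S → Prop := fun t => ∃ W : Submodule ℂ Y, FiniteDimensional ℂ W ∧
      (Fᗮ).map (D t : X →ₗ[ℂ] Y) ⊔ W = ⊤
  have hloc : IsLocallyConstant f := by
    rw [IsLocallyConstant.iff_eventually_eq]
    intro x
    have h1 := local_fin D hD F hδ h x.2
    have h2 := h1.self_of_nhdsWithin x.2
    have h4 : Tendsto (fun t : S => (t : T)) (𝓝 x) (𝓝[S] (x : T)) := by
      rw [nhds_subtype_eq_comap_nhdsWithin]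
      exact tendsto_comap
    filter_upwards [h4.eventually h1] with t ht
    refine propext ⟨?_, ?_⟩
    · rintro ⟨W, hW, hWt⟩
      exact ⟨_, ht.1 W hW hWt, h2.2⟩
    · rintro ⟨W, hW, hWt⟩
      exact ⟨_, h2.1 W hW hWt, ht.2⟩
  have hall : ∀ t : S, f t := by
    intro t
    have := hloc.apply_eq_of_preconnectedSpace t ⟨t₁, ht₁⟩
    rw [this]
    exact h₁
  have hfd : ∀ x ∈ S, FiniteDimensional ℂ ((Fᗮ).map (D x : X →ₗ[ℂ] Y))ᗮ := by
    intro x hx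
    obtain ⟨W, hW, hWt⟩ := hall ⟨x, hx⟩
    exact ((local_fin D hD F hδ h hx).self_of_nhdsWithin hx).1 W hW hWt
  refine hS.induction_on (p := fun S => ∃ W : Submodule ℂ Y, FiniteDimensional ℂ W ∧ ∀ t ∈ S,
      (Fᗮ).map (D t : X →ₗ[ℂ] Y) ⊔ W = ⊤) ?_ ?_ ?_ ?_
  · exact ⟨⊥, inferInstance, fun t ht => absurd ht (Set.notMem_empty t)⟩
  · rintro s t hst ⟨W, hW, h'⟩
    exact ⟨W, hW, fun x hx => h' x (hst hx)⟩
  · rintro s t ⟨W, hW, h'⟩ ⟨W', hW', h''⟩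
    refine ⟨W ⊔ W', inferInstance, ?_⟩
    rintro x (hx | hx)
    · rw [eq_top_iff, ← h' x hx]
      exact sup_le_sup_left le_sup_left _
    · rw [eq_top_iff, ← h'' x hx]
      exact sup_le_sup_left le_sup_right _
  · intro x hx
    have h1 := local_fin D hD F hδ h hx
    exact ⟨_, h1, _, hfd x hx, fun t ht => ht.2⟩

end Vale.Agent.P247.H94.Red
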