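import Mathlib

/-!
# Package RED, part 2: norm continuous projections onto `A⁻¹(W)`
-/

open Set Filter Topology

namespace Vale.Agent.P247.H94.Red

variable {X Y : Type*} [NormedAddCommGroup X] [InnerProductSpace ℂ X] [CompleteSpace X]
  [NormedAddCommGroup Y] [InnerProductSpace ℂ Y] [CompleteSpace Y]

/-- `(1 - P_W) A` as an operator to the orthogonal complement of `W`. -/
noncomputable def Bop (W : Submodule ℂ Y) [FiniteDimensional ℂ W] (A : X →L[ℂ] Y) :
    X →L[ℂ] (Wᗮ : Submodule ℂ Y) :=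
  (Wᗮ).orthogonalProjectionOnto ∘L A

/-- The Gram operator of `Bop`. -/
noncomputable def Gop (W : Submodule ℂ Y) [FiniteDimensional ℂ W] (A : X →L[ℂ] Y) :
    (Wᗮ : Submodule ℂ Y) →L[ℂ] (Wᗮ : Submodule ℂ Y) :=
  Bop W A ∘L ContinuousLinearMap.adjoint (Bop W A)

/-- The projection onto `A⁻¹(W)`. -/
noncomputable def Pop (W : Submodule ℂ Y) [FiniteDimensional ℂ W] (A : X →L[ℂ] Y) : X →L[ℂ] X :=
  1 - ContinuousLinearMap.adjoint (Bop W A) ∘L Ring.inverse (Gop W A) ∘L Bop W A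

omit [CompleteSpace X] [CompleteSpace Y] in
theorem Bop_eq_zero (W : Submodule ℂ Y) [FiniteDimensional ℂ W] (A : X →L[ℂ] Y) (ψ : X) :
    Bop W A ψ = 0 ↔ A ψ ∈ W := by
  unfold Bop
  rw [ContinuousLinearMap.comp_apply, Submodule.orthogonalProjectionOnto_eq_zero_iff,
    Submodule.orthogonal_orthogonal]

omit [CompleteSpace X] [CompleteSpace Y] in
theorem Bop_surj (W : Submodule ℂ Y) [FiniteDimensional ℂ W] (A : X →L[ℂ] Y)
    (h : (⊤ : Submodule ℂ X).map (A : X →ₗ[ℂ] Y) ⊔ W = ⊤) : Function.Surjective (Bop W A) := by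
  intro z
  have h1 : (z : Y) ∈ (⊤ : Submodule ℂ X).map (A : X →ₗ[ℂ] Y) ⊔ W := by rw [h]; trivial
  obtain ⟨a, ⟨x, -, rfl⟩, w, hw, haw⟩ := Submodule.mem_sup.mp h1
  refine ⟨x, ?_⟩
  unfold Bop
  rw [ContinuousLinearMap.comp_apply]
  have h2 : A x = (z : Y) - w := by rw [← haw]; simp
  have h3 : (Wᗮ).orthogonalProjectionOnto w = 0 := by
    rw [Submodule.orthogonalProjectionOnto_eq_zero_iff, Submodule.orthogonal_orthogonal]
    exact hw
  rw [h2, map_sub, h3, sub_zero, Submodule.orthogonalProjectionOnto_mem_subspace_eq_self]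

/-- `B B^*` is invertible when `B` is onto. -/
theorem gram_isUnit {Z : Type*} [NormedAddCommGroup Z] [InnerProductSpace ℂ Z] [CompleteSpace Z]
    (B : X →L[ℂ] Z) (hB : Function.Surjective B) :
    IsUnit (B ∘L ContinuousLinearMap.adjoint B) := by
  set G := B ∘L ContinuousLinearMap.adjoint B with hG
  have hGi : ∀ z : Z, inner ℂ z (G z) = (‖ContinuousLinearMap.adjoint B z‖ : ℂ) ^ 2 := by
    intro z
    rw [hG, ContinuousLinearMap.comp_apply, ← ContinuousLinearMap.adjoint_inner_left,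
      inner_self_eq_norm_sq_to_K]
    rfl
  obtain ⟨C, hC, hpre⟩ := ContinuousLinearMap.exists_preimage_norm_le B hB
  have h1 : ∀ z : Z, ‖z‖ ≤ C * ‖ContinuousLinearMap.adjoint B z‖ := by
    intro z
    rcases eq_or_ne z 0 with rfl | h0
    · simp
    obtain ⟨x, hx, hxn⟩ := hpre z
    have hz : 0 < ‖z‖ := norm_pos_iff.mpr h0
    have h2 : ‖z‖ * ‖z‖ = ‖inner ℂ (ContinuousLinearMap.adjoint B z) x‖ := by
      rw [ContinuousLinearMap.adjoint_inner_left, hx, inner_self_eq_norm_sq_to_K]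
      simp [sq]
    have h3 : ‖inner ℂ (ContinuousLinearMap.adjoint B z) x‖ ≤
      ‖ContinuousLinearMap.adjoint B z‖ * (C * ‖z‖) :=
      (norm_inner_le_norm _ _).trans (mul_le_mul_of_nonneg_left hxn (norm_nonneg _))
    rw [← h2] at h3
    have h4 : ‖z‖ * ‖z‖ ≤ (C * ‖ContinuousLinearMap.adjoint B z‖) * ‖z‖ := by
      linarith [mul_comm (‖ContinuousLinearMap.adjoint B z‖) (C * ‖z‖),
        show C * ‖ContinuousLinearMap.adjoint B z‖ * ‖z‖ =
          ‖ContinuousLinearMap.adjoint B z‖ * (C * ‖z‖) by ring]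
    exact le_of_mul_le_mul_right h4 hz
  have h2 : ∀ z : Z, ‖z‖ ≤ C ^ 2 * ‖G z‖ := by
    intro z
    rcases eq_or_ne z 0 with rfl | h0
    · simp
    have hz : 0 < ‖z‖ := norm_pos_iff.mpr h0
    have h3 : ‖ContinuousLinearMap.adjoint B z‖ ^ 2 ≤ ‖z‖ * ‖G z‖ := by
      have h4 : ‖inner ℂ z (G z)‖ ≤ ‖z‖ * ‖G z‖ := norm_inner_le_norm _ _
      rw [hGi, norm_pow, Complex.norm_real, norm_norm] at h4
      exact h4
    have h5 := h1 z
    have h6 : ‖z‖ * ‖z‖ ≤ C ^ 2 * (‖z‖ * ‖G z‖) := by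
      calc ‖z‖ * ‖z‖ ≤ (C * ‖ContinuousLinearMap.adjoint B z‖) *
            (C * ‖ContinuousLinearMap.adjoint B z‖) := by gcongr
        _ = C ^ 2 * ‖ContinuousLinearMap.adjoint B z‖ ^ 2 := by ring
        _ ≤ _ := by gcongr
    have h7 : ‖z‖ * ‖z‖ ≤ (C ^ 2 * ‖G z‖) * ‖z‖ := by
      linarith [show C ^ 2 * (‖z‖ * ‖G z‖) = (C ^ 2 * ‖G z‖) * ‖z‖ by ring]
    exact le_of_mul_le_mul_right h7 hz
  have hanti : AntilipschitzWith (Real.toNNReal (C ^ 2)) G := by
    refine AddMonoidHomClass.antilipschitz_of_bound _ ?_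
    intro v
    rw [Real.coe_toNNReal _ (by positivity)]
    exact h2 v
  rw [ContinuousLinearMap.isUnit_iff_bijective]
  refine ⟨hanti.injective, ?_⟩
  have hcl : IsClosed ((G.range : Submodule ℂ Z) : Set Z) := by
    have h3 := hanti.isClosed_range G.uniformContinuous
    convert h3 using 1
    ext y
    rfl
  have : CompleteSpace G.range := hcl.completeSpace_coe
  have hort : (G.range)ᗮ = ⊥ := by
    rw [Submodule.eq_bot_iff]
    intro y hy
    have h3 := (Submodule.mem_orthogonal' _ _).mp hy (G y) ⟨y, rfl⟩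
    rw [hGi] at h3
    have h4 : ‖ContinuousLinearMap.adjoint B y‖ = 0 := by
      have := pow_eq_zero_iff (two_ne_zero) |>.mp h3
      exact_mod_cast this
    have h5 := h1 y
    rw [h4, mul_zero] at h5
    exact norm_le_zero_iff.mp h5
  have htop := Submodule.orthogonal_eq_bot_iff.mp hort
  intro y
  have : y ∈ G.range := by rw [htop]; trivial
  exact this

theorem Gop_isUnit (W : Submodule ℂ Y) [FiniteDimensional ℂ W] (A : X →L[ℂ] Y)
    (h : (⊤ : Submodule ℂ X).map (A : X →ₗ[ℂ] Y) ⊔ W = ⊤) : IsUnit (Gop W A) :=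
  gram_isUnit _ (Bop_surj W A h)

theorem Pop_mem (W : Submodule ℂ Y) [FiniteDimensional ℂ W] (A : X →L[ℂ] Y)
    (h : IsUnit (Gop W A)) (ψ : X) : A (Pop W A ψ) ∈ W := by
  rw [← Bop_eq_zero]
  have h1 : Gop W A * Ring.inverse (Gop W A) = 1 := Ring.mul_inverse_cancel _ h
  have h2 : Gop W A (Ring.inverse (Gop W A) (Bop W A ψ)) = Bop W A ψ := by
    have := congrArg (fun f => f (Bop W A ψ)) h1
    exact this
  unfold Pop
  rw [sub_apply, map_sub]
  simp only [one_apply_eq_self, ContinuousLinearMap.comp_apply]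
  rw [sub_eq_zero]
  exact h2.symm

theorem Pop_eq (W : Submodule ℂ Y) [FiniteDimensional ℂ W] (A : X →L[ℂ] Y) (ψ : X)
    (hψ : A ψ ∈ W) : Pop W A ψ = ψ := by
  rw [← Bop_eq_zero] at hψ
  unfold Pop
  simp [hψ]

theorem continuousOn_Pop {T : Type*} [TopologicalSpace T] {S : Set T} (W : Submodule ℂ Y)
    [FiniteDimensional ℂ W] (D : T → X →L[ℂ] Y) (hD : ContinuousOn D S)
    (h : ∀ t ∈ S, IsUnit (Gop W (D t))) : ContinuousOn (fun t => Pop W (D t)) S := by
  have h1 : ContinuousOn (fun t => Bop W (D t)) S := continuousOn_const.clm_comp hD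
  have h2 : ContinuousOn (fun t => ContinuousLinearMap.adjoint (Bop W (D t))) S :=
    (ContinuousLinearMap.adjoint (𝕜 := ℂ) (E := X)
      (F := (Wᗮ : Submodule ℂ Y))).continuous.comp_continuousOn h1
  have h3 : ContinuousOn (fun t => Gop W (D t)) S := h1.clm_comp h2
  have h4 : ContinuousOn (fun t => Ring.inverse (Gop W (D t))) S := by
    intro t ht
    obtain ⟨u, hu⟩ := h t ht
    have h5 := NormedRing.inverse_continuousAt
      (R := (Wᗮ : Submodule ℂ Y) →L[ℂ] (Wᗮ : Submodule ℂ Y)) u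
    rw [hu] at h5
    exact ContinuousAt.comp_continuousWithinAt (f := fun t => Gop W (D t)) h5 (h3 t ht)
  exact continuousOn_const.sub (h2.clm_comp (h4.clm_comp h1))

end Vale.Agent.P247.H94.Red
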