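import Vale.Agent.P247.H94.Red1
import Vale.Agent.P247.H94.Red2

/-!
# Package RED, part 3: compactness of the nonlinear problem, transport of the kernels
-/

open Set Filter Topology

namespace Vale.Agent.P247.H94.Red

variable {X Y : Type*} [NormedAddCommGroup X] [InnerProductSpace ℂ X] [CompleteSpace X]
  [NormedAddCommGroup Y] [InnerProductSpace ℂ Y] [CompleteSpace Y]

/-- Reduction of a doubly periodic function to the unit square. -/
theorem per_fract {α : Sort*} (f : ℝ × ℝ → α) (h1 : ∀ ξ, f (ξ + (1, 0)) = f ξ)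
    (h2 : ∀ ξ, f (ξ + (0, 1)) = f ξ) (ξ : ℝ × ℝ) :
    f (Int.fract ξ.1, Int.fract ξ.2) = f ξ := by
  have e1 : ∀ (n : ℕ) (ξ : ℝ × ℝ), f (ξ + ((n : ℝ), 0)) = f ξ := by
    intro n
    induction n with
    | zero => intro ξ; congr 1; ext <;> simp
    | succ n ih =>
      intro ξ
      rw [← ih ξ, ← h1 (ξ + ((n : ℝ), 0))]
      congr 1
      ext <;> simp [add_assoc]
  have e2 : ∀ (n : ℕ) (ξ : ℝ × ℝ), f (ξ + (0, (n : ℝ))) = f ξ := by
    intro n
    induction n with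
    | zero => intro ξ; congr 1; ext <;> simp
    | succ n ih =>
      intro ξ
      rw [← ih ξ, ← h2 (ξ + (0, (n : ℝ)))]
      congr 1
      ext <;> simp [add_assoc]
  have e3 : ∀ (n : ℤ) (ξ : ℝ × ℝ), f (ξ + ((n : ℝ), 0)) = f ξ := by
    intro n ξ
    obtain ⟨m, rfl | rfl⟩ := n.eq_nat_or_neg
    · simpa using e1 m ξ
    · have := e1 m (ξ + (((-(m : ℤ) : ℤ) : ℝ), 0))
      rw [← this]
      congr 1
      ext <;> simp
  have e4 : ∀ (n : ℤ) (ξ : ℝ × ℝ), f (ξ + (0, (n : ℝ))) = f ξ := by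
    intro n ξ
    obtain ⟨m, rfl | rfl⟩ := n.eq_nat_or_neg
    · simpa using e2 m ξ
    · have := e2 m (ξ + (0, ((-(m : ℤ) : ℤ) : ℝ)))
      rw [← this]
      congr 1
      ext <;> simp
  have h3 := e3 (-⌊ξ.1⌋) ξ
  have h4 := e4 (-⌊ξ.2⌋) (ξ + (((-⌊ξ.1⌋ : ℤ) : ℝ), 0))
  rw [h3] at h4
  rw [← h4]
  congr 1
  ext
  · have := Int.self_sub_floor ξ.1
    simp
    linarith
  · have := Int.self_sub_floor ξ.2
    simp
    linarith

/-- The unit square. -/
def Q : Set (ℝ × ℝ) := Icc (0 : ℝ) 1 ×ˢ Icc (0 : ℝ) 1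

theorem isCompact_Q : IsCompact Q := isCompact_Icc.prod isCompact_Icc

theorem fract_mem (ξ : ℝ × ℝ) : (Int.fract ξ.1, Int.fract ξ.2) ∈ Q :=
  ⟨⟨Int.fract_nonneg _, (Int.fract_lt_one _).le⟩, ⟨Int.fract_nonneg _, (Int.fract_lt_one _).le⟩⟩

omit [CompleteSpace Y] in
/-- The nonlinear lower bound. -/
theorem nonlin_lower (A : ℝ × ℝ → X →L[ℂ] Y) (hA : Continuous A)
    (hA1 : ∀ ξ, A (ξ + (1, 0)) = A ξ) (hA2 : ∀ ξ, A (ξ + (0, 1)) = A ξ)
    (F : Submodule ℂ X) [FiniteDimensional ℂ F] {δ : ℝ} (hδ : 0 < δ)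
    (hF : ∀ ξ, ∀ ψ ∈ Fᗮ, δ * ‖ψ‖ ≤ ‖A ξ ψ‖)
    (K : ℝ × ℝ → X → Y) (hK : Continuous (fun p : (ℝ × ℝ) × X => K p.1 p.2))
    (hK1 : ∀ ξ ψ, K (ξ + (1, 0)) ψ = K ξ ψ) (hK2 : ∀ ξ ψ, K (ξ + (0, 1)) ψ = K ξ ψ)
    (hKh : ∀ ξ (a : ℂ) ψ, K ξ (a • ψ) = a • K ξ ψ)
    (S₁ : Set Y) (hS₁ : IsCompact S₁) (hKS : ∀ ξ ψ, ‖ψ‖ ≤ 1 → K ξ ψ ∈ S₁)
    (hno : ∀ ξ, ∀ ψ ≠ 0, A ξ ψ + K ξ ψ ≠ 0) :
    ∃ ε > 0, ∀ ξ ψ, ε * ‖ψ‖ ≤ ‖A ξ ψ + K ξ ψ‖ := by
  have main : ∃ ε > 0, ∀ ξ ∈ Q, ∀ ψ, ‖ψ‖ = 1 → ε ≤ ‖A ξ ψ + K ξ ψ‖ := by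
    by_contra hcon
    push Not at hcon
    have hseq : ∀ n : ℕ, ∃ ξ ∈ Q, ∃ ψ : X, ‖ψ‖ = 1 ∧ ‖A ξ ψ + K ξ ψ‖ < 1 / ((n : ℝ) + 1) :=
      fun n => hcon _ (by positivity)
    choose ξ hξ ψ hψ hlt using hseq
    -- the triple
    let u : ℕ → (ℝ × ℝ) × Y × F := fun n =>
      (ξ n, K (ξ n) (ψ n), F.orthogonalProjectionOnto (ψ n))
    have hu : ∀ n, u n ∈ Q ×ˢ S₁ ×ˢ Metric.closedBall (0 : F) 1 := by
      intro n
      refine ⟨hξ n, hKS _ _ (hψ n).le, ?_⟩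
      have h1 : ‖F.orthogonalProjectionOnto (ψ n)‖ ≤ 1 := by
        have := F.norm_orthogonalProjectionOnto_apply_le (ψ n)
        rwa [hψ n] at this
      rw [mem_closedBall_zero_iff]
      exact h1
    have hcomp : IsCompact (Q ×ˢ S₁ ×ˢ Metric.closedBall (0 : F) 1) :=
      isCompact_Q.prod (hS₁.prod (isCompact_closedBall _ _))
    obtain ⟨⟨ξ', y', f'⟩, -, φ, hφ, hlim⟩ := hcomp.tendsto_subseq hu
    have l1 := (Prod.tendsto_iff _ _).mp hlim |>.1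
    have l2 := (Prod.tendsto_iff _ _).mp ((Prod.tendsto_iff _ _).mp hlim).2 |>.1
    have l3 := (Prod.tendsto_iff _ _).mp ((Prod.tendsto_iff _ _).mp hlim).2 |>.2
    simp only [u, Function.comp_def] at l1 l2 l3
    have hφt : Tendsto φ atTop atTop := hφ.tendsto_atTop
    have l0 : Tendsto (fun n => A (ξ (φ n)) (ψ (φ n)) + K (ξ (φ n)) (ψ (φ n))) atTop (𝓝 0) := by
      rw [tendsto_zero_iff_norm_tendsto_zero]
      have h1 : Tendsto (fun n : ℕ => 1 / ((φ n : ℝ) + 1)) atTop (𝓝 0) :=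
        tendsto_one_div_add_atTop_nhds_zero_nat.comp hφt
      exact squeeze_zero (fun _ => norm_nonneg _) (fun n => (hlt (φ n)).le) h1
    have l4 : Tendsto (fun n => A (ξ (φ n)) (ψ (φ n))) atTop (𝓝 (-y')) := by
      have := l0.sub l2
      simpa using this
    have l5 : Tendsto (fun n => ‖A (ξ (φ n)) - A ξ'‖) atTop (𝓝 0) := by
      have h1 : Tendsto (fun n => A (ξ (φ n)) - A ξ') atTop (𝓝 0) := by
        have := ((hA.tendsto ξ').comp l1).sub_const (A ξ')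
        simpa [Function.comp_def] using this
      simpa using h1.norm
    have l6 : Tendsto (fun n => A ξ' (ψ (φ n))) atTop (𝓝 (-y')) := by
      have h1 : Tendsto (fun n => (A (ξ (φ n)) - A ξ') (ψ (φ n))) atTop (𝓝 0) := by
        rw [tendsto_zero_iff_norm_tendsto_zero]
        refine squeeze_zero (fun _ => norm_nonneg _) (fun n => ?_) l5
        have := (A (ξ (φ n)) - A ξ').le_opNorm (ψ (φ n))
        rwa [hψ, mul_one] at this
      have h2 := l4.sub h1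
      simpa using h2
    -- the part in the orthogonal complement
    let z : ℕ → (Fᗮ : Submodule ℂ X) := fun n =>
      ⟨ψ (φ n) - F.orthogonalProjectionOnto (ψ (φ n)), by
        rw [Submodule.coe_orthogonalProjectionOnto_apply]
        exact F.sub_starProjection_mem_orthogonal _⟩
    let B : (Fᗮ : Submodule ℂ X) →L[ℂ] Y := (A ξ').comp (Fᗮ).subtypeL
    have hanti : AntilipschitzWith (Real.toNNReal δ⁻¹) B := by
      refine AddMonoidHomClass.antilipschitz_of_bound _ ?_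
      intro v
      rw [Real.coe_toNNReal _ (by positivity), ← div_eq_inv_mul, le_div_iff₀ hδ, mul_comm]
      exact hF ξ' v v.2
    have hce : IsClosedEmbedding B := hanti.isClosedEmbedding B.uniformContinuous
    have l7 : Tendsto (fun n => B (z n)) atTop (𝓝 (-y' - A ξ' f')) := by
      have h1 : ∀ n, B (z n) = A ξ' (ψ (φ n)) - A ξ' (F.orthogonalProjectionOnto (ψ (φ n)) : X) :=
        fun n => by simp [B, z]
      simp_rw [h1]
      refine l6.sub ?_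
      exact ((A ξ').continuous.tendsto _).comp ((continuous_subtype_val.tendsto _).comp l3)
    have hmem : (-y' - A ξ' f') ∈ range B :=
      hce.isClosed_range.mem_of_tendsto l7 (Eventually.of_forall fun n => ⟨z n, rfl⟩)
    obtain ⟨z', hz'⟩ := hmem
    rw [← hz'] at l7
    have l8 : Tendsto z atTop (𝓝 z') := hce.isEmbedding.tendsto_nhds_iff.mpr l7
    have l9 : Tendsto (fun n => ψ (φ n)) atTop (𝓝 ((z' : X) + f')) := by
      have h1 : ∀ n, ψ (φ n) = (z n : X) + (F.orthogonalProjectionOnto (ψ (φ n)) : X) :=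
        fun n => (sub_add_cancel _ _).symm
      refine Tendsto.congr (fun n => (h1 n).symm) ?_
      exact ((continuous_subtype_val.tendsto _).comp l8).add
        ((continuous_subtype_val.tendsto _).comp l3)
    have hn1 : ‖(z' : X) + f'‖ = 1 := by
      have := l9.norm
      simp only [hψ] at this
      exact (tendsto_nhds_unique this tendsto_const_nhds)
    have hfin : A ξ' ((z' : X) + f') + K ξ' ((z' : X) + f') = 0 := by
      have h1 : Tendsto (fun n => A (ξ (φ n)) (ψ (φ n)) + K (ξ (φ n)) (ψ (φ n))) atTop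
          (𝓝 (A ξ' ((z' : X) + f') + K ξ' ((z' : X) + f'))) := by
        refine Tendsto.add ?_ ?_
        · have h3 : Tendsto (fun n => A (ξ (φ n))) atTop (𝓝 (A ξ')) := (hA.tendsto ξ').comp l1
          exact ((isBoundedBilinearMap_apply (𝕜 := ℂ) (E := X) (F := Y)).continuous.tendsto
            (A ξ', (z' : X) + f')).comp (h3.prodMk_nhds l9)
        · exact (hK.tendsto (ξ', (z' : X) + f')).comp (l1.prodMk_nhds l9)
      exact tendsto_nhds_unique h1 l0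
    refine hno ξ' _ ?_ hfin
    intro h0
    rw [h0, norm_zero] at hn1
    exact zero_ne_one hn1
  obtain ⟨ε, hε, hQ⟩ := main
  refine ⟨ε, hε, ?_⟩
  intro ξ ψ
  rcases eq_or_ne ψ 0 with rfl | h0
  · simp
  have hn : 0 < ‖ψ‖ := norm_pos_iff.mpr h0
  set a : ℂ := ((‖ψ‖⁻¹ : ℝ) : ℂ) with ha
  have h1 := hQ _ (fract_mem ξ) (a • ψ) (by
    rw [norm_smul, ha, Complex.norm_real, norm_inv, norm_norm, inv_mul_cancel₀ hn.ne'])
  rw [per_fract A hA1 hA2 ξ, per_fract (fun ξ => K ξ (a • ψ)) (fun ξ => hK1 ξ _)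
    (fun ξ => hK2 ξ _) ξ, map_smul, hKh, ← smul_add, norm_smul, ha, Complex.norm_real, norm_inv,
    norm_norm, ← div_eq_inv_mul, le_div_iff₀ hn] at h1
  exact h1

omit [CompleteSpace X] [CompleteSpace Y] in
/-- Finite dimensional approximation of the compact map. -/
theorem finite_approx (K : ℝ × ℝ → X → Y)
    (hKh : ∀ ξ (a : ℂ) ψ, K ξ (a • ψ) = a • K ξ ψ)
    (S₁ : Set Y) (hS₁ : IsCompact S₁) (hKS : ∀ ξ ψ, ‖ψ‖ ≤ 1 → K ξ ψ ∈ S₁) {ε : ℝ} (hε : 0 < ε) :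
    ∃ W₂ : Submodule ℂ Y, FiniteDimensional ℂ W₂ ∧ ∀ (W : Submodule ℂ Y)
      [FiniteDimensional ℂ W], W₂ ≤ W → ∀ ξ ψ,
      ‖K ξ ψ - W.starProjection (K ξ ψ)‖ ≤ ε * ‖ψ‖ := by
  obtain ⟨t, htf, ht⟩ := Metric.totallyBounded_iff.mp hS₁.totallyBounded ε hε
  refine ⟨Submodule.span ℂ t, FiniteDimensional.span_of_finite ℂ htf, ?_⟩
  intro W hW hle ξ ψ
  have key : ∀ v ∈ S₁, ‖v - W.starProjection v‖ ≤ ε := by
    intro v hv
    obtain ⟨y, hy, hd⟩ := mem_iUnion₂.mp (ht hv)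
    have hyW : y ∈ W := hle (Submodule.subset_span hy)
    have h1 : W.starProjection y = y := Submodule.starProjection_eq_self_iff.mpr hyW
    have h2 : v - W.starProjection v = (Wᗮ).starProjection (v - y) := by
      rw [Submodule.starProjection_orthogonal_val, map_sub, h1]
      abel
    rw [h2]
    calc ‖(Wᗮ).starProjection (v - y)‖ ≤ ‖(Wᗮ).starProjection‖ * ‖v - y‖ :=
          ContinuousLinearMap.le_opNorm _ _
      _ ≤ 1 * ‖v - y‖ := by gcongr; exact Submodule.starProjection_norm_le _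
      _ ≤ ε := by
        rw [one_mul, ← dist_eq_norm]
        exact (Metric.mem_ball.mp hd).le
  rcases eq_or_ne ψ 0 with rfl | h0
  · have : K ξ 0 = 0 := by
      have := hKh ξ 0 0
      simpa using this
    simp [this]
  have hn : 0 < ‖ψ‖ := norm_pos_iff.mpr h0
  set a : ℂ := ((‖ψ‖⁻¹ : ℝ) : ℂ) with ha
  have h1 := key (K ξ (a • ψ)) (hKS _ _ (by
    rw [norm_smul, ha, Complex.norm_real, norm_inv, norm_norm, inv_mul_cancel₀ hn.ne']))
  rw [hKh, map_smul, ← smul_sub, norm_smul, ha, Complex.norm_real, norm_inv,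
    norm_norm, ← div_eq_inv_mul, div_le_iff₀ hn] at h1
  exact h1

end Vale.Agent.P247.H94.Red
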