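import Vale.Agent.P247.H94.Red3

/-!
# Package RED, part 4: transport of the kernels
-/

open Set Filter Topology

namespace Vale.Agent.P247.H94.Red

variable {X Y : Type*} [NormedAddCommGroup X] [InnerProductSpace ℂ X] [CompleteSpace X]
  [NormedAddCommGroup Y] [InnerProductSpace ℂ Y] [CompleteSpace Y]

omit [CompleteSpace X] in
/-- Transport along a norm continuous family of projections. -/
theorem chain (P : ℝ → ℝ × ℝ → X →L[ℂ] X) (V : ℝ → ℝ × ℝ → X → Prop)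
    (hP : ContinuousOn (fun p : ℝ × (ℝ × ℝ) => P p.1 p.2) (Icc 0 1 ×ˢ univ))
    (hP1 : ∀ s ∈ Icc (0 : ℝ) 1, ∀ ξ, P s (ξ + (1, 0)) = P s ξ)
    (hP2 : ∀ s ∈ Icc (0 : ℝ) 1, ∀ ξ, P s (ξ + (0, 1)) = P s ξ)
    (hV : ∀ s ∈ Icc (0 : ℝ) 1, ∀ ξ ψ, V s ξ (P s ξ ψ))
    (hV' : ∀ s ∈ Icc (0 : ℝ) 1, ∀ ξ ψ, V s ξ ψ → P s ξ ψ = ψ) :
    ∃ Tr : ℝ × ℝ → X →L[ℂ] X, Continuous Tr ∧ (∀ ξ, Tr (ξ + (1, 0)) = Tr ξ) ∧
      (∀ ξ, Tr (ξ + (0, 1)) = Tr ξ) ∧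
      ∀ ξ ψ, V 1 ξ ψ → ψ ≠ 0 → Tr ξ ψ ≠ 0 ∧ V 0 ξ (Tr ξ ψ) := by
  have hPs : ∀ s ∈ Icc (0 : ℝ) 1, Continuous (P s) := by
    intro s hs
    rw [← continuousOn_univ]
    have h3 : ContinuousOn (fun ξ : ℝ × ℝ => (s, ξ)) univ :=
      (continuous_const.prodMk continuous_id).continuousOn
    exact hP.comp h3 (fun ξ _ => ⟨hs, mem_univ _⟩)
  have hcomp : IsCompact (Icc (0 : ℝ) 1 ×ˢ Q : Set (ℝ × (ℝ × ℝ))) := isCompact_Icc.prod isCompact_Q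
  have huc := hcomp.uniformContinuousOn_of_continuous
    (hP.mono (prod_mono Subset.rfl (subset_univ _)))
  rw [Metric.uniformContinuousOn_iff] at huc
  obtain ⟨δ, hδ, huc⟩ := huc 1 one_pos
  obtain ⟨n, hn⟩ := exists_nat_one_div_lt hδ
  set N : ℝ := (n : ℝ) + 1 with hN
  have hNp : 0 < N := by positivity
  have hmem : ∀ k : ℕ, k ≤ n + 1 → (k : ℝ) / N ∈ Icc (0 : ℝ) 1 := by
    intro k hk
    refine ⟨by positivity, ?_⟩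
    rw [div_le_one hNp, hN]
    exact_mod_cast hk
  have hstep : ∀ k : ℕ, k + 1 ≤ n + 1 → ∀ ξ,
      ‖P ((k + 1 : ℕ) / N) ξ - P (k / N) ξ‖ < 1 := by
    intro k hk ξ
    have a1 := hmem k (by omega)
    have a2 := hmem (k + 1) hk
    rw [← per_fract (P ((k + 1 : ℕ) / N)) (hP1 _ a2) (hP2 _ a2) ξ,
      ← per_fract (P (k / N)) (hP1 _ a1) (hP2 _ a1) ξ, ← dist_eq_norm]
    refine huc (((k + 1 : ℕ) : ℝ) / N, (Int.fract ξ.1, Int.fract ξ.2)) ⟨a2, fract_mem ξ⟩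
      ((k : ℝ) / N, (Int.fract ξ.1, Int.fract ξ.2)) ⟨a1, fract_mem ξ⟩ ?_
    rw [Prod.dist_eq, dist_self, max_eq_left dist_nonneg]
    change dist (((k + 1 : ℕ) : ℝ) / N) ((k : ℝ) / N) < δ
    rw [Real.dist_eq, ← sub_div]
    have : ((k + 1 : ℕ) : ℝ) - (k : ℝ) = 1 := by push_cast; ring
    rw [this, abs_of_pos (by positivity)]
    exact hn
  let Pi : ℕ → ℝ × ℝ → X →L[ℂ] X := fun m =>
    Nat.rec (fun _ => 1) (fun k r ξ => r ξ ∘L P ((k : ℕ) / N) ξ) m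
  have hPi0 : ∀ ξ, Pi 0 ξ = 1 := fun _ => rfl
  have hPiS : ∀ k ξ, Pi (k + 1) ξ = Pi k ξ ∘L P ((k : ℕ) / N) ξ := fun _ _ => rfl
  have hall : ∀ k : ℕ, k ≤ n + 1 → Continuous (Pi k) ∧ (∀ ξ, Pi k (ξ + (1, 0)) = Pi k ξ) ∧
      (∀ ξ, Pi k (ξ + (0, 1)) = Pi k ξ) ∧
      ∀ ξ ψ, V (k / N) ξ ψ → ψ ≠ 0 → Pi k ξ ψ ≠ 0 ∧ V 0 ξ (Pi k ξ ψ) := by
    intro k
    induction k with
    | zero =>
      intro _
      refine ⟨continuous_const, fun _ => rfl, fun _ => rfl, ?_⟩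
      intro ξ ψ h3 h4
      simp only [Nat.cast_zero, zero_div] at h3
      exact ⟨h4, h3⟩
    | succ k ih =>
      intro hk
      obtain ⟨i1, i2, i3, i4⟩ := ih (by omega)
      have a1 := hmem k (by omega)
      have a2 := hmem (k + 1) hk
      refine ⟨?_, ?_, ?_, ?_⟩
      · have : Pi (k + 1) = fun ξ => Pi k ξ ∘L P ((k : ℕ) / N) ξ := rfl
        rw [this]
        exact i1.clm_comp (hPs _ a1)
      · intro ξ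
        rw [hPiS, hPiS, i2, hP1 _ a1]
      · intro ξ
        rw [hPiS, hPiS, i3, hP2 _ a1]
      · intro ξ ψ h3 h4
        rw [hPiS, ContinuousLinearMap.comp_apply]
        refine i4 ξ _ (hV _ a1 ξ ψ) ?_
        intro h5
        have h6 : P ((k + 1 : ℕ) / N) ξ ψ = ψ := hV' _ a2 ξ ψ h3
        have h7 : ψ = (P ((k + 1 : ℕ) / N) ξ - P (k / N) ξ) ψ := by
          rw [sub_apply, h6, h5, sub_zero]
        have h8 : ‖ψ‖ ≤ ‖P ((k + 1 : ℕ) / N) ξ - P (k / N) ξ‖ * ‖ψ‖ := by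
          conv_lhs => rw [h7]
          exact ContinuousLinearMap.le_opNorm _ _
        have h9 := hstep k hk ξ
        have h10 : 0 < ‖ψ‖ := norm_pos_iff.mpr h4
        nlinarith
  obtain ⟨j1, j2, j3, j4⟩ := hall (n + 1) le_rfl
  refine ⟨Pi (n + 1), j1, j2, j3, ?_⟩
  intro ξ ψ h3 h4
  have h5 : ((n + 1 : ℕ) : ℝ) / N = 1 := by
    rw [hN]; push_cast; exact div_self hNp.ne'
  refine j4 ξ ψ ?_ h4
  rw [h5]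
  exact h3

theorem transport (D : ℝ → ℝ × ℝ → X →L[ℂ] Y)
    (hD : ContinuousOn (fun p : ℝ × (ℝ × ℝ) => D p.1 p.2) (Icc 0 1 ×ˢ univ))
    (h1 : ∀ s ∈ Icc (0 : ℝ) 1, ∀ ξ, D s (ξ + (1, 0)) = D s ξ)
    (h2 : ∀ s ∈ Icc (0 : ℝ) 1, ∀ ξ, D s (ξ + (0, 1)) = D s ξ)
    (W : Submodule ℂ Y) [FiniteDimensional ℂ W]
    (hW : ∀ s ∈ Icc (0 : ℝ) 1, ∀ ξ, (⊤ : Submodule ℂ X).map (D s ξ : X →ₗ[ℂ] Y) ⊔ W = ⊤) :
    ∃ Tr : ℝ × ℝ → X →L[ℂ] X, Continuous Tr ∧ (∀ ξ, Tr (ξ + (1, 0)) = Tr ξ) ∧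
      (∀ ξ, Tr (ξ + (0, 1)) = Tr ξ) ∧
      ∀ ξ ψ, D 1 ξ ψ ∈ W → ψ ≠ 0 → Tr ξ ψ ≠ 0 ∧ D 0 ξ (Tr ξ ψ) ∈ W := by
  have hu : ∀ p ∈ (Icc (0 : ℝ) 1 ×ˢ univ : Set (ℝ × (ℝ × ℝ))), IsUnit (Gop W (D p.1 p.2)) :=
    fun p hp => Gop_isUnit W _ (hW p.1 hp.1 p.2)
  exact chain (fun s ξ => Pop W (D s ξ)) (fun s ξ ψ => D s ξ ψ ∈ W)
    (continuousOn_Pop W (fun p : ℝ × (ℝ × ℝ) => D p.1 p.2) hD hu)
    (fun s hs ξ => by rw [h1 s hs ξ]) (fun s hs ξ => by rw [h2 s hs ξ])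
    (fun s hs ξ ψ => Pop_mem W _ (hu (s, ξ) ⟨hs, mem_univ _⟩) ψ)
    (fun s hs ξ ψ h => Pop_eq W _ ψ h)

end Vale.Agent.P247.H94.Red
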