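import Vale.Agent.P247.H94.Red4
import Vale.Agent.P247.H931.Sta1

/-!
# Package RED, part 5: assembly
-/

open Set Filter Topology Asymptotics

namespace Vale.Agent.P247.H94.Red

open Vale.Agent.P247.H931

section General

variable {X Y : Type*} [NormedAddCommGroup X] [InnerProductSpace ℂ X] [CompleteSpace X]
  [NormedAddCommGroup Y] [InnerProductSpace ℂ Y] [CompleteSpace Y]

omit [CompleteSpace X] [CompleteSpace Y] in
/-- The data at the degenerate point are not zero. -/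
theorem data_ne {A : ℝ × ℝ → X →L[ℂ] Y} {c : ℝ × ℝ} {ψ₀ : X} {φ₀ : Y} {κ : ℂ} (hκ : κ ≠ 0)
    (hlin : (fun h : ℝ × ℝ => inner ℂ φ₀ (A (c + h) ψ₀) -
      κ * ((h.1 : ℂ) + (h.2 : ℂ) * Complex.I)) =o[𝓝 0] fun h => h) : ψ₀ ≠ 0 ∧ φ₀ ≠ 0 := by
  by_contra hcon
  have h0 : ∀ h : ℝ × ℝ, inner ℂ φ₀ (A (c + h) ψ₀) = 0 := by
    intro h
    rcases not_and_or.mp hcon with h1 | h1
    · rw [not_not.mp h1]; simp
    · rw [not_not.mp h1]; simp
  have h1 := hlin.def (c := ‖κ‖ / 2) (by positivity)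
  rw [Metric.eventually_nhds_iff] at h1
  obtain ⟨δ, hδ, h2⟩ := h1
  have h3 := h2 (y := (δ / 2, 0)) (by
    rw [dist_zero_right, Prod.norm_def]
    simp only [norm_zero, Real.norm_eq_abs]
    rw [max_eq_left (abs_nonneg _), abs_of_pos (by positivity)]
    linarith)
  rw [h0] at h3
  simp only [zero_sub, norm_neg, Complex.ofReal_zero, zero_mul, add_zero, norm_mul,
    Complex.norm_real, Prod.norm_def, norm_zero] at h3
  rw [max_eq_left (norm_nonneg _)] at h3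
  have h4 : 0 < ‖δ / 2‖ := by rw [Real.norm_eq_abs, abs_of_pos (by positivity)]; positivity
  have h5 : 0 < ‖κ‖ := norm_pos_iff.mpr hκ
  nlinarith [mul_pos h5 h4]

/-- There are points off the lattice in the unit square. -/
theorem exists_off (c : ℝ × ℝ) : ∃ ξ ∈ Q, ξ ∉ Lat c := by
  by_contra hcon
  push Not at hcon
  obtain ⟨m, n, h1⟩ := hcon (0, 0) ⟨⟨le_rfl, zero_le_one⟩, ⟨le_rfl, zero_le_one⟩⟩
  obtain ⟨m', n', h2⟩ := hcon (1 / 2, 0) ⟨⟨by norm_num, by norm_num⟩, ⟨le_rfl, zero_le_one⟩⟩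
  have h3 : (0 : ℝ) = c.1 + m := congrArg Prod.fst h1
  have h4 : (1 / 2 : ℝ) = c.1 + m' := congrArg Prod.fst h2
  have h5 : (1 : ℝ) = 2 * ((m' : ℝ) - m) := by linarith
  have h6 : (1 : ℤ) = 2 * (m' - m) := by exact_mod_cast h5
  omega

omit [CompleteSpace X] in
/-- The rank one correction of the degenerate operator is bijective. -/
theorem M_bijective (A : X →L[ℂ] Y) (hcl : IsClosed ((A.range : Submodule ℂ Y) : Set Y))
    (ψ₀ : X) (φ₀ : Y) (hψ : ψ₀ ≠ 0) (hφ : φ₀ ≠ 0)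
    (hker : ∀ ψ, A ψ = 0 ↔ ∃ a : ℂ, ψ = a • ψ₀)
    (hcok : ∀ y : Y, (∀ ψ, inner ℂ y (A ψ) = 0) ↔ ∃ a : ℂ, y = a • φ₀) :
    Function.Bijective (A + (innerSL ℂ ψ₀).smulRight φ₀) := by
  have hM : ∀ ψ, (A + (innerSL ℂ ψ₀).smulRight φ₀) ψ = A ψ + (inner ℂ ψ₀ ψ) • φ₀ :=
    fun ψ => by simp
  have hφ0 : ∀ ψ, inner ℂ φ₀ (A ψ) = 0 := (hcok φ₀).mpr ⟨1, by simp⟩
  have hψn : inner ℂ ψ₀ ψ₀ ≠ 0 := inner_self_ne_zero.mpr hψ
  constructor
  · rw [injective_iff_map_eq_zero]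
    intro ψ h1
    rw [hM] at h1
    have h2 : inner ℂ ψ₀ ψ = 0 := by
      have h3 := congrArg (fun y => inner ℂ φ₀ y) h1
      simp only [inner_add_right, hφ0, zero_add, inner_smul_right, inner_zero_right] at h3
      rcases mul_eq_zero.mp h3 with h4 | h4
      · exact h4
      · exact absurd (inner_self_eq_zero.mp h4) hφ
    rw [h2, zero_smul, add_zero] at h1
    obtain ⟨a, rfl⟩ := (hker ψ).mp h1
    rw [inner_smul_right] at h2
    rcases mul_eq_zero.mp h2 with h4 | h4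
    · rw [h4, zero_smul]
    · exact absurd h4 hψn
  · intro y
    have : CompleteSpace A.range := hcl.completeSpace_coe
    obtain ⟨x, hx⟩ : A.range.starProjection y ∈ A.range := A.range.starProjection_apply_mem y
    have h1 : y - A.range.starProjection y ∈ (A.range)ᗮ :=
      A.range.sub_starProjection_mem_orthogonal y
    obtain ⟨b, hb⟩ := (hcok (y - A.range.starProjection y)).mp (fun ψ =>
      (Submodule.mem_orthogonal' _ _).mp h1 (A ψ) ⟨ψ, rfl⟩)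
    refine ⟨x + ((b - inner ℂ ψ₀ x) / inner ℂ ψ₀ ψ₀) • ψ₀, ?_⟩
    have h2 : A ψ₀ = 0 := (hker ψ₀).mpr ⟨1, by simp⟩
    have h3 : A x = A.range.starProjection y := hx
    rw [hM, map_add, map_smul, h2, smul_zero, add_zero, inner_add_right, inner_smul_right,
      div_mul_cancel₀ _ hψn, add_sub_cancel, h3, ← hb]
    abel

theorem isInvertible_of_bijective {A : X →L[ℂ] Y} (h : Function.Bijective A) :
    A.IsInvertible :=
  ⟨ContinuousLinearEquiv.ofBijective A (LinearMap.ker_eq_bot.mpr h.1)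
    (LinearMap.range_eq_top.mpr h.2), ContinuousLinearEquiv.coe_ofBijective _ _ _⟩

omit [CompleteSpace Y] in
theorem continuousAt_inverse {A : X →L[ℂ] Y} (h : A.IsInvertible) :
    ContinuousAt (ContinuousLinearMap.inverse : (X →L[ℂ] Y) → (Y →L[ℂ] X)) A :=
  (h.contDiffAt_map_inverse (n := 0)).continuousAt

omit [CompleteSpace Y] in
theorem eventually_invertible {T : Type*} [TopologicalSpace T] {M : T → X →L[ℂ] Y} {x : T}
    (hM : ContinuousAt M x) (h : (M x).IsInvertible) : ∀ᶠ t in 𝓝 x, (M t).IsInvertible := by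
  have hopen : IsOpen (range ((↑) : (X ≃L[ℂ] Y) → (X →L[ℂ] Y))) := ContinuousLinearEquiv.isOpen
  obtain ⟨e, he⟩ := h
  have := hM.tendsto.eventually (hopen.mem_nhds ⟨e, he⟩)
  filter_upwards [this] with t ht
  exact ht

end General

/-- The final contradiction, for an abstract reduced map `G`. -/
theorem assemble (hTOP : TOP_statement) {X Y : Type} [NormedAddCommGroup X]
    [InnerProductSpace ℂ X] [CompleteSpace X] [NormedAddCommGroup Y] [InnerProductSpace ℂ Y]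
    [CompleteSpace Y] (A : ℝ × ℝ → X →L[ℂ] Y) (hA : Continuous A)
    (hA1 : ∀ ξ, A (ξ + (1, 0)) = A ξ) (hA2 : ∀ ξ, A (ξ + (0, 1)) = A ξ) (c : ℝ × ℝ)
    (hbij : ∀ ξ ∉ Lat c, Function.Bijective (A ξ)) (ψ₀ : X) (φ₀ : Y) (κ : ℂ) (hκ : κ ≠ 0)
    (hψ : ψ₀ ≠ 0) (hφ : φ₀ ≠ 0) (hker : A c ψ₀ = 0) (hcok : ∀ ψ, inner ℂ φ₀ (A c ψ) = 0)
    (hM : Function.Bijective (A c + (innerSL ℂ ψ₀).smulRight φ₀))
    (hlin : (fun h : ℝ × ℝ => inner ℂ φ₀ (A (c + h) ψ₀) -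
      κ * ((h.1 : ℂ) + (h.2 : ℂ) * Complex.I)) =o[𝓝 0] fun h => h)
    (hO : (fun h : ℝ × ℝ => A (c + h) - A c) =O[𝓝 0] fun h => h)
    (W : Submodule ℂ Y) [FiniteDimensional ℂ W] (hφW : φ₀ ∈ W)
    (G : ℝ × ℝ → X → W) (hG : Continuous (fun p : (ℝ × ℝ) × X => G p.1 p.2))
    (hG1 : ∀ ξ ψ, G (ξ + (1, 0)) ψ = G ξ ψ) (hG2 : ∀ ξ ψ, G (ξ + (0, 1)) ψ = G ξ ψ)
    (hGh : ∀ ξ (a : ℂ) ψ, G ξ (a • ψ) = a • G ξ ψ)
    (hGne : ∀ ξ ψ, A ξ ψ ∈ W → ψ ≠ 0 → G ξ ψ ≠ 0) : False := by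
  let M : ℝ × ℝ → X →L[ℂ] Y := fun ξ => A ξ + (innerSL ℂ ψ₀).smulRight φ₀
  have hMa : ∀ ξ ψ, M ξ ψ = A ξ ψ + (inner ℂ ψ₀ ψ) • φ₀ := fun ξ ψ => by simp [M]
  have hMc : Continuous M := hA.add continuous_const
  have hMi : (M c).IsInvertible := isInvertible_of_bijective hM
  have hev := eventually_invertible hMc.continuousAt hMi
  obtain ⟨r, hr, hball⟩ := Metric.nhds_basis_closedBall.eventually_iff.mp hev
  have hMI : ∀ ξ ∈ Metric.closedBall c r, (M ξ).IsInvertible := fun ξ hξ => hball hξ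
  have hMinv : ContinuousOn (fun ξ => (M ξ).inverse) (Metric.closedBall c r) := by
    intro ξ hξ
    exact ((continuousAt_inverse (hMI ξ hξ)).comp hMc.continuousAt).continuousWithinAt
  have hAI : ∀ ξ ∉ Lat c, (A ξ).IsInvertible := fun ξ hξ => isInvertible_of_bijective (hbij ξ hξ)
  have hAinv : ContinuousOn (fun ξ => (A ξ).inverse) (Lat c)ᶜ := by
    intro ξ hξ
    exact ((continuousAt_inverse (hAI ξ hξ)).comp hA.continuousAt).continuousWithinAt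
  -- the maps
  let F : ℝ × ℝ → W → W := fun ξ w => G ξ ((A ξ).inverse (w : Y))
  let F' : ℝ × ℝ → W → W := fun ξ w => G ξ ((M ξ).inverse (w : Y))
  let μ : ℝ × ℝ → (W →L[ℂ] ℂ) := fun ξ => (innerSL ℂ ψ₀) ∘L ((M ξ).inverse ∘L W.subtypeL)
  have hμa : ∀ ξ w, μ ξ w = inner ℂ ψ₀ ((M ξ).inverse (w : Y)) := fun ξ w => by simp [μ]
  have hAM : ∀ ξ ∈ Metric.closedBall c r, ∀ w : W,
      A ξ ((M ξ).inverse (w : Y)) = (w : Y) - (μ ξ w) • φ₀ := by
    intro ξ hξ w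
    have h1 := (hMI ξ hξ).self_apply_inverse (w : Y)
    rw [hMa] at h1
    rw [hμa]
    exact eq_sub_of_add_eq h1
  have hF : HFam (Lat c)ᶜ F := by
    refine ⟨?_, ?_, ?_⟩
    · have h1 : ContinuousOn (fun p : (ℝ × ℝ) × W => (A p.1).inverse (p.2 : Y))
          ((Lat c)ᶜ ×ˢ univ) := by
        refine ContinuousOn.clm_apply ?_ (continuous_subtype_val.comp continuous_snd).continuousOn
        exact hAinv.comp continuous_fst.continuousOn (fun p hp => hp.1)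
      exact hG.comp_continuousOn (continuous_fst.continuousOn.prodMk h1)
    · intro ξ _ a w
      simp only [F]
      rw [Submodule.coe_smul, map_smul, hGh]
    · intro ξ hξ w hw
      have h1 := (hAI ξ hξ).self_apply_inverse (w : Y)
      refine hGne ξ _ (by rw [h1]; exact w.2) ?_
      intro h2
      rw [h2, map_zero] at h1
      exact hw (Subtype.ext h1.symm)
  have hF' : HFam (Metric.closedBall c r) F' := by
    refine ⟨?_, ?_, ?_⟩
    · have h1 : ContinuousOn (fun p : (ℝ × ℝ) × W => (M p.1).inverse (p.2 : Y))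
          (Metric.closedBall c r ×ˢ univ) := by
        refine ContinuousOn.clm_apply ?_ (continuous_subtype_val.comp continuous_snd).continuousOn
        exact hMinv.comp continuous_fst.continuousOn (fun p hp => hp.1)
      exact hG.comp_continuousOn (continuous_fst.continuousOn.prodMk h1)
    · intro ξ _ a w
      simp only [F']
      rw [Submodule.coe_smul, map_smul, hGh]
    · intro ξ hξ w hw
      refine hGne ξ _ (by
        rw [hAM ξ hξ]
        exact W.sub_mem w.2 (W.smul_mem _ hφW)) ?_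
      intro h2
      have h1 := (hMI ξ hξ).self_apply_inverse (w : Y)
      rw [h2, map_zero] at h1
      exact hw (Subtype.ext h1.symm)
  have hFp1 : ∀ ξ w, F (ξ + (1, 0)) w = F ξ w := by
    intro ξ w
    simp only [F]
    rw [hA1, hG1]
  have hFp2 : ∀ ξ w, F (ξ + (0, 1)) w = F ξ w := by
    intro ξ w
    simp only [F]
    rw [hA2, hG2]
  have hμc : ContinuousOn μ (Metric.closedBall c r) :=
    continuousOn_const.clm_comp (hMinv.clm_comp continuousOn_const)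
  set φ : W := ⟨φ₀, hφW⟩ with hφdef
  have hφn : (0 : ℝ) < ‖φ₀‖ ^ 2 := by have := norm_pos_iff.mpr hφ; positivity
  have hψn : (0 : ℝ) < ‖ψ₀‖ ^ 2 := by have := norm_pos_iff.mpr hψ; positivity
  have hφi : inner ℂ φ₀ φ₀ = ((‖φ₀‖ ^ 2 : ℝ) : ℂ) := by
    rw [inner_self_eq_norm_sq_to_K]; push_cast; rfl
  have hψi : inner ℂ ψ₀ ψ₀ = ((‖ψ₀‖ ^ 2 : ℝ) : ℂ) := by
    rw [inner_self_eq_norm_sq_to_K]; push_cast; rfl
  have hφc : ((‖φ₀‖ ^ 2 : ℝ) : ℂ) ≠ 0 := by exact_mod_cast hφn.ne'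
  have hψc : ((‖ψ₀‖ ^ 2 : ℝ) : ℂ) ≠ 0 := by exact_mod_cast hψn.ne'
  set κ' : ℂ := κ / (((‖φ₀‖ ^ 2 : ℝ) : ℂ) * ((‖ψ₀‖ ^ 2 : ℝ) : ℂ)) with hκ'
  have hκ'0 : κ' ≠ 0 := div_ne_zero hκ (mul_ne_zero hφc hψc)
  have hglue : ∀ ξ ∈ Metric.closedBall c r, ξ ∉ Lat c → ∀ w,
      F ξ (w - μ ξ w • φ) = F' ξ w := by
    intro ξ hξ hξ' w
    simp only [F, F']
    congr 1
    rw [(hAI ξ hξ').inverse_apply_eq, hAM ξ hξ w]
    rfl
  refine hTOP W c F hF hFp1 hFp2 r hr F' hF' φ μ hμc κ' hκ'0 ?_ hglue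
  -- the asymptotic expansion
  set ψs : X := ((‖ψ₀‖ ^ 2 : ℝ) : ℂ)⁻¹ • ψ₀ with hψs
  have hshift : Tendsto (fun h : ℝ × ℝ => c + h) (𝓝 0) (𝓝 c) := by
    have : ContinuousAt (fun h : ℝ × ℝ => c + h) 0 := by fun_prop
    simpa [ContinuousAt] using this
  have hlim : Tendsto (fun h : ℝ × ℝ => (M (c + h)).inverse φ₀ - ψs) (𝓝 0) (𝓝 0) := by
    have h1 : Tendsto (fun h : ℝ × ℝ => (M (c + h)).inverse) (𝓝 0) (𝓝 ((M c).inverse)) := by
      have h2 : ContinuousAt (fun ξ => (M ξ).inverse) c :=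
        (continuousAt_inverse hMi).comp hMc.continuousAt
      exact h2.tendsto.comp hshift
    have h3 : Tendsto (fun h : ℝ × ℝ => (M (c + h)).inverse φ₀) (𝓝 0) (𝓝 ((M c).inverse φ₀)) :=
      ((ContinuousLinearMap.apply ℂ X φ₀).continuous.tendsto _).comp h1
    have h4 : (M c).inverse φ₀ = ψs := by
      rw [hMi.inverse_apply_eq, hMa, hψs, map_smul, hker, smul_zero, zero_add, inner_smul_right,
        hψi, inv_mul_cancel₀ hψc, one_smul]
    rw [h4] at h3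
    simpa using h3.sub_const ψs
  have hexp : ∀ᶠ h : ℝ × ℝ in 𝓝 0, 1 - μ (c + h) φ - κ' * ((h.1 : ℂ) + (h.2 : ℂ) * Complex.I) =
      ((‖φ₀‖ ^ 2 : ℝ) : ℂ)⁻¹ * inner ℂ φ₀ ((A (c + h) - A c) ((M (c + h)).inverse φ₀ - ψs)) +
      (((‖φ₀‖ ^ 2 : ℝ) : ℂ) * ((‖ψ₀‖ ^ 2 : ℝ) : ℂ))⁻¹ * (inner ℂ φ₀ (A (c + h) ψ₀) -
      κ * ((h.1 : ℂ) + (h.2 : ℂ) * Complex.I)) := by
    have h1 := hshift.eventually (Metric.closedBall_mem_nhds c hr)
    filter_upwards [h1] with h hh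
    have h2 := hAM (c + h) hh φ
    have h3 := congrArg (fun y => inner ℂ φ₀ y) h2
    simp only [inner_sub_right, inner_smul_right, hφdef] at h3
    rw [hφi] at h3
    have h4 : inner ℂ φ₀ ((A (c + h) - A c) ((M (c + h)).inverse φ₀ - ψs)) =
        inner ℂ φ₀ (A (c + h) ((M (c + h)).inverse φ₀)) -
          ((‖ψ₀‖ ^ 2 : ℝ) : ℂ)⁻¹ * inner ℂ φ₀ (A (c + h) ψ₀) := by
      rw [sub_apply, inner_sub_right, hcok, sub_zero, map_sub, inner_sub_right, hψs, map_smul,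
        inner_smul_right]
    rw [h4, h3, hκ', ← hφdef]
    field_simp
    ring
  have h1 : (fun h : ℝ × ℝ => inner ℂ φ₀ ((A (c + h) - A c) ((M (c + h)).inverse φ₀ - ψs)))
      =o[𝓝 0] fun h => h := by
    have h2 : (fun h : ℝ × ℝ => inner ℂ φ₀ ((A (c + h) - A c) ((M (c + h)).inverse φ₀ - ψs)))
        =O[𝓝 0] fun h => ‖A (c + h) - A c‖ * ‖(M (c + h)).inverse φ₀ - ψs‖ := by
      refine IsBigO.of_bound ‖φ₀‖ (Eventually.of_forall fun h => ?_)
      refine (norm_inner_le_norm _ _).trans ?_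
      rw [norm_mul, norm_norm, norm_norm]
      exact mul_le_mul_of_nonneg_left (ContinuousLinearMap.le_opNorm _ _) (norm_nonneg _)
    have h3 : (fun h : ℝ × ℝ => ‖A (c + h) - A c‖ * ‖(M (c + h)).inverse φ₀ - ψs‖)
        =o[𝓝 0] fun h => ‖h‖ * (1 : ℝ) := by
      refine IsBigO.mul_isLittleO hO.norm_norm ?_
      rw [isLittleO_one_iff]
      simpa using hlim.norm
    refine (h2.trans_isLittleO h3).trans_isBigO ?_
    refine IsBigO.of_bound 1 (Eventually.of_forall fun h => ?_)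
    simp
  have h2 := (h1.const_mul_left (((‖φ₀‖ ^ 2 : ℝ) : ℂ)⁻¹)).add
    (hlin.const_mul_left ((((‖φ₀‖ ^ 2 : ℝ) : ℂ) * ((‖ψ₀‖ ^ 2 : ℝ) : ℂ))⁻¹))
  exact h2.congr' (hexp.mono fun h hh => hh.symm) EventuallyEq.rfl

end Vale.Agent.P247.H94.Red
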